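import Vale.Agent.P073.H805.FB

/-!
# P073, H805: germs of regular functions, for infinite families
-/

open Set Metric Topology Filter

namespace P073.H805

open P073 P073.TR

variable {E F : Type*} [NormedAddCommGroup E] [NormedSpace ℝ E]
  [NormedAddCommGroup F] [NormedSpace ℝ F] {ι κ : Type*}

/-- only the germs matter, for infinite families -/
theorem Reg.congr_unif [FiniteDimensional ℝ F] {u u' : E → F} {M : ι → Set E} {M' : κ → Set E}
    {x : E} (h : Reg u M x) (hu : u' =ᶠ[𝓝 x] u) {O : Set E} (hO : O ∈ 𝓝 x)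
    (hM : ∀ k, (∃ i, ∀ y ∈ O, (y ∈ M' k ↔ y ∈ M i)) ∨ (∀ y ∈ O, y ∉ M' k)) : Reg u' M' x := by
  obtain ⟨σ, r, h⟩ := h
  have hev : ∀ᶠ y in 𝓝 x, u' y = u y ∧ y ∈ O := hu.and hO
  obtain ⟨δ, hδ, hδ'⟩ := Metric.eventually_nhds_iff_ball.1 hev
  have hσc : Continuous σ := σ.continuous_of_finiteDimensional
  have hc : ContinuousAt (fun z : E × F => x + z.1 + σ z.2) (0, 0) := by
    apply Continuous.continuousAt; fun_prop
  have hev2 : ∀ᶠ z : E × F in 𝓝 (0, 0), x + z.1 + σ z.2 ∈ ball x δ :=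
    hc.eventually (by simp only [map_zero, add_zero]; exact ball_mem_nhds x hδ)
  have hev3 : ∀ᶠ z : E × F in 𝓝 (0, 0), x + z.1 ∈ ball x δ := by
    have hc3 : ContinuousAt (fun z : E × F => x + z.1) (0, 0) := by
      apply Continuous.continuousAt; fun_prop
    exact hc3.eventually (by simp only [add_zero]; exact ball_mem_nhds x hδ)
  obtain ⟨ρ, hρ, hb⟩ := Metric.eventually_nhds_iff_ball.1 (hev2.and hev3)
  refine ⟨σ, min r ρ, lt_min h.pos hρ, fun w s hw hs => ?_, fun k w s hw hs => ?_⟩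
  all_goals
    have hz : ((w, s) : E × F) ∈ ball ((0:E), (0:F)) ρ := by
      rw [mem_ball, Prod.dist_eq]
      simp only [dist_zero_right]
      exact max_lt (hw.trans_le (min_le_right _ _)) (hs.trans_le (min_le_right _ _))
    obtain ⟨h1, h2⟩ := hb _ hz
    have hw' := hw.trans_le (min_le_left r ρ)
    have hs' := hs.trans_le (min_le_left r ρ)
  · rw [(hδ' _ h1).1, (hδ' _ h2).1, h.add w s hw' hs']
  · rcases hM k with ⟨i, hi⟩ | hk
    · rw [hi _ (hδ' _ h1).2, hi _ (hδ' _ h2).2]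
      exact h.iff i w s hw' hs'
    · exact iff_of_false (hk _ (hδ' _ h1).2) (hk _ (hδ' _ h2).2)

/-- a locally finite family of closed sets: from the members which meet the compact set `C` -/
theorem Reg.lift [FiniteDimensional ℝ F] {u : E → F} {M : ι → Set E} {x : E} {C : Set E}
    (hx : x ∈ C) (hcl : ∀ i, IsClosed (M i)) (hlf : ∃ O ∈ 𝓝 x, {i | (M i ∩ O).Nonempty}.Finite)
    (h : Reg u (fun i : {i // (M i ∩ C).Nonempty} => M i) x) : Reg u M x := by
  obtain ⟨O, hO, hfin⟩ := hlf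
  have h1 : ∀ i ∈ {i | (M i ∩ O).Nonempty}, ∀ᶠ y in 𝓝 x, x ∉ M i → y ∉ M i := by
    intro i _
    by_cases hxi : x ∈ M i
    · exact Filter.Eventually.of_forall fun _ h => absurd hxi h
    · filter_upwards [(hcl i).isOpen_compl.mem_nhds hxi] with y hy _
      exact hy
  have h2 : ∀ᶠ y in 𝓝 x, ∀ i ∈ {i | (M i ∩ O).Nonempty}, x ∉ M i → y ∉ M i :=
    (Set.Finite.eventually_all hfin).2 h1
  refine h.congr_unif (M' := M) (by rfl) (Filter.inter_mem hO h2) fun i => ?_
  by_cases hiC : (M i ∩ C).Nonempty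
  · exact Or.inl ⟨⟨i, hiC⟩, fun y _ => Iff.rfl⟩
  · refine Or.inr fun y hy hyi => ?_
    have hxi : x ∉ M i := fun hxi => hiC ⟨x, hxi, hx⟩
    exact hy.2 i ⟨y, hyi, hy.1⟩ hxi hyi

end P073.H805
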