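import Vale.Agent.P073.H805.PlateB
import Vale.Agent.P073.H805.RegU

/-!
# P073, H805: **[PLATE-MESH]** (A14.17), `exists_plates`

From a mesh with plates (`PlateIn`) to a new homeomorphism which is unchanged off the plates, with
face patterns (`HasPat`) on all faces near a plate, crossing clauses and counts for all sets of the
family.
-/

set_option linter.unusedSectionVars false

open Set Metric Topology Filter

namespace P073.H805

open P073 P073.TR P073.H579

open Vale.Agent.P073.H238 (PFace meshFace mesh_sub)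
open Vale.Agent.P073.H73 (Mesh)

open Vale.Agent.P073.St (V)

variable {Ω Λ : Set V} {Γ γ : Type}

/-- the levels of a plate, by coordinate -/
def Plate.lv (P : Plate) : Fin 3 → Finset ℝ := fun l => if l = P.i then P.a else
  if l = P.j then P.b else ∅

theorem Plate.lvF_eq (P : Plate) : lvF P.i P.j P.a P.b = fun l => (P.lv l : Set ℝ) := by
  funext l
  unfold lvF Plate.lv
  split_ifs <;> simp

theorem Plate.lv_i (P : Plate) : P.lv P.i = P.a := by simp [Plate.lv]

theorem Plate.lv_j (P : Plate) (h : P.i ≠ P.j) : P.lv P.j = P.b := by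
  simp [Plate.lv, h.symm]

/-- **`A` has a face pattern for `h` and the levels of `P`** -/
def HasPat (A : Set V) (h : V → V) (P : Plate) : Prop :=
  ∃ (K : Type) (_ : Finite K) (S : K → Set V) (col : K → Bool) (lev : K → ℝ),
    FacePat A (intrinsicFrontier ℝ A) h (fun l => (P.lv l : Set ℝ)) S
      (fun α => bif col α then P.j else P.i) lev col ∧
    ∀ α β, α ≠ β → (bif col α then P.j else P.i) = (bif col β then P.j else P.i) →
      Disjoint (S α) (S β)

theorem HasPat.of {A : Set V} {h : V → V} {P : Plate} (hij : P.i ≠ P.j) {K : Type} [Finite K]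
    {S : K → Set V} {col : K → Bool} {lev : K → ℝ}
    (H : FacePat A (intrinsicFrontier ℝ A) h (lvF P.i P.j P.a P.b) S
      (fun α => bif col α then P.j else P.i) lev col) : HasPat A h P := by
  rw [P.lvF_eq] at H
  refine ⟨K, inferInstance, S, col, lev, H, fun α β hne he => H.pat.dis α β hne ?_⟩
  cases h1 : col α <;> cases h2 : col β <;> simp only [h1, h2, cond_true, cond_false] at he
  · rfl
  · exact absurd he hij
  · exact absurd he.symm hij
  · rfl

/-- only the levels matter -/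
theorem HasPat.congr {A : Set V} {h h' : V → V} {P : Plate} (H : HasPat A h P)
    (h0 : ∀ l, ∀ k ∈ P.lv l, ∀ x ∈ A, (h' x l = k ↔ h x l = k) ∧ (h' x l < k ↔ h x l < k) ∧
      (k < h' x l ↔ k < h x l)) : HasPat A h' P := by
  obtain ⟨K, hK, S, col, lev, h1, h2⟩ := H
  exact ⟨K, hK, S, col, lev, h1.congr h0, h2⟩

/-- the pattern of a clean face -/
theorem hasPat_clean {ι : Type*} {F : ι → Set V} (hΩ : IsOpen Ω) (h : ConHomeo Ω Λ) {P : Plate}
    (hij : P.i ≠ P.j) {M : Mesh Ω} {k : M.κ} (hk : ∃ m, F m = M.F k)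
    (ra : ∀ x ∈ M.F k, h.toFun x P.i ∈ P.a → Reg (fun y => h.toFun y P.i) F x)
    (rb : ∀ x ∈ M.F k, h.toFun x P.j ∈ P.b → Reg (fun y => h.toFun y P.j) F x)
    (hc : Clean h.toFun P (M.F k)) : HasPat (M.F k) h.toFun P := by
  obtain ⟨m, hm⟩ := hk
  have H : LevReg F (M.F k) (pr2 (fun x => h.toFun x P.i) fun x => h.toFun x P.j)
      (fun c => bif c then P.b else P.a) :=
    LevReg.of_homeo hΩ h (mesh_sub M k) ra rb fun x hx h1 h2 => absurd h2 (hc.1 x hx h1)
  have hball : ConBall 2 (M.F k) ((meshFace M k).ch '' frontier (meshFace M k).C) := by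
    rw [← (meshFace M k).intrinsicFrontier_eq]
    exact Vale.Agent.P073.H244.conBall_face M k
  obtain ⟨K, hK, S, cd, lev, h1⟩ := exists_facePat_off H (meshFace M k) hm hball
    (fun b l hl σ hσ hs => by
      have h2 := hc.2 σ hσ fun x hx => (hs hx).1
      cases b
      · exact h2.1 fun x hx => by
          have h3 : h.toFun x P.i = l := (hs hx).2
          rw [h3]; exact hl
      · exact h2.2 fun x hx => by
          have h3 : h.toFun x P.j = l := (hs hx).2
          rw [h3]; exact hl)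
    (fun x hx h1 => hc.1 x hx h1)
  rw [← (meshFace M k).intrinsicFrontier_eq] at h1
  exact HasPat.of hij (FacePat.coords hij h1)

/-- the pattern of a face in a wall -/
theorem hasPat_inj {ι : Type*} {F : ι → Set V} (hΩ : IsOpen Ω) (h : ConHomeo Ω Λ) {P : Plate}
    (hij : P.i ≠ P.j) {M : Mesh Ω} {k : M.κ} (hk : ∃ m, F m = M.F k)
    (ra : ∀ x ∈ M.F k, h.toFun x P.i ∈ P.a → Reg (fun y => h.toFun y P.i) F x)
    (rb : ∀ x ∈ M.F k, h.toFun x P.j ∈ P.b → Reg (fun y => h.toFun y P.j) F x)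
    (rab : ∀ x ∈ M.F k, h.toFun x P.i ∈ P.a → h.toFun x P.j ∈ P.b →
      Reg (fun y => (h.toFun y P.i, h.toFun y P.j)) F x)
    (hinj : ∀ x ∈ M.F k, ∀ y ∈ M.F k, h.toFun x P.i = h.toFun y P.i →
      h.toFun x P.j = h.toFun y P.j → x = y) : HasPat (M.F k) h.toFun P := by
  obtain ⟨m, hm⟩ := hk
  have H : LevReg F (M.F k) (pr2 (fun x => h.toFun x P.i) fun x => h.toFun x P.j)
      (fun c => bif c then P.b else P.a) :=
    LevReg.of_homeo hΩ h (mesh_sub M k) ra rb rab
  have hball : ConBall 2 (M.F k) ((meshFace M k).ch '' frontier (meshFace M k).C) := by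
    rw [← (meshFace M k).intrinsicFrontier_eq]
    exact Vale.Agent.P073.H244.conBall_face M k
  obtain ⟨K, hK, S, cd, lev, h1⟩ := exists_facePat_inj H (meshFace M k) hm hball hinj
  rw [← (meshFace M k).intrinsicFrontier_eq] at h1
  exact HasPat.of hij (FacePat.coords hij h1)

/-- crossing is a local property -/
theorem Crosses.congr_nhds {A : Set V} {w w' : V → ℝ} {x : V} (H : Crosses A w x)
    (h0 : w' x = w x) (h : ∀ᶠ y in 𝓝 x, y ∈ A → w' y = w y) : Crosses A w' x := by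
  have key : ∀ {s t : Set V}, x ∈ closure s → (∀ᶠ y in 𝓝 x, y ∈ s → y ∈ t) → x ∈ closure t := by
    intro s t hs hev
    rw [mem_closure_iff_nhds] at hs ⊢
    intro U hU
    obtain ⟨y, hy, hys⟩ := hs _ (Filter.inter_mem hU hev)
    exact ⟨y, hy.1, hy.2 hys⟩
  constructor
  · refine key H.1 ?_
    filter_upwards [h] with y hy hys
    refine ⟨hys.1, ?_⟩
    rw [h0, hy hys.1]; exact hys.2
  · refine key H.2 ?_
    filter_upwards [h] with y hy hys
    refine ⟨hys.1, ?_⟩
    rw [h0, hy hys.1]; exact hys.2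

/-- the levels of `P` on `A`: the points, by direction -/
def ptsI (h : V → V) (P : Plate) (A : Set V) : Set V := {x | x ∈ A ∧ h x P.i ∈ P.a}

/-- the points of the second family -/
def ptsJ (h : V → V) (P : Plate) (A : Set V) : Set V := {x | x ∈ A ∧ h x P.j ∈ P.b}

/-- **regular functions with the levels of `h'`** in the plate `P c` (off the other plates) -/
structure PReg (h h' : ConHomeo Ω Λ) (G : Γ → Set V) (P : γ → Plate) (c : γ) (u v : V → ℝ) :
    Prop where
  conu : ConicalOn u Ω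
  contu : ContinuousOn u Ω
  conv : ConicalOn v Ω
  contv : ContinuousOn v Ω
  su : SameLev (P c).a {x | x ∈ Ω ∧ ∀ d, d ≠ c → h.toFun x ∉ interior (Icc (P d).lo (P d).hi)}
    (fun x => h'.toFun x (P c).i) u
  sv : SameLev (P c).b {x | x ∈ Ω ∧ ∀ d, d ≠ c → h.toFun x ∉ interior (Icc (P d).lo (P d).hi)}
    (fun x => h'.toFun x (P c).j) v
  regu : ∀ x ∈ Ω, u x ∈ (P c).a → Reg u (pFam h G P) x
  regv : ∀ x ∈ Ω, v x ∈ (P c).b → Reg v (pFam h G P) x
  reguv : ∀ x ∈ Ω, u x ∈ (P c).a → v x ∈ (P c).b → Reg (fun y => (u y, v y)) (pFam h G P) x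

/-- **output of [PLATE-MESH]** -/
structure PlatesOut (h h' : ConHomeo Ω Λ) (M : Mesh Ω) (G : Γ → Set V) (P : γ → Plate)
    (Act : Set M.κ) : Prop where
  /-- nothing changes off the plates -/
  off : ∀ x ∈ Ω, (∀ c, h.toFun x ∉ interior (Icc (P c).lo (P c).hi)) → h'.toFun x = h.toFun x
  /-- the plates are preserved -/
  box : ∀ c, ∀ x ∈ Ω, h'.toFun x ∈ Icc (P c).lo (P c).hi ↔ h.toFun x ∈ Icc (P c).lo (P c).hi
  /-- the levels on the margins are unchanged -/
  levi : ∀ c, SameLev (P c).a ((P c).Y h) (fun x => h'.toFun x (P c).i)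
    (fun x => h.toFun x (P c).i)
  levj : ∀ c, SameLev (P c).b ((P c).Y h) (fun x => h'.toFun x (P c).j)
    (fun x => h.toFun x (P c).j)
  /-- faces inside a plate -/
  inner : ∀ c, ∀ k ∈ Act, M.F k ⊆ (P c).U h → Disjoint (intrinsicInterior ℝ (M.F k)) ((P c).B h) →
    HasPat (M.F k) h'.toFun (P c)
  /-- faces which meet the plate in the margin only -/
  side : ∀ c k, M.F k ∩ (P c).U h ⊆ (P c).Y h ∪ (P c).B h →
    (∀ d, d ≠ c → M.F k ∩ (P d).U h ⊆ (P d).B h) → Clean h.toFun (P c) (M.F k) →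
    HasPat (M.F k) h'.toFun (P c)
  /-- faces which are not inside the plates -/
  wall : ∀ c k, (∀ d, M.F k ∩ (P d).U h ⊆ (P d).B h) →
    (∀ x ∈ M.F k, ∀ y ∈ M.F k, h.toFun x (P c).i = h.toFun y (P c).i →
      h.toFun x (P c).j = h.toFun y (P c).j → x = y) → HasPat (M.F k) h'.toFun (P c)
  /-- the sets of the family cross the levels -/
  crossi : ∀ c g, (∀ d, d ≠ c → G g ∩ (P d).U h ⊆ (P d).B h) → ∀ x ∈ G g, x ∈ Ω →
    h'.toFun x (P c).i ∈ (P c).a → Crosses (G g) (fun y => h'.toFun y (P c).i) x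
  crossj : ∀ c g, (∀ d, d ≠ c → G g ∩ (P d).U h ⊆ (P d).B h) → ∀ x ∈ G g, x ∈ Ω →
    h'.toFun x (P c).j ∈ (P c).b → Crosses (G g) (fun y => h'.toFun y (P c).j) x
  /-- counts -/
  count : ∀ c g, (∀ d, d ≠ c → G g ∩ (P d).U h ⊆ (P d).B h) → G g ⊆ Ω →
    (∀ x ∈ G g, h.toFun x (P c).i ∈ (P c).a → h.toFun x (P c).j ∉ (P c).b) →
    (ptsI h.toFun (P c) (G g)).Finite → (ptsJ h.toFun (P c) (G g)).Finite →
    (∀ x ∈ G g, h'.toFun x (P c).i ∈ (P c).a → h'.toFun x (P c).j ∉ (P c).b) ∧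
    (ptsI h'.toFun (P c) (G g)).Finite ∧ (ptsJ h'.toFun (P c) (G g)).Finite ∧
    (ptsI h'.toFun (P c) (G g)).ncard + (ptsJ h'.toFun (P c) (G g)).ncard ≤
      (ptsI h.toFun (P c) (G g)).ncard + (ptsJ h.toFun (P c) (G g)).ncard
  /-- regularity -/
  reg : ∀ c, ∃ u v : V → ℝ, PReg h h' G P c u v

/-- **[PLATE-MESH]** -/
theorem exists_plates (hΩ : IsOpen Ω) (hΛ : IsOpen Λ) {h : ConHomeo Ω Λ} {M : Mesh Ω}
    {G : Γ → Set V} {P : γ → Plate} {Act : Set M.κ} (H : PlateIn h M G P Act) :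
    ∃ h' : ConHomeo Ω Λ, PlatesOut h h' M G P Act := by
  have h3 : Module.finrank ℝ V = 3 := by simp
  obtain ⟨h', hout, -, hbox, hoff⟩ := exists_e3_all h3 hΩ hΛ h (fun c => H.ebox hΩ c)
    (fun c => H.ebox_ok hΩ c) H.lf H.dis
  have hO : ∀ c, E3Out h (PlateIn.fm h G P c) (P c).lo (P c).hi (P c).i (P c).j (P c).a (P c).b
      (H.fc c) ((P c).Y h) h'.toFun := hout
  have hoff' : ∀ x ∈ Ω, (∀ c, h.toFun x ∉ interior (Icc (P c).lo (P c).hi)) →
      h'.toFun x = h.toFun x := hoff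
  -- a point which is in no open plate
  have mem_int : ∀ c, ∀ x ∈ Ω, h.toFun x ∈ interior (Icc (P c).lo (P c).hi) →
      x ∈ (P c).U h ∧ x ∉ (P c).B h := by
    intro c x hx hxi
    refine ⟨(H.ok c).mem_U.2 ⟨hx, interior_subset hxi⟩, fun hB => ?_⟩
    have := ((H.ok c).mem_B.1 hB).2
    rw [isClosed_Icc.frontier_eq] at this
    exact this.2 hxi
  -- equality on a set, off the plate `c`
  have eq_of : ∀ c (A : Set V), (∀ d, d ≠ c → A ∩ (P d).U h ⊆ (P d).B h) → ∀ x ∈ A, x ∈ Ω →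
      x ∉ (P c).U h \ (P c).B h → h'.toFun x = h.toFun x := by
    intro c A hA x hx hxΩ hxU
    refine hoff' x hxΩ fun d hd => ?_
    obtain ⟨h1, h2⟩ := mem_int d x hxΩ hd
    by_cases hdc : d = c
    · subst hdc; exact hxU ⟨h1, h2⟩
    · exact h2 (hA d hdc ⟨hx, h1⟩)
  refine ⟨h', hoff', hbox, fun c => (hO c).levi, fun c => (hO c).levj, ?_, ?_, ?_, ?_, ?_, ?_, ?_⟩
  · -- inner faces
    intro c k hka hk hkB
    obtain ⟨K, hK, S, cd, lev, h1⟩ := (hO c).pat (⟨k, ⟨hk, hkB⟩, hka⟩ : PlateIn.Fac h M P Act c)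
    have e1 : PlateIn.fm h G P c (H.fc c ⟨k, ⟨hk, hkB⟩, hka⟩).i₀ = M.F k := H.fm_gi c ⟨k, ⟨hk, hkB⟩, hka⟩
    rw [H.bd_fc, e1] at h1
    refine HasPat.of (H.ok c).ij (K := K) (S := S) (col := cd) (lev := lev) ?_
    exact FacePat.toFin h1 (H.ok c).ij (g := h'.toFun)
      (fun k _ x _ => ⟨Iff.rfl, Iff.rfl, Iff.rfl⟩) (fun k _ x _ => ⟨Iff.rfl, Iff.rfl, Iff.rfl⟩)
  · -- side faces
    intro c k hk hkd hc
    have hk0 : ∃ m, pFam h G P m = M.F k := by
      obtain ⟨g, hg⟩ := H.face k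
      exact ⟨Sum.inl g, hg⟩
    have h1 : HasPat (M.F k) h.toFun (P c) := hasPat_clean hΩ h (H.ok c).ij hk0
      (fun x hx => H.regi c x (mesh_sub M k hx)) (fun x hx => H.regj c x (mesh_sub M k hx)) hc
    refine h1.congr fun l z hz x hx => ?_
    have hxΩ := mesh_sub M k hx
    by_cases hxU : x ∈ (P c).U h \ (P c).B h
    · have hxY : x ∈ (P c).Y h := (hk ⟨hx, hxU.1⟩).resolve_right hxU.2
      by_cases hl : l = (P c).i
      · subst hl
        rw [Plate.lv_i] at hz
        exact (hO c).levi z hz x hxY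
      · by_cases hl' : l = (P c).j
        · subst hl'
          rw [Plate.lv_j _ (H.ok c).ij] at hz
          exact (hO c).levj z hz x hxY
        · exfalso
          simp [Plate.lv, hl, hl'] at hz
    · rw [eq_of c (M.F k) hkd x hx hxΩ hxU]
      exact ⟨Iff.rfl, Iff.rfl, Iff.rfl⟩
  · -- faces in walls
    intro c k hkd hinj
    have hk0 : ∃ m, pFam h G P m = M.F k := by
      obtain ⟨g, hg⟩ := H.face k
      exact ⟨Sum.inl g, hg⟩
    have h1 : HasPat (M.F k) h.toFun (P c) := hasPat_inj hΩ h (H.ok c).ij hk0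
      (fun x hx => H.regi c x (mesh_sub M k hx)) (fun x hx => H.regj c x (mesh_sub M k hx))
      (fun x hx => H.regij c x (mesh_sub M k hx)) hinj
    refine h1.congr fun l z hz x hx => ?_
    rw [eq_of c (M.F k) (fun d _ => hkd d) x hx (mesh_sub M k hx)
      fun hxU => hxU.2 (hkd c ⟨hx, hxU.1⟩)]
    exact ⟨Iff.rfl, Iff.rfl, Iff.rfl⟩
  · -- crossing
    intro c g hg x hx hxΩ hxa
    by_cases hxU : x ∈ (P c).U h
    · exact ((hO c).crossi ⟨Sum.inl g, x, hx, hxU⟩ x hx hxU hxa).mono inter_subset_left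
    · have hev : ∀ᶠ y in 𝓝 x, y ∈ G g → h'.toFun y = h.toFun y := by
        filter_upwards [(H.ok c).isCompact_U.isClosed.isOpen_compl.mem_nhds hxU,
          hΩ.mem_nhds hxΩ] with y hyU hyΩ hyg
        exact eq_of c (G g) hg y hyg hyΩ fun h1 => hyU h1.1
      have hx0 : h'.toFun x = h.toFun x := eq_of c (G g) hg x hx hxΩ fun h1 => hxU h1.1
      obtain ⟨σ, r, hb⟩ := H.regi c x hxΩ (by rw [← hx0]; exact hxa)
      have h1 := (crosses_of_box hb (m := Sum.inl g) (n := Sum.inl g) hx hx).mono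
        (A' := G g) inter_subset_left
      refine h1.congr_nhds (by rw [hx0]) ?_
      filter_upwards [hev] with y hy hyg
      rw [hy hyg]
  · intro c g hg x hx hxΩ hxa
    by_cases hxU : x ∈ (P c).U h
    · exact ((hO c).crossj ⟨Sum.inl g, x, hx, hxU⟩ x hx hxU hxa).mono inter_subset_left
    · have hev : ∀ᶠ y in 𝓝 x, y ∈ G g → h'.toFun y = h.toFun y := by
        filter_upwards [(H.ok c).isCompact_U.isClosed.isOpen_compl.mem_nhds hxU,
          hΩ.mem_nhds hxΩ] with y hyU hyΩ hyg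
        exact eq_of c (G g) hg y hyg hyΩ fun h1 => hyU h1.1
      have hx0 : h'.toFun x = h.toFun x := eq_of c (G g) hg x hx hxΩ fun h1 => hxU h1.1
      obtain ⟨σ, r, hb⟩ := H.regj c x hxΩ (by rw [← hx0]; exact hxa)
      have h1 := (crosses_of_box hb (m := Sum.inl g) (n := Sum.inl g) hx hx).mono
        (A' := G g) inter_subset_left
      refine h1.congr_nhds (by rw [hx0]) ?_
      filter_upwards [hev] with y hy hyg
      rw [hy hyg]
  · -- counts
    intro c g hg hgΩ hoffg hfI hfJ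
    set A : Set V := G g with hA
    -- the parts inside and outside of the plate
    have eI : ∀ w : V → V, ptsI w (P c) A = {x | (x ∈ A ∧ x ∈ (P c).U h) ∧ w x (P c).i ∈ (P c).a} ∪
        {x | (x ∈ A ∧ x ∉ (P c).U h) ∧ w x (P c).i ∈ (P c).a} := by
      intro w; ext x
      simp only [ptsI, mem_ofPred_eq, mem_union]
      tauto
    have eJ : ∀ w : V → V, ptsJ w (P c) A = {x | (x ∈ A ∧ x ∈ (P c).U h) ∧ w x (P c).j ∈ (P c).b} ∪
        {x | (x ∈ A ∧ x ∉ (P c).U h) ∧ w x (P c).j ∈ (P c).b} := by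
      intro w; ext x
      simp only [ptsJ, mem_ofPred_eq, mem_union]
      tauto
    have hout1 : ∀ x, x ∈ A ∧ x ∉ (P c).U h → h'.toFun x = h.toFun x := fun x hx =>
      eq_of c A hg x hx.1 (hgΩ hx.1) fun h1 => hx.2 h1.1
    have oI : {x | (x ∈ A ∧ x ∉ (P c).U h) ∧ h'.toFun x (P c).i ∈ (P c).a} =
        {x | (x ∈ A ∧ x ∉ (P c).U h) ∧ h.toFun x (P c).i ∈ (P c).a} := by
      ext x
      exact and_congr_right fun hx => by rw [hout1 x hx]
    have oJ : {x | (x ∈ A ∧ x ∉ (P c).U h) ∧ h'.toFun x (P c).j ∈ (P c).b} =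
        {x | (x ∈ A ∧ x ∉ (P c).U h) ∧ h.toFun x (P c).j ∈ (P c).b} := by
      ext x
      exact and_congr_right fun hx => by rw [hout1 x hx]
    -- the statement inside the plate
    have key : (∀ x ∈ A, x ∈ (P c).U h → h'.toFun x (P c).i ∈ (P c).a →
        h'.toFun x (P c).j ∉ (P c).b) ∧
        {x | (x ∈ A ∧ x ∈ (P c).U h) ∧ h'.toFun x (P c).i ∈ (P c).a}.Finite ∧
        {x | (x ∈ A ∧ x ∈ (P c).U h) ∧ h'.toFun x (P c).j ∈ (P c).b}.Finite ∧
        {x | (x ∈ A ∧ x ∈ (P c).U h) ∧ h'.toFun x (P c).i ∈ (P c).a}.ncard +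
          {x | (x ∈ A ∧ x ∈ (P c).U h) ∧ h'.toFun x (P c).j ∈ (P c).b}.ncard ≤
        {x | (x ∈ A ∧ x ∈ (P c).U h) ∧ h.toFun x (P c).i ∈ (P c).a}.ncard +
          {x | (x ∈ A ∧ x ∈ (P c).U h) ∧ h.toFun x (P c).j ∈ (P c).b}.ncard := by
      by_cases hne : (A ∩ (P c).U h).Nonempty
      · let m : PlateIn.Idx h G P c := ⟨Sum.inl g, hne⟩
        have hoff0 : Off (boxData h (PlateIn.fm h G P c) (P c).lo (P c).hi (P c).i (P c).j
            (P c).a (P c).b) m (fun x => h.toFun x (P c).i) (fun x => h.toFun x (P c).j) := by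
          refine Set.disjoint_left.2 ?_
          rintro x ⟨⟨hx, -⟩, hxa⟩ ⟨-, hxb⟩
          exact hoffg x hx hxa hxb
        obtain ⟨k1, k2, k3⟩ := (hO c).rel.cnt m hoff0
          (hfI.subset fun x hx => ⟨hx.1.1, hx.2⟩) (hfJ.subset fun x hx => ⟨hx.1.1, hx.2⟩)
        have k0 := (hO c).rel.off m hoff0
        exact ⟨fun x hx hxU hxa hxb => Set.disjoint_left.1 k0 ⟨⟨hx, hxU⟩, hxa⟩
          ⟨⟨hx, hxU⟩, hxb⟩, k1, k2, k3⟩
      · have e0 : ∀ p : V → Prop, {x | (x ∈ A ∧ x ∈ (P c).U h) ∧ p x} = ∅ := by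
          intro p
          rw [Set.eq_empty_iff_forall_notMem]
          rintro x ⟨hx, -⟩
          exact hne ⟨x, hx⟩
        refine ⟨fun x hx hxU => absurd ⟨x, hx, hxU⟩ hne, ?_, ?_, ?_⟩
        · rw [e0]; exact finite_empty
        · rw [e0]; exact finite_empty
        · rw [e0, e0, e0, e0]
    obtain ⟨k0, k1, k2, k3⟩ := key
    have fI := hfI
    have fJ := hfJ
    rw [eI] at fI
    rw [eJ] at fJ
    have gI := fI.subset subset_union_right
    have gJ := fJ.subset subset_union_right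
    have gI' := fI.subset subset_union_left
    have gJ' := fJ.subset subset_union_left
    refine ⟨fun x hx hxa hxb => ?_, ?_, ?_, ?_⟩
    · by_cases hxU : x ∈ (P c).U h
      · exact k0 x hx hxU hxa hxb
      · have h1 := hout1 x ⟨hx, hxU⟩
        rw [h1] at hxa hxb
        exact hoffg x hx hxa hxb
    · rw [eI, oI]; exact k1.union gI
    · rw [eJ, oJ]; exact k2.union gJ
    · have dI : ∀ p q : V → Prop, Disjoint {x | (x ∈ A ∧ x ∈ (P c).U h) ∧ p x}
          {x | (x ∈ A ∧ x ∉ (P c).U h) ∧ q x} := by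
        intro p q
        rw [Set.disjoint_left]
        rintro x ⟨h1, -⟩ ⟨h2, -⟩
        exact h2.2 h1.2
      rw [eI h'.toFun, eJ h'.toFun, eI h.toFun, eJ h.toFun, oI, oJ,
        ncard_union_eq (dI _ _) k1 gI, ncard_union_eq (dI _ _) k2 gJ,
        ncard_union_eq (dI _ _) gI' gI, ncard_union_eq (dI _ _) gJ' gJ]
      omega
  · -- regularity
    intro c
    obtain ⟨u, v, Q⟩ := (hO c).state
    obtain ⟨K, hK, hKU, hKo⟩ := Q.off
    have hKU' : ∀ x, x ∉ (P c).U h → x ∉ K := fun x hx hxK => hx (hKU hxK).1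
    have hcl : ∀ m, IsClosed (pFam h G P m) := by
      rintro (g | ⟨d, b⟩)
      · exact H.closed g
      · cases b
        · exact (H.ok d).isCompact_B.isClosed
        · exact (H.ok d).isCompact_U.isClosed
    -- off the box
    have hev : ∀ x ∈ Ω, x ∉ (P c).U h → ∀ᶠ y in 𝓝 x,
        u y = h.toFun y (P c).i ∧ v y = h.toFun y (P c).j := by
      intro x _ hx
      filter_upwards [(H.ok c).isCompact_U.isClosed.isOpen_compl.mem_nhds hx] with y hy
      exact hKo y (hKU' y hy)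
    refine ⟨u, v, Q.conu, Q.contu, Q.conv, Q.contv, ?_, ?_, ?_, ?_, ?_⟩
    · rintro l hl x ⟨hxΩ, hxd⟩
      by_cases hx : x ∈ (P c).U h
      · exact Q.su l hl x hx
      · have h1 : h'.toFun x = h.toFun x := hoff' x hxΩ fun d hd => by
          by_cases hdc : d = c
          · subst hdc; exact hx (mem_int d x hxΩ hd).1
          · exact hxd d hdc hd
        show (h'.toFun x (P c).i = l ↔ u x = l) ∧ (h'.toFun x (P c).i < l ↔ u x < l) ∧
          (l < h'.toFun x (P c).i ↔ l < u x)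
        rw [h1, (hKo x (hKU' x hx)).1]; exact ⟨Iff.rfl, Iff.rfl, Iff.rfl⟩
    · rintro l hl x ⟨hxΩ, hxd⟩
      by_cases hx : x ∈ (P c).U h
      · exact Q.sv l hl x hx
      · have h1 : h'.toFun x = h.toFun x := hoff' x hxΩ fun d hd => by
          by_cases hdc : d = c
          · subst hdc; exact hx (mem_int d x hxΩ hd).1
          · exact hxd d hdc hd
        show (h'.toFun x (P c).j = l ↔ v x = l) ∧ (h'.toFun x (P c).j < l ↔ v x < l) ∧
          (l < h'.toFun x (P c).j ↔ l < v x)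
        rw [h1, (hKo x (hKU' x hx)).2]; exact ⟨Iff.rfl, Iff.rfl, Iff.rfl⟩
    · intro x hxΩ hxa
      by_cases hx : x ∈ (P c).U h
      · exact Reg.lift hx hcl (H.fam_lf hΩ x hxΩ) (Q.regu x hx hxa)
      · have h1 := hev x hxΩ hx
        refine Reg.congr_fun (H.regi c x hxΩ ?_) (h1.mono fun y hy => hy.1)
        rw [← h1.self_of_nhds.1]; exact hxa
    · intro x hxΩ hxa
      by_cases hx : x ∈ (P c).U h
      · exact Reg.lift hx hcl (H.fam_lf hΩ x hxΩ) (Q.regv x hx hxa)
      · have h1 := hev x hxΩ hx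
        refine Reg.congr_fun (H.regj c x hxΩ ?_) (h1.mono fun y hy => hy.2)
        rw [← h1.self_of_nhds.2]; exact hxa
    · intro x hxΩ hxa hxb
      by_cases hx : x ∈ (P c).U h
      · exact Reg.lift hx hcl (H.fam_lf hΩ x hxΩ) (Q.reguv x hx hxa hxb)
      · have h1 := hev x hxΩ hx
        refine Reg.congr_fun (H.regij c x hxΩ ?_ ?_) (h1.mono fun y hy => by
          show (u y, v y) = _
          rw [hy.1, hy.2])
        · rw [← h1.self_of_nhds.1]; exact hxa
        · rw [← h1.self_of_nhds.2]; exact hxb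

end P073.H805
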