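import Vale.Agent.P073.H805.PInE

/-!
# P073, H805: **[P-IN]** (A14.20), the first half of round P

`exists_pin`: the exchange in all plates of the tiling, with the patterns of the active faces and
the crossing points of their edges.
-/

set_option linter.unusedSectionVars false

open Set Metric Topology Filter

namespace Vale.Agent.P073.H805

open _root_.P073 _root_.P073.TR _root_.P073.H579 _root_.P073.PA691
open _root_.P073.H805 (Plate HasPat Clean Reg PlateIn PlatesOut pFam SameLev Crosses hasPat_clean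
  hasPat_inj exists_plates crosses_of_box ptsI ptsJ)
open Vale.Agent.P073.H238 (PFace meshFace mesh_sub)
open Vale.Agent.P073.H73 (Mesh)
open Vale.Agent.P073.St (V)
open Vale.Agent.P073.H471 (Rad Wid Boxes Near)
open Vale.Agent.P073.H267 (Geo)
open Vale.Agent.P073.H193 (Edges)

variable {Ω Λ : Set V} {v : V} {K : BoxCx Λ v} {S : Rad K} {W : Wid K S} {B : Boxes W}
  {G : Geo B} {M : Mesh Ω} {h h2 : ConHomeo Ω Λ} {Pr : Set M.ι} {Act : Set M.κ}
  {L : K.S → Fin 3 → Finset ℝ} {E : Edges M}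

/-- regular functions with the levels of `h2` near the square `s`, for the family `F` -/
structure SReg {ι : Type*} (G : Geo B) (h h2 : ConHomeo Ω Λ) (L : K.S → Fin 3 → Finset ℝ)
    (s : K.S) (F : ι → Set V) (u v : V → ℝ) : Prop where
  conu : ConicalOn u Ω
  contu : ContinuousOn u Ω
  conv : ConicalOn v Ω
  contv : ContinuousOn v Ω
  su : SameLev (L s (t1 (K.nrm s))) {x | x ∈ Ω ∧ ∀ s', s' ≠ s → h.toFun x ∉ G.PB 1 s'}
    (fun x => h2.toFun x (t1 (K.nrm s))) u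
  sv : SameLev (L s (t2 (K.nrm s))) {x | x ∈ Ω ∧ ∀ s', s' ≠ s → h.toFun x ∉ G.PB 1 s'}
    (fun x => h2.toFun x (t2 (K.nrm s))) v
  regu : ∀ x ∈ Ω, u x ∈ L s (t1 (K.nrm s)) → Reg u F x
  regv : ∀ x ∈ Ω, v x ∈ L s (t2 (K.nrm s)) → Reg v F x
  reguv : ∀ x ∈ Ω, u x ∈ L s (t1 (K.nrm s)) → v x ∈ L s (t2 (K.nrm s)) →
    Reg (fun y => (u y, v y)) F x

/-- **output of the first half of round P** (`h` before, `h2` after the exchange) -/
structure ROut (G : Geo B) (M : Mesh Ω) (h h2 : ConHomeo Ω Λ) (Pr : Set M.ι) (Act : Set M.κ)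
    (L : K.S → Fin 3 → Finset ℝ) (E : Edges M) : Prop where
  /-- nothing changes off the plates -/
  off : ∀ x ∈ Ω, (∀ s, h.toFun x ∉ G.PB 1 s) → h2.toFun x = h.toFun x
  /-- nothing changes on the protected cells -/
  prot : ∀ i ∈ Pr, EqOn h2.toFun h.toFun (M.Q i)
  /-- the plates are preserved -/
  box : ∀ s, ∀ x ∈ Ω, h2.toFun x ∈ G.PB 1 s ↔ h.toFun x ∈ G.PB 1 s
  /-- the levels on the margins of the plates are unchanged -/
  lev : ∀ s l, l ≠ K.nrm s → ∀ x ∈ Ω, h.toFun x ∈ G.PB (3 / 4) s →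
    (∃ j, j ≠ K.nrm s ∧ ∃ β, SideNear G h s j β (5 / 4) x) → ∀ t ∈ L s l,
    (h2.toFun x l = t ↔ h.toFun x l = t) ∧ (h2.toFun x l < t ↔ h.toFun x l < t) ∧
      (t < h2.toFun x l ↔ t < h.toFun x l)
  /-- position of the active faces which meet the plate of `s` -/
  near : ∀ k ∈ Act, ∀ s, ∀ x ∈ M.F k, h.toFun x ∈ G.PB 1 s → ∀ y ∈ M.F k,
    h2.toFun y ∈ G.PB (3 / 4) s ∧ |h2.toFun y (K.nrm s) - K.slo s (K.nrm s)| < B.τ s
  /-- pattern of the active faces which meet the plate of `s` -/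
  pat : ∀ k ∈ Act, ∀ s, ∀ x ∈ M.F k, h.toFun x ∈ G.PB 1 s →
    ∃ (A : Type) (_ : Finite A) (S : A → Set V) (col : A → Bool) (lev : A → ℝ),
      FacePat (M.F k) (intrinsicFrontier ℝ (M.F k)) h2.toFun (fun l => (lvs L s l : Set ℝ)) S
        (fun α => bif col α then t2 (K.nrm s) else t1 (K.nrm s)) lev col ∧
      ∀ α β, α ≠ β → (bif col α then t2 (K.nrm s) else t1 (K.nrm s)) =
        (bif col β then t2 (K.nrm s) else t1 (K.nrm s)) → Disjoint (S α) (S β)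
  /-- the vertices of these faces are on no level -/
  vert : ∀ k ∈ Act, ∀ s, ∀ x ∈ M.F k, h.toFun x ∈ G.PB 1 s → ∀ y ∈ E.verts, y ∈ M.F k →
    ∀ l, h2.toFun y l ∉ lvs L s l
  /-- the crossing points on the edges of these faces: `FaceIn` as in `exists_ownEdge`, the number
  does not increase -/
  edge : ∀ k ∈ Act, ∀ s, ∀ x ∈ M.F k, h.toFun x ∈ G.PB 1 s → ∀ e, E.seg e ⊆ M.F k →
    EdgeOk h2.toFun L s (E.seg e) ∧
    {x | x ∈ E.seg e ∧ ∃ l, h2.toFun x l ∈ lvs L s l}.Finite ∧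
    {x | x ∈ E.seg e ∧ ∃ l, h.toFun x l ∈ lvs L s l}.Finite ∧
    {x | x ∈ E.seg e ∧ ∃ l, h2.toFun x l ∈ lvs L s l}.ncard ≤
      {x | x ∈ E.seg e ∧ ∃ l, h.toFun x l ∈ lvs L s l}.ncard ∧
    ∃ (t : ℕ → ℝ) (cd : ℕ → Fin 3) (lev ε : ℕ → ℝ),
      (∀ i < {x | x ∈ E.seg e ∧ ∃ l, h2.toFun x l ∈ lvs L s l}.ncard, t i ∈ Ioo (0:ℝ) 1) ∧
      (∀ i < {x | x ∈ E.seg e ∧ ∃ l, h2.toFun x l ∈ lvs L s l}.ncard,
        ∀ i' < {x | x ∈ E.seg e ∧ ∃ l, h2.toFun x l ∈ lvs L s l}.ncard, i < i' → t i < t i') ∧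
      FaceIn ({x | x ∈ E.seg e ∧ ∃ l, h2.toFun x l ∈ lvs L s l}.ncard) (E.seg e) h2.toFun
        (fun l => (lvs L s l : Set ℝ)) (fun i x => (segC (E.ne e)).invFun x - t i) cd lev ε
  /-- the sharper form of `near` -/
  near7 : ∀ k ∈ Act, ∀ s, ∀ x ∈ M.F k, h.toFun x ∈ G.PB 1 s → ∀ y ∈ M.F k,
    h.toFun y ∈ G.PB (7 / 8) s ∧ h2.toFun y ∈ G.PB (7 / 8) s
  /-- near each square the levels of `h2` are the levels of regular functions -/
  reg : ∀ s, ∃ u v : V → ℝ, SReg G h h2 L s (pFam h (mFam M E) (plc G L h Pr)) u v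

theorem conicalOn_coord {w : V → V} {A : Set V} (hw : ConicalOn w A) (l : Fin 3) :
    ConicalOn (fun y => w y l) A := by
  intro x hx
  obtain ⟨r, hr, hr'⟩ := hw x hx
  refine ⟨r, hr, fun v hv hv' t ht => ?_⟩
  obtain ⟨h1, h3⟩ := hr' v hv hv' t ht
  refine ⟨h1, ?_⟩
  show w (x + t • v) l = _
  rw [h3]; rfl

theorem RIn.near7_of (H : RIn G M h Pr Act L E)
    (O : PlatesOut h h2 M (mFam M E) (plc G L h Pr) Act) {k : M.κ} (hk : k ∈ Act) {s : K.S} {x : V}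
    (hx : x ∈ M.F k) (hxs : h.toFun x ∈ G.PB 1 s) {y : V} (hy : y ∈ M.F k) :
    h.toFun y ∈ G.PB (7 / 8) s ∧ h2.toFun y ∈ G.PB (7 / 8) s := by
  obtain ⟨h1, ho, h3⟩ := H.near hk hx (PB_mono (by norm_num) s hxs) hy
  have hyΩ := mesh_sub M k hy
  have key : h.toFun y ∈ G.PB (7 / 8) s := by
    rw [Geo.mem_PB] at hxs ⊢
    have hop := oS_p G s
    have ho0 := oS_pos G s
    refine ⟨fun l hl => ?_, h1.le⟩
    have h4 := hxs.1 l hl
    have h5 := abs_le.1 ((norm_le_pi_norm (h.toFun x - h.toFun y) l).trans ho)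
    simp only [Pi.sub_apply] at h5
    constructor <;> linarith
  refine ⟨key, ?_⟩
  by_cases hne : h2.toFun y = h.toFun y
  · rw [hne]; exact key
  · obtain ⟨c, hc⟩ := plate_of_ne O hyΩ hne
    have h4 := interior_subset hc
    have e : c.1 = s := PB_eq (G := G) (by norm_num) (by norm_num) (plc_box c h4) key
    rw [← e]
    exact PB_mono (by norm_num) _ (plc_box c ((O.box c y hyΩ).2 h4))

theorem RIn.reg_of (H : RIn G M h Pr Act L E)
    (O : PlatesOut h h2 M (mFam M E) (plc G L h Pr) Act) (s : K.S) :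
    ∃ u v : V → ℝ, SReg G h h2 L s (pFam h (mFam M E) (plc G L h Pr)) u v := by
  by_cases hb : Inn h Pr s true ∧ Inn h Pr s false
  · have heq : ∀ x ∈ {x | x ∈ Ω ∧ ∀ s', s' ≠ s → h.toFun x ∉ G.PB 1 s'},
        h2.toFun x = h.toFun x := by
      rintro x ⟨hx, hxs⟩
      refine O.off x hx fun c hc => ?_
      have h1 := plc_box c (interior_subset hc)
      by_cases hcs : c.1 = s
      · exact c.2 (hcs ▸ hb)
      · exact hxs _ hcs h1
    exact ⟨fun x => h.toFun x (t1 (K.nrm s)), fun x => h.toFun x (t2 (K.nrm s)),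
      conicalOn_coord h.conical _, (continuous_apply _).comp_continuousOn h.cont,
      conicalOn_coord h.conical _, (continuous_apply _).comp_continuousOn h.cont,
      SameLev.of_eqOn fun x hx => by simp only [heq x hx],
      SameLev.of_eqOn fun x hx => by simp only [heq x hx],
      fun x hx hxa => H.reg1 s _ (t1_ne _) x hx hxa, fun x hx hxa => H.reg1 s _ (t2_ne _) x hx hxa,
      fun x hx hxa hxb => H.reg2 s x hx hxa hxb⟩
  · set c : Gam K h Pr := ⟨s, hb⟩ with hc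
    have hcs : c.1 = s := rfl
    obtain ⟨e1, e2, e3, e4, -⟩ := plc_dir (G := G) (L := L) c
    obtain ⟨u, v, Q⟩ := O.reg c
    have hsub : {x | x ∈ Ω ∧ ∀ s', s' ≠ s → h.toFun x ∉ G.PB 1 s'} ⊆ {x | x ∈ Ω ∧ ∀ d, d ≠ c →
        h.toFun x ∉ interior (Icc (plc G L h Pr d).lo (plc G L h Pr d).hi)} := by
      rintro x ⟨hx, hxs⟩
      refine ⟨hx, fun d hd hdi => ?_⟩
      exact hxs d.1 (fun h1 => hd (Subtype.ext h1)) (plc_box d (interior_subset hdi))
    have q1 := Q.su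
    have q2 := Q.sv
    have q3 := Q.regu
    have q4 := Q.regv
    have q5 := Q.reguv
    rw [e1, e3] at q1
    rw [e2, e4] at q2
    rw [e3] at q3 q5
    rw [e4] at q4 q5
    exact ⟨u, v, Q.conu, Q.contu, Q.conv, Q.contv, q1.mono hsub, q2.mono hsub, q3, q4, q5⟩

/-- **[P-IN]** (A14.20) -/
theorem exists_pin (hΩ : IsOpen Ω) (hΛ : IsOpen Λ) (H : RIn G M h Pr Act L E) :
    ∃ h2 : ConHomeo Ω Λ, ROut G M h h2 Pr Act L E := by
  obtain ⟨h2, O⟩ := exists_plates hΩ hΛ (H.plateIn hΩ hΛ)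
  have hedge : ∀ k ∈ Act, ∀ s, ∀ x ∈ M.F k, h.toFun x ∈ G.PB 1 s → ∀ e, E.seg e ⊆ M.F k →
      EdgeOk h2.toFun L s (E.seg e) ∧
        {x | x ∈ E.seg e ∧ ∃ l, h2.toFun x l ∈ lvs L s l}.ncard ≤
          {x | x ∈ E.seg e ∧ ∃ l, h.toFun x l ∈ lvs L s l}.ncard :=
    fun k hk s x hx hxs e he => H.edge_of O hΩ hΛ hk hx hxs he
  have hkon : ∀ (w : ConHomeo Ω Λ) e, ConicalOn w.toFun (E.seg e) := fun w e =>
    w.conical.mono ((convex_segment _ _).conicalSet) (E.seg_sub_Ω e)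
  refine ⟨h2, fun x hx hxo => off_of O hx hxo, fun i hi => prot_of O H hΩ hΛ hi,
    fun s x hx => box_of O s hx, fun s l hl x hx hxs hs t ht => H.lev_of O s hl hx hs hxs ht,
    fun k hk s x hx hxs y hy => H.near2 O hk hx hxs hy, ?_, ?_, ?_,
    fun k hk s x hx hxs y hy => H.near7_of O hk hx hxs hy, H.reg_of O⟩
  · intro k hk s x hx hxs
    obtain ⟨A, hA, S, col, lev, h1, h3⟩ := H.pat_of O hΩ hΛ hk hx hxs
    rw [lvs_eq] at h1
    exact ⟨A, hA, S, col, lev, h1, h3⟩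
  · intro k hk s x hx hxs y hyv hy l
    obtain ⟨e', he', hye'⟩ := E.vert_face hyv hy
    have Q := (hedge k hk s x hx hxs e' he').1
    have h1 := Q.ends (hkon h2 e') l
    have h3 : y = E.a e' ∨ y = E.b e' := by
      obtain ⟨e, he⟩ : ∃ e, y = E.a e ∨ y = E.b e := by
        rcases hyv with ⟨e, rfl⟩ | ⟨e, rfl⟩
        · exact ⟨e, Or.inl rfl⟩
        · exact ⟨e, Or.inr rfl⟩
      by_cases hee : e = e'
      · subst hee; exact he
      · have hye : y ∈ E.seg e := by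
          rcases he with rfl | rfl
          · exact left_mem_segment ℝ _ _
          · exact right_mem_segment ℝ _ _
        have := (E.meet e e' hee ⟨hye, hye'⟩).2
        exact this
    rcases h3 with rfl | rfl
    · exact h1.1
    · exact h1.2
  · intro k hk s x hx hxs e he
    obtain ⟨Q, hc⟩ := hedge k hk s x hx hxs e he
    have heΩ := E.seg_sub_Ω e
    obtain ⟨f1, t, cd, lev, ε, f2, f3, f4⟩ :=
      Q.edgeIn (h2.injOn.mono heΩ) (h2.cont.mono heΩ) (hkon h2 e)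
    have f5 := ((H.edgeOk_h s heΩ).edgeIn (h.injOn.mono heΩ) (h.cont.mono heΩ) (hkon h e)).1
    exact ⟨Q, f1, f5, hc, t, cd, lev, ε, f2, f3, f4⟩

end Vale.Agent.P073.H805
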