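import Vale.Agent.P073.H345.PStage2
import Vale.Agent.P073.H581.TileBX
import Vale.Agent.P073.H581.OutCl2
import Vale.Agent.P073.H267.RoundDefs

/-!
# P073, H805, **[P-TILE]**: tiles, images of the protected cells and positions in ROUND P

* `tileIff_kP`, `tileIff_S1`, `tileIff_cube`: the maps of round P preserve the tiles;
* `near_h2`: the exchange moves the points in two touching tiles;
* `nearAt_T`: closeness for round T;
* `ptile`: `TileAt`, `ImgAt`, `NearAt` for `S ∘ h3`, where `h3` is the output of the insertion step,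
  and `S` any homeomorphism which preserves the tiles.
-/

open Set Metric Topology Filter

namespace Vale.Agent.P073.H805

open _root_.P073 _root_.P073.Net _root_.P073.PA691 _root_.P073.H236 _root_.P073.H579
open Vale.Agent.P073.St (V)
open Vale.Agent.P073.H471 Vale.Agent.P073.H267 Vale.Agent.P073.H267.Geo

open Vale.Agent.P073.H73 (Mesh Aligned)
open Vale.Agent.P073.H193 (Edges)
open Vale.Agent.P073.H581
open _root_.P073.H345

variable {Ω Λ : Set V} {ρ : V → ℝ} {v : V} {K : BoxCx Λ v} {S : Rad K} {W : Wid K S}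
  {B : Boxes W} {G : Geo B}

/-! ### The maps -/

theorem tile_PK {s : K.S} {y : V} (hy : y ∈ PK G s) {q : K.T} (hq : y ∈ K.cube q) :
    q = K.sm s ∨ q = K.sp s := (near_self (PK_sub_ss s hy)).tile hq

/-- **the supports of the maps of round P** -/
theorem sat_PK (C : Cells ρ v K) (G : Geo B) (s : K.S) :
    Sat ρ v (PK G s) {k | k ≠ K.nrm s} := by
  refine sat_of_cube C fun q y hy y' hy' hq k hk => ?_
  have h1 := cube_of_sq (tile_PK hy hq) k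
  have h2 := hy'.1 k hk
  have h3 := Geo.p_pos (G := G) s
  constructor <;> linarith

theorem bx_sub_PK (L : PLev G) (β : Bool) (s : K.S) : (L.bx β s).K ⊆ PK G s :=
  fun _ hy => (PLev.mem_bxK.1 hy).1

theorem PK_sub (s : K.S) : PK G s ⊆ Λ := (PK_sub_ss s).trans (ss_subset s)

theorem sat_bx (C : Cells ρ v K) (L : PLev G) (β : Bool) (s : K.S) :
    Sat ρ v (L.bx β s).K {(L.bx β s).j} :=
  (sat_PK C G s).mono (bx_sub_PK L β s) fun k hk => by
    rw [mem_singleton_iff] at hk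
    rw [hk]
    exact tg_ne s β

/-- the insertion map of one family -/
theorem tileIff_k1 (C : Cells ρ v K) (L : PLev G) {β : Bool} {κ : V → V} (hκ : IsQ (L.bx β) κ) :
    TileIff Λ ρ v κ :=
  tileIff_Q (L.bx β) (fun s => (bx_sub_PK L β s).trans (PK_sub s)) (sat_bx C L β) hκ.on hκ.off

/-- **the insertion map of round P** -/
theorem tileIff_kP (C : Cells ρ v K) (L : PLev G) {κ₀ κ₁ : V → V} (h₀ : IsQ (L.bx false) κ₀)
    (h₁ : IsQ (L.bx true) κ₁) : TileIff Λ ρ v (κ₁ ∘ κ₀) :=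
  (tileIff_k1 C L h₁).comp (tileIff_k1 C L h₀)

/-- the staircase map of one family -/
theorem tileIff_S1 (C : Cells ρ v K) (L : PLev G) {β : Bool} {F : BFam 3 K.S Λ}
    (hF : F.B = L.bx β) {Φ : ConHomeo Λ Λ} (hΦ : F.IsS Φ) : TileIff Λ ρ v Φ.toFun :=
  tileIff_isS hΦ fun s => by rw [hF]; exact sat_bx C L β s

/-- **the staircase map of round P** -/
theorem tileIff_SP (C : Cells ρ v K) (L : PLev G) {F₀ F₁ : BFam 3 K.S Λ}
    (hF₀ : F₀.B = L.bx false) (hF₁ : F₁.B = L.bx true) {Φ₀ Φ₁ : ConHomeo Λ Λ}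
    (hΦ₀ : F₀.IsS Φ₀) (hΦ₁ : F₁.IsS Φ₁) : TileIff Λ ρ v (Φ₀.trans Φ₁).toFun :=
  (tileIff_S1 C L hF₁ hΦ₁).comp (tileIff_S1 C L hF₀ hΦ₀)

/-- homeomorphisms which preserve the cubes, in particular the last collapse -/
theorem tileIff_cube (C : Cells ρ v K) (hρ : SizeFn Λ ρ) {Φ : ConHomeo Λ Λ}
    (hΦ : ∀ q, Φ.toFun '' K.cube q = K.cube q) : TileIff Λ ρ v Φ.toFun := by
  refine TileIff.of_homeo hρ Φ fun m z ht y hy => ?_
  obtain ⟨q, hq, -⟩ := exists_tile_of C ht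
  rw [← hq] at hy ⊢
  rw [← hΦ q]
  exact ⟨y, hy, rfl⟩

/-! ### Positions -/

/-- two points in a plate -/
theorem near_PB (C : Cells ρ v K) (hρ : SizeFn Λ ρ) {c : ℝ} (hc : 1 / 2 ≤ c) {s : K.S} {y y' : V}
    (hy : y ∈ G.PB c s) (hy' : y' ∈ G.PB c s) : Near 16 ρ y y' := by
  obtain ⟨q, hq⟩ := K.cover _ (Geo.PB_sub hc s hy)
  obtain ⟨q', hq'⟩ := K.cover _ (Geo.PB_sub hc s hy')
  have h1 := sq_sub_cube (Geo.tile_PB hc hy hq)
  have h2 := sq_sub_cube (Geo.tile_PB hc hy' hq')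
  have h3 : K.slo s ∈ K.sq s := ⟨le_rfl, fun j => _root_.P073.TM.slo_le_shi K s j⟩
  refine near_of_two_tiles (w := v) hρ (Or.inr ⟨_, _, _, _, C.tile q, C.tile q', ?_, ?_, ?_⟩)
    (Geo.PB_sub hc s hy)
  · rw [← C.cube_eq, ← C.cube_eq]
    exact ⟨_, h1 h3, h2 h3⟩
  · left
    rw [← C.cube_eq]
    exact hq
  · right
    rw [← C.cube_eq]
    exact hq'

variable {M : Mesh Ω} {E : Edges M} {h h1 h2 h3 : ConHomeo Ω Λ} {Pr : Set M.ι} {Act : Set M.κ}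
  {Lv : K.S → Fin 3 → Finset ℝ}

/-- **the exchange** -/
theorem near_h2 (C : Cells ρ v K) (hρ : SizeFn Λ ρ) (O : ROut G M h1 h2 Pr Act Lv E) {x : V}
    (hx : x ∈ Ω) : Near 16 ρ (h1.toFun x) (h2.toFun x) := by
  by_cases hs : ∃ s, h1.toFun x ∈ G.PB 1 s
  · obtain ⟨s, hs⟩ := hs
    exact near_PB C hρ (by norm_num) hs ((O.box s x hx).2 hs)
  · push Not at hs
    rw [O.off x hx hs]
    exact near_of_two_tiles (w := v) hρ (Or.inl rfl) (h1.mapsTo hx)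

/-- **closeness for round T**, from (T2) -/
theorem nearAt_T {η₀ : ℝ} (D : KIn η₀ v ρ M h Pr) (C : Cells ρ v K)
    (hn : ∀ k, ∀ x ∈ M.F k, ∀ q, h.toFun x ∈ K.cube q →
      ‖h1.toFun x - h.toFun x‖ ≤ (D.G C).om q) : NearAt 2 ρ M h.toFun h1.toFun := by
  intro k x hx
  have hxΛ : h.toFun x ∈ Λ := h.mapsTo (H193.mesh_sub M k hx)
  obtain ⟨q, hq⟩ := K.cover _ hxΛ
  have h4 := hn k x hx q hq
  refine Near.of_dist D.hρ (h4.trans ?_) (D.hρ.pos _ hxΛ).le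
  have h5 : (D.G C).om q = oN η₀ * C.sT q := rfl
  have h6 := (_root_.P073.KW.tile_bounds D.hρ (C.tile q) (by rw [← C.cube_eq]; exact hq)).1
  have h7 : C.sT q = 1 / 2 ^ (C.fT q).1 := rfl
  have h8 := C.sT_pos q
  have h9 : oN η₀ ≤ 1 / 2 := by
    have a1 := κN_le_one D.pos D.lt
    have a2 := oN_eq (η₀ := η₀)
    have a3 := oN_pos D.pos
    linarith
  rw [h5]
  rw [← h7] at h6
  nlinarith [mul_le_mul_of_nonneg_right h9 h8.le]

/-! ### The theorem -/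

/-- `S ∘ h3` for round P, where `g₀ = h3`. The hypotheses on `κ` and `h3` are fields of `Out3P`. -/
theorem ptile_core {η₀ : ℝ} (D : KIn η₀ v ρ M h Pr) (C : Cells ρ v K)
    (ht : TileAt ρ v M Pr h.toFun h1.toFun) (hi : ImgAt M Pr h.toFun h1.toFun) {C₀ : ℝ}
    (hC₀ : 1 ≤ C₀) (hn : NearAt C₀ ρ M h.toFun h1.toFun) (O : ROut G M h1 h2 Pr Act Lv E)
    {κ : V → V} (hκ : TileIff Λ ρ v κ)
    (hE : ∀ e, h3.toFun '' E.seg e = Pre κ Λ h2 (E.seg e))
    (hN : ∀ x ∈ E.verts, κ (h3.toFun x) = h2.toFun x)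
    (hF : ∀ k, h3.toFun '' M.F k = Pre κ Λ h2 (M.F k))
    (hQ : ∀ i, h3.toFun '' M.Q i = Pre κ Λ h2 (M.Q i)) {T : ConHomeo Λ Λ}
    (hT : TileIff Λ ρ v T.toFun) :
    TileAt ρ v M Pr h.toFun (h3.trans T).toFun ∧ ImgAt M Pr h.toFun (h3.trans T).toFun ∧
      NearAt (2 ^ 17 * C₀) ρ M h.toFun (h3.trans T).toFun := by
  have hgen : ∀ i ∈ Pr, OneGen ρ v (h.toFun '' M.Q i) := by
    intro i hi m z m' z' ht ht' h1 h2
    obtain ⟨m₀, hm₀⟩ := D.al.gen i hi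
    rw [hm₀ m z ht h1, hm₀ m' z' ht' h2]
  have hw : ∀ i ∈ Pr, ∀ x ∈ M.Q i, h2.toFun x = h1.toFun x := fun i hi x hx => O.prot i hi hx
  refine ⟨round_tile D.bΩ.1 D.hρ D.al E hgen ht
    (fun i hi x hx => hw i hi x ((M.poly i).cpt.isClosed.frontier_subset hx)) hκ hF
    (fun e _ _ => hE e) (fun x hx _ _ => hN x hx) hT fun x _ => rfl, ?_, ?_⟩
  · refine round_image D.hρ D.al (h₂ := h2) (fun i hi' => ?_) hκ hQ T hT fun x _ => rfl
    rw [← hi i hi']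
    exact image_congr (hw i hi')
  · have h4 := round_near D.hρ hC₀ (by norm_num : (1:ℝ) ≤ 2) (by norm_num : (1:ℝ) ≤ 16) hn
      (near_of_osc D.hρ (δ := δN η₀) (by
        have a1 := κN_le_one D.pos D.lt
        have a2 := δN_κ D.pos
        linarith) D.osc)
      (h₂ := h2) (fun k x hx => near_h2 C D.hρ O (H193.mesh_sub M k hx)) hκ hF hT
      (g := (h3.trans T).toFun) fun x _ => rfl
    have e1 : (2:ℝ) ^ 12 * (C₀ * 2 * 16) = 2 ^ 17 * C₀ := by ring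
    rwa [e1] at h4

variable {L : PLev G} {κ₀ κ₁ : V → V} {GE : E.ε → (V → V) → Prop} {GF : M.κ → (V → V) → Prop}

/-- **[P-TILE]**: tiles, images and positions for `T ∘ h3`, `T` any homeomorphism which preserves
the tiles (the identity, the staircase map of round P, or this map followed by the collapse) -/
theorem ptile {η₀ : ℝ} (D : KIn η₀ v ρ M h Pr) (C : Cells ρ v K)
    (ht : TileAt ρ v M Pr h.toFun h1.toFun) (hi : ImgAt M Pr h.toFun h1.toFun) {C₀ : ℝ}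
    (hC₀ : 1 ≤ C₀) (hn : NearAt C₀ ρ M h.toFun h1.toFun) (O : ROut G M h1 h2 Pr Act Lv E)
    (i₀ : IsQ (L.bx false) κ₀) (i₁ : IsQ (L.bx true) κ₁)
    (O3 : Out3P G M E h1 h2 (κ₁ ∘ κ₀) GE GF h3) {T : ConHomeo Λ Λ}
    (hT : TileIff Λ ρ v T.toFun) :
    TileAt ρ v M Pr h.toFun (h3.trans T).toFun ∧ ImgAt M Pr h.toFun (h3.trans T).toFun ∧
      NearAt (2 ^ 17 * C₀) ρ M h.toFun (h3.trans T).toFun :=
  ptile_core D C ht hi hC₀ hn O (tileIff_kP C L i₀ i₁) O3.img_edge O3.vert O3.img_face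
    O3.img_cell hT

/-- **[P-TILE]** on top of the output of ROUND T; `Φ₀`, `Φ₁`: staircase maps of round P,
`Ψ`: a further homeomorphism (the identity or the collapse) -/
theorem ptile_TOut {η₀ : ℝ} (D : KIn η₀ v ρ M h Pr) (C : Cells ρ v K) {ω : TBx K → ℝ}
    {T : ∀ k, _root_.P073.H142.FStar E k} {C₀ μ : ℝ} {ε La : E.ε → ℝ} {Lf : M.κ → E.ε → ℝ}
    {Lam1 : M.κ → ℝ} {sl : TBx K → Finset (ℝ × ℝ)}
    (TO : _root_.P073.H267.TOut (D.G C) M E ρ v Pr h h1 ω T C₀ μ ε La Lf Lam1 sl)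
    {L : PLev (D.G C)} (O : ROut (D.G C) M h1 h2 Pr Act Lv E)
    (i₀ : IsQ (L.bx false) κ₀) (i₁ : IsQ (L.bx true) κ₁)
    (O3 : Out3P (D.G C) M E h1 h2 (κ₁ ∘ κ₀) GE GF h3) {Ψ : ConHomeo Λ Λ}
    (hΨ : TileIff Λ ρ v Ψ.toFun) :
    TileAt ρ v M Pr h.toFun (h3.trans Ψ).toFun ∧ ImgAt M Pr h.toFun (h3.trans Ψ).toFun ∧
      NearAt (2 ^ 18) ρ M h.toFun (h3.trans Ψ).toFun := by
  have h4 := ptile D C TO.tile TO.img (by norm_num : (1:ℝ) ≤ 2) (nearAt_T D C TO.near) O i₀ i₁ O3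
    hΨ
  norm_num at h4 ⊢
  exact h4

end Vale.Agent.P073.H805
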