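import Vale.Agent.P073.H805.PIn
import Vale.Agent.P073.H236.TOutDefs
import Vale.Agent.P073.H267.Num

/-!
# P073, H805: **[RIN]**, the input of the first half of round P from the output of round T
-/

set_option linter.unusedSectionVars false

open Set Metric Topology Filter

namespace Vale.Agent.P073.H805

open _root_.P073 _root_.P073.TR _root_.P073.H579 _root_.P073.PA691 _root_.P073.Net
open _root_.P073.H805 (Plate HasPat Clean Reg PlateIn PlatesOut pFam SameLev Crosses)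
open Vale.Agent.P073.H238 (PFace meshFace mesh_sub)
open Vale.Agent.P073.H73 (Mesh)
open Vale.Agent.P073.St (V)
open Vale.Agent.P073.H471 (Rad Wid Boxes Near Cells)
open Vale.Agent.P073.H267 (Geo TBx Hang KIn ωT ωS δN oN κN)
open Vale.Agent.P073.H193 (Edges)
open _root_.P073.H236 (T3Out NoSl InT)

variable {Ω Λ : Set V} {v : V} {K : BoxCx Λ v}

/-- the boxes of round T at the sides of `s` in the direction `l` -/
def RelB (s : K.S) (l : Fin 3) : TBx K → Prop
  | .inl e => K.edge e ⊆ K.sq s ∧ K.dir e = l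
  | .inr b => b.s = s ∧ b.l = l

section geo

variable {S : Rad K} {W : Wid K S} {B : Boxes W} {G : Geo B}

/-- near the plate -/
theorem near_of {s : K.S} {y : V}
    (ht : ∀ l, l ≠ K.nrm s → K.slo s l < y l ∧ y l < K.shi s l)
    (hn : |y (K.nrm s) - K.slo s (K.nrm s)| ≤ 2 * B.τ s) : Near K s y := by
  have h1 := B.τ_le s
  have h2 := B.τ_pos s
  have h3 := W.ws_le s
  have h4 := W.ws_le' s
  obtain ⟨e1, e2⟩ := K.s_lev s
  have h5 := abs_le.1 hn
  refine ⟨ht, ?_, ?_⟩ <;> linarith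

/-- the shell near a plate -/
theorem shell_near {s : K.S} {y : V} {q : K.T} (hq : y ∈ K.cube q)
    (ht : ∀ l, l ≠ K.nrm s → K.slo s l + 1 / 4 * G.p s ≤ y l ∧ y l ≤ K.shi s l - 1 / 4 * G.p s)
    (hn : |y (K.nrm s) - K.slo s (K.nrm s)| ≤ 2 * B.τ s)
    (hyk : ∃ k, y k ≤ K.lo q k + G.κ q ∨ K.hi q k - G.κ q ≤ y k) :
    |y (K.nrm s) - K.slo s (K.nrm s)| ≤ G.κ q ∧ (q = K.sm s ∨ q = K.sp s) := by
  have hp := Geo.p_pos (G := G) s
  have hτ := B.τ_pos s
  have hτp := G.τ_p s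
  have hN : Near K s y := near_of (B := B) (fun l hl => by
    have := ht l hl
    constructor <;> linarith) hn
  have hqs := hN.tile hq
  refine ⟨?_, hqs⟩
  have hκτ := G.κ_τ q s hqs
  have hκ := Geo.κ_pos (G := G) q
  have hn' := abs_le.1 hn
  have hws := B.τ_le s
  obtain ⟨hl1, hl2⟩ := K.s_lev s
  obtain ⟨k, hk⟩ := hyk
  by_cases hkn : k = K.nrm s
  · subst hkn
    rcases hqs with rfl | rfl
    · have h3 := W.ws_le s
      have h5 := hq.2 (K.nrm s)
      rcases hk with hk | hk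
      · linarith
      · rw [abs_le]
        constructor <;> linarith
    · have h3 := W.ws_le' s
      have h5 := hq.1 (K.nrm s)
      rcases hk with hk | hk
      · rw [abs_le]
        constructor <;> linarith
      · linarith
  · exfalso
    have h1 := ht k hkn
    have hsub : K.sq s ⊆ K.cube q := by
      rcases hqs with rfl | rfl
      · exact (TM.sq_subset K s).1
      · exact (TM.sq_subset K s).2
    have h3 := (hsub (Vale.Agent.P073.H471.slo_mem s)).1 k
    have h4 := (hsub (Vale.Agent.P073.H471.shi_mem s)).2 k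
    rcases hk with hk | hk <;> linarith

/-- a T box at a point of the wall contains the whole wall at the same level -/
theorem wall_all {s : K.S} {k l : Fin 3} {β : Bool} {y : V} (h : G.Wall s k l β y) :
    ∃ b : TBx K, RelB s l b ∧ b.ax = l ∧ ∀ z, G.Wall s k l β z → z l = y l →
      z ∈ G.TB true b := by
  have hp := Geo.p_pos (G := G) s
  have hτ := B.τ_pos s
  have hτp := G.τ_p s
  rcases Geo.wall h with ⟨e, he, hd, hw, hy⟩ | ⟨b, hs, hk, hl, hβ, hy⟩
  · refine ⟨.inl e, ⟨he, hd⟩, hd, fun z hz hzl => ?_⟩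
    rw [Geo.mem_inl] at hy ⊢
    have hpu := G.p_uT s e he
    have hwn : K.w (K.a e) (K.nrm s) = K.slo s (K.nrm s) :=
      TM.nrm_eq (he (TM.wa_mem K e))
    refine ⟨by rw [hd, hzl, ← hd]; exact hy.1, fun j hj => ?_⟩
    simp only [if_true]
    rw [hd] at hj
    have hjc : j = k ∨ j = K.nrm s := by
      rcases Vale.Agent.P073.H267.Geo.fin3_cases hz.k_n hz.k_l hz.l_n.symm j with h1 | h1 | h1
      · exact Or.inl h1
      · exact Or.inr h1
      · exact absurd h1 hj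
    rcases hjc with rfl | rfl
    · rw [hw]
      have := hz.u
      cases β
      · simp only [Bool.false_eq_true, if_false] at this ⊢
        rw [abs_le]; constructor <;> linarith
      · simp only [if_true] at this ⊢
        rw [abs_le]; constructor <;> linarith
    · rw [hwn]
      have := hz.n
      linarith
  · subst hs; subst hk; subst hl; subst hβ
    refine ⟨.inr b, ⟨rfl, rfl⟩, rfl, fun z hz hzl => ?_⟩
    rw [Geo.mem_inr] at hy ⊢
    have h1 := hz.u
    have h2 := hz.n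
    simp only [if_true] at hy ⊢
    refine ⟨by rw [hzl]; exact hy.1, ?_, h2⟩
    unfold Vale.Agent.P073.H267.Hang.u
    exact h1

end geo

/-- tiles at nearby points have comparable sizes -/
theorem sT_near' {ρ : V → ℝ} (C : Cells ρ v K) (hρ : SizeFn Λ ρ) {q q' : K.T} {y y' : V}
    (hy : y ∈ K.cube q) (hy' : y' ∈ K.cube q') (h : ‖y - y'‖ ≤ C.sT q' / 8) :
    C.sT q' ≤ 4 * C.sT q := by
  rw [C.cube_eq] at hy hy'
  have h1 := (C.tile q').1 y' hy'
  have h2 := Net.NC.upper hρ (C.tile q) hy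
  have h3 := hρ.lip y' y
  rw [norm_sub_rev] at h3
  have e : C.sT q = 1 / 2 ^ (C.fT q).1 := rfl
  have e' : C.sT q' = 1 / 2 ^ (C.fT q').1 := rfl
  have h4 : (4:ℝ) / 2 ^ (C.fT q).1 = 4 * (1 / 2 ^ (C.fT q).1) := by ring
  rw [e'] at h
  have h0 : (0:ℝ) < 1 / 2 ^ (C.fT q).1 := by positivity
  have h5 : (1:ℝ) / 2 ^ (C.fT q').1 ≤ 5 * (1 / 2 ^ (C.fT q).1) := by linarith
  have h6 := TM.IsCell.pow_le_of (C := 5) (by norm_num) h5
  rw [e, e']
  exact Vale.Agent.P073.H471.sd_le_of_le h6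

section

variable {η₀ : ℝ} {ρ : V → ℝ} {M : Mesh Ω} {E : Edges M} {h h1 : ConHomeo Ω Λ} {P : Set M.ι}
  (D : KIn η₀ v ρ M h P) (C : Cells ρ v K)

include D C

theorem oS_eq (s : K.S) : (D.G C).oS s = 4 * oN η₀ * C.sS s := rfl

theorem om_eq (q : K.T) : (D.G C).om q = oN η₀ * C.sT q := rfl

theorem oN_small : oN η₀ ≤ 1 / 8 := by
  have h1 := Vale.Agent.P073.H267.oN_eq (η₀ := η₀)
  have h3 := Vale.Agent.P073.H267.κN_le_one D.pos D.lt
  have h4 := Vale.Agent.P073.H267.oN_pos D.pos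
  linarith

/-- the point of `h` at a point of a plate for `h1` -/
theorem near_T1 (hn : ∀ k, ∀ x ∈ M.F k, ∀ q, h.toFun x ∈ K.cube q →
      ‖h1.toFun x - h.toFun x‖ ≤ (D.G C).om q) {k : M.κ} {x : V} (hx : x ∈ M.F k) {s : K.S}
    {c : ℝ} (hc : 1 / 2 ≤ c) (hxs : h1.toFun x ∈ (D.G C).PB c s) :
    Near K s (h.toFun x) ∧ ‖h1.toFun x - h.toFun x‖ ≤ (D.G C).oS s ∧
      |h.toFun x (K.nrm s) - K.slo s (K.nrm s)| ≤ (D.B C).τ s / 8 ∧
      ∃ q, h.toFun x ∈ K.cube q ∧ (q = K.sm s ∨ q = K.sp s) := by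
  have hxΩ := mesh_sub M k hx
  obtain ⟨q0, hq0⟩ := K.cover _ (h.mapsTo hxΩ)
  obtain ⟨q1, hq1⟩ := K.cover _ (h1.mapsTo hxΩ)
  have hle := hn k x hx q0 hq0
  have hp := Geo.p_pos (G := D.G C) s
  have hτ := (D.B C).τ_pos s
  have hoτ := (D.G C).oS_τ s
  have hop := oS_p (D.G C) s
  have hτp := (D.G C).τ_p s
  have hq1s : q1 = K.sm s ∨ q1 = K.sp s := Geo.tile_PB hc hxs hq1
  have hsub : K.sq s ⊆ K.cube q1 := by
    rcases hq1s with rfl | rfl
    · exact (TM.sq_subset K s).1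
    · exact (TM.sq_subset K s).2
  have ho8 := oN_small D C
  have ho0 := Vale.Agent.P073.H267.oN_pos D.pos
  have hT0 := C.sT_pos q0
  have h4 : C.sT q0 ≤ 4 * C.sT q1 := by
    refine sT_near' C D.hρ hq1 hq0 ?_
    rw [om_eq D C] at hle
    nlinarith
  have h5 := (C.sS_sT D.hρ hsub).2
  -- a weak bound
  have hweak : ‖h1.toFun x - h.toFun x‖ ≤ 4 * (D.G C).oS s := by
    rw [oS_eq D C]
    rw [om_eq D C] at hle
    nlinarith
  have hco : ∀ l, |h1.toFun x l - h.toFun x l| ≤ 4 * (D.G C).oS s := fun l =>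
    (norm_le_pi_norm (h1.toFun x - h.toFun x) l).trans hweak
  obtain ⟨ht, hn1⟩ := Geo.mem_PB.1 hxs
  have hc' : 1 / 2 * (D.G C).p s ≤ c * (D.G C).p s := mul_le_mul_of_nonneg_right hc hp.le
  have ht' : ∀ l, l ≠ K.nrm s → K.slo s l + 1 / 4 * (D.G C).p s ≤ h.toFun x l ∧
      h.toFun x l ≤ K.shi s l - 1 / 4 * (D.G C).p s := by
    intro l hl
    have j1 := ht l hl
    have j2 := abs_le.1 (hco l)
    constructor <;> linarith
  have hn2 : |h.toFun x (K.nrm s) - K.slo s (K.nrm s)| ≤ 2 * (D.B C).τ s := by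
    have j1 := abs_le.1 hn1
    have j2 := abs_le.1 (hco (K.nrm s))
    rw [abs_le]; constructor <;> linarith
  obtain ⟨h6, h7⟩ := shell_near hq0 ht' hn2 (D.shell C hx q0)
  have h8 := (D.G C).κ_τ q0 s h7
  refine ⟨near_of (B := D.B C) (fun l hl => ?_) hn2, hle.trans ((D.G C).om_oS q0 s h7),
    by linarith, q0, hq0, h7⟩
  have := ht' l hl
  constructor <;> linarith

/-- the oscillation for `h1` -/
theorem osc_T1 (hn : ∀ k, ∀ x ∈ M.F k, ∀ q, h.toFun x ∈ K.cube q →
      ‖h1.toFun x - h.toFun x‖ ≤ (D.G C).om q) {k : M.κ} {x : V} (hx : x ∈ M.F k) {s : K.S}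
    {c : ℝ} (hc : 1 / 2 ≤ c) (hxs : h1.toFun x ∈ (D.G C).PB c s) {y : V} (hy : y ∈ M.F k) :
    ‖h1.toFun x - h1.toFun y‖ ≤ 4 * (D.G C).oS s ∧ Near K s (h.toFun y) := by
  obtain ⟨-, h2, h3, q0, hq0, h7⟩ := near_T1 D C hn hx hc hxs
  have hyΩ := mesh_sub M k hy
  have hp := Geo.p_pos (G := D.G C) s
  have hτ := (D.B C).τ_pos s
  have hoτ := (D.G C).oS_τ s
  have hop := oS_p (D.G C) s
  have ho := oS_pos (D.G C) s
  have hτp := (D.G C).τ_p s
  -- the oscillation of `h`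
  have hsub : K.sq s ⊆ K.cube q0 := by
    rcases h7 with rfl | rfl
    · exact (TM.sq_subset K s).1
    · exact (TM.sq_subset K s).2
  have h5 := (C.sS_sT D.hρ hsub).2
  have hδ := Vale.Agent.P073.H267.δN_pos D.pos
  have h8 : ‖h.toFun x - h.toFun y‖ ≤ ωS η₀ C s := by
    refine (KIn.osc_tile D C hx hy hq0).trans ?_
    show _ ≤ 4 * δN η₀ * C.sS s
    nlinarith
  have h9 := D.ωS_oS C s
  have hωp := D.ωS_pos C s
  have hco : ∀ l, |h1.toFun x l - h.toFun y l| ≤ 2 * (D.G C).oS s := by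
    intro l
    have j1 := (norm_le_pi_norm (h1.toFun x - h.toFun x) l).trans h2
    have j2 := (norm_le_pi_norm (h.toFun x - h.toFun y) l).trans h8
    simp only [Pi.sub_apply, Real.norm_eq_abs] at j1 j2
    have j3 := abs_sub_le (h1.toFun x l) (h.toFun x l) (h.toFun y l)
    linarith
  obtain ⟨ht, hn1⟩ := Geo.mem_PB.1 hxs
  have hc' : 1 / 2 * (D.G C).p s ≤ c * (D.G C).p s := mul_le_mul_of_nonneg_right hc hp.le
  have hNy : Near K s (h.toFun y) := by
    refine near_of (B := D.B C) (fun l hl => ?_) ?_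
    · have j1 := ht l hl
      have j2 := abs_le.1 (hco l)
      constructor <;> linarith
    · have j1 := abs_le.1 hn1
      have j2 := abs_le.1 (hco (K.nrm s))
      rw [abs_le]; constructor <;> linarith
  obtain ⟨q', hq'⟩ := K.cover _ (h.mapsTo hyΩ)
  have h10 := (hn k y hy q' hq').trans ((D.G C).om_oS q' s (hNy.tile hq'))
  refine ⟨?_, hNy⟩
  have h11 : h1.toFun x - h1.toFun y = (h1.toFun x - h.toFun x) + (h.toFun x - h.toFun y) -
      (h1.toFun y - h.toFun y) := by abel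
  rw [h11]
  refine (norm_sub_le _ _).trans ?_
  have h12 := norm_add_le (h1.toFun x - h.toFun x) (h.toFun x - h.toFun y)
  linarith

/-- the image of a face of a protected cell near a square -/
theorem flat_h (hΛ : IsOpen Λ) {i : M.ι} (hi : i ∈ P) {k : M.κ} (hk : M.F k ⊆ M.Q i) {s : K.S}
    {x : V} (hx : x ∈ M.F k) (hn : Near K s (h.toFun x)) : h.toFun '' M.F k ⊆ K.sq s := by
  have hΩ := D.bΩ.1
  have hxΩ := mesh_sub M k hx
  obtain ⟨y, hy, hyn⟩ := exists_relint hx ((h.cont.continuousAt (hΩ.mem_nhds hxΩ))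
    ((isOpen_near s).mem_nhds hn))
  have hyF := intrinsicInterior_subset hy
  have hyn : Near K s (h.toFun y) := hyn
  have ht := (D.tprot C).tile i hi
  obtain ⟨-, β, hβ⟩ := inn_of_tiles hΩ hΛ ht (hk hyF) hyn
  have h1 : ¬ PosS K s β (h.toFun y) := fun h2 =>
    notMem_int hΩ hyF hβ (mem_int_side hyn h2)
  have h2 : ¬ PosS K s (!β) (h.toFun y) := by
    intro h3
    rcases ht (side K s (!β)) with h4 | h4
    · exact notMem_int hΩ hyF h4 (mem_int_side hyn h3)
    · exact Set.disjoint_left.1 h4 (mem_int_side hyn h3) (mem_image_of_mem _ (hk hyF))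
  have he : h.toFun y (K.nrm s) = K.slo s (K.nrm s) := by
    by_contra hne
    rcases lt_or_gt_of_ne hne with h3 | h3
    · cases β
      · exact h1 (by simpa [PosS] using h3)
      · exact h2 (by simpa [PosS] using h3)
    · cases β
      · exact h2 (by simpa [PosS] using h3)
      · exact h1 (by simpa [PosS] using h3)
  have hsq : h.toFun y ∈ K.sq s := by
    refine ⟨fun l => ?_, fun l => ?_⟩
    · by_cases hl : l = K.nrm s
      · rw [hl]; exact he.ge
      · exact (hyn.tan l hl).1.le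
    · by_cases hl : l = K.nrm s
      · rw [hl, he]; exact TM.slo_le_shi K s _
      · exact (hyn.tan l hl).2.le
  have key : ∀ q, K.sq s ⊆ K.cube q → h.toFun '' M.F k ⊆ K.cube q := by
    intro q hq
    obtain ⟨m, z, h3, h4, -⟩ := Vale.Agent.P073.H267.tile_of C q
    have h5 := D.al.one i hi k hk m z h3 ⟨_, mem_image_of_mem _ hy, by rw [← h4]; exact hq hsq⟩
    rw [h4]; exact h5
  have h6 := key _ (TM.sq_subset K s).1
  have h7 := key _ (TM.sq_subset K s).2
  intro z hz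
  show z ∈ Icc (K.slo s) (K.shi s)
  rw [K.s_eq s]
  exact ⟨h6 hz, h7 hz⟩

end

/-- **[RIN]**: the input of the first half of round P from the output of round T -/
theorem rin_of {η₀ : ℝ} {ρ : V → ℝ} {M : Mesh Ω} {E : Edges M} {h h1 : ConHomeo Ω Λ}
    {P : Set M.ι} {O : M.κ → V} {La : E.ε → ℝ} {Lf : M.κ → E.ε → ℝ} {Lam1 : M.κ → ℝ}
    {sl : TBx K → Finset (ℝ × ℝ)} {L : K.S → Fin 3 → Finset ℝ}
    (D : KIn η₀ v ρ M h P) (C : Cells ρ v K)
    (T : T3Out (D.G C) M E h h1 (ωT η₀ C) O La Lf Lam1 sl)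
    (hi : ∀ i ∈ P, h1.toFun '' M.Q i = h.toFun '' M.Q i)
    (ht : ∀ i ∈ P, ∀ x ∈ frontier (M.Q i), ∀ q, h.toFun x ∈ K.cube q → h1.toFun x ∈ K.cube q)
    (win : ∀ s l, l ≠ K.nrm s → ∀ t ∈ L s l,
      K.slo s l + (D.G C).a s ≤ t ∧ t ≤ K.shi s l - (D.G C).a s)
    (hns : ∀ s l, l ≠ K.nrm s → ∀ t ∈ L s l, ∀ b : TBx K, RelB s l b → NoSl (sl b) t)
    (reg1 : ∀ s l, l ≠ K.nrm s → ∀ x ∈ Ω, h1.toFun x l ∈ L s l →
      Reg (fun y => h1.toFun y l) (pFam h1 (mFam M E) (plc (D.G C) L h1 P)) x)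
    (reg2 : ∀ s, ∀ x ∈ Ω, h1.toFun x (t1 (K.nrm s)) ∈ L s (t1 (K.nrm s)) →
      h1.toFun x (t2 (K.nrm s)) ∈ L s (t2 (K.nrm s)) →
      Reg (fun y => (h1.toFun y (t1 (K.nrm s)), h1.toFun y (t2 (K.nrm s))))
        (pFam h1 (mFam M E) (plc (D.G C) L h1 P)) x) :
    RIn (D.G C) M h1 P univ L E where
  nrm := by
    intro k _ s x hx hxs
    obtain ⟨-, h2, h3, -⟩ := near_T1 D C T.near hx (by norm_num) hxs
    have h4 := (norm_le_pi_norm (h1.toFun x - h.toFun x) (K.nrm s)).trans h2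
    simp only [Pi.sub_apply, Real.norm_eq_abs] at h4
    have h5 := abs_sub_le (h1.toFun x (K.nrm s)) (h.toFun x (K.nrm s)) (K.slo s (K.nrm s))
    have h6 := (D.G C).oS_τ s
    have h7 := (D.B C).τ_pos s
    have h8 := oS_pos (D.G C) s
    linarith
  osc := fun k _ s x hx hxs y hy => (osc_T1 D C T.near hx (by norm_num) hxs hy).1
  tiles := by
    intro i hiP q
    rw [hi i hiP]
    exact (D.tprot C).tile i hiP q
  flat := by
    intro i hiP k hki s x hx hxs
    obtain ⟨hN, -⟩ := near_T1 D C T.near hx (by norm_num) hxs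
    have hsub := flat_h D C D.bΛ.1 hiP hki hx hN
    rintro _ ⟨y, hy, rfl⟩
    have hyf : y ∈ frontier (M.Q i) := by
      rw [(Vale.Agent.P073.H244.cell_closed M i).frontier_eq]
      exact ⟨hki hy, Set.disjoint_left.1 (Vale.Agent.P073.H244.face_disjoint M k i) hy⟩
    have h2 := hsub (mem_image_of_mem _ hy)
    show h1.toFun y ∈ Icc (K.slo s) (K.shi s)
    rw [K.s_eq s]
    exact ⟨ht i hiP y hyf _ ((TM.sq_subset K s).1 h2), ht i hiP y hyf _ ((TM.sq_subset K s).2 h2)⟩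
  win := win
  noc := by
    intro k _ _ s j l β hj hl hjl hA t htL σ hσ hσk hall
    have hp := Geo.p_pos (G := D.G C) s
    have hτ := (D.B C).τ_pos s
    obtain ⟨hw1, hw2⟩ := win s l hl t htL
    have hW : ∀ x ∈ σ, (D.G C).Wall s j l β (h1.toFun x) := by
      intro x hx
      obtain ⟨h2, h3⟩ := hA x (hσk hx)
      obtain ⟨h4, -⟩ := Geo.mem_PB.1 h2
      have h5 := h4 j hj
      obtain ⟨-, k2, k3, -⟩ := near_T1 D C T.near (hσk hx) (by norm_num) h2
      refine ⟨hj, hl, hjl, ?_, ?_, ?_, ?_⟩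
      · have h6 := (norm_le_pi_norm (h1.toFun x - h.toFun x) (K.nrm s)).trans k2
        simp only [Pi.sub_apply, Real.norm_eq_abs] at h6
        have h7 := abs_sub_le (h1.toFun x (K.nrm s)) (h.toFun x (K.nrm s)) (K.slo s (K.nrm s))
        have h8 := (D.G C).oS_τ s
        have h9 := oS_pos (D.G C) s
        linarith
      · cases β
        · simp only [Bool.false_eq_true, if_false] at h3 ⊢
          constructor <;> linarith
        · simp only [if_true] at h3 ⊢
          constructor <;> linarith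
      · rw [hall x hx]; exact hw1
      · rw [hall x hx]; exact hw2
    obtain ⟨-, x0, hx0⟩ := conn_circle hσ
    obtain ⟨b, hb1, hb2, hb3⟩ := wall_all (hW x0 hx0)
    refine T.circ k b t (hns s l hl t htL b hb1) σ hσ hσk fun x hx => ⟨?_, ?_⟩
    · exact hb3 _ (hW x hx) (by rw [hall x hx, hall x0 hx0])
    · rw [hb2]; exact hall x hx
  reg1 := reg1
  reg2 := reg2

end Vale.Agent.P073.H805
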