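import Vale.Agent.P073.H880.RP0

/-!
# P073, H805, **[INV]**: the invariances of `h1` which are used in ROUND P of `K3C`

`TPre`: facts on round T (boxes of `G₀`); `DPre`: positions (data); `PRect`: the protected cells.
`invIn_of`: the structure `InvIn` of H880.
-/

open Set Metric Topology Filter

namespace Vale.Agent.P073.H805

open _root_.P073 _root_.P073.Net _root_.P073.PA691 _root_.P073.H236 _root_.P073.H579
  _root_.P073.H345
open Vale.Agent.P073.St (V)
open Vale.Agent.P073.H471 Vale.Agent.P073.H267 Vale.Agent.P073.H267.Geo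
open Vale.Agent.P073.H73 (Mesh)
open Vale.Agent.P073.H193 (Edges)
open _root_.P073.H196 (MvInv mvInv_icc)
open _root_.P073.H880.RP

variable {Ω Λ : Set V} {v : V} {K : BoxCx Λ v} {S : Rad K} {W : Wid K S} {B : Boxes W}
  {G : Geo B} {M : Mesh Ω} {E : Edges M} {D : Dat K M} {L : PLev G} {h1 : ConHomeo Ω Λ}
  {sl : TBx K → Finset (ℝ × ℝ)} {A : Set V} {y z : V}

/-- the set `A` is invariant under moves between the slivers of the box `b` -/
def VI1 (G : Geo B) (sl : TBx K → Finset (ℝ × ℝ)) (b : TBx K) (A : Set V) : Prop :=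
  ∀ y ∈ A, y ∈ G.TB true b → ∀ t ∈ Icc (G.tlo true b b.ax) (G.thi true b b.ax),
    (∀ r ∈ uIcc (y b.ax) t, NoSl (sl b) r) → Function.update y b.ax t ∈ A

/-- what is used of round T -/
structure TPre (G : Geo B) (E : Edges M) (D : Dat K M) (h1 : ConHomeo Ω Λ)
    (sl : TBx K → Finset (ℝ × ℝ)) : Prop where
  ends : ∀ b ∈ D.G₀, ¬ NoSl (sl b) (G.tlo true b b.ax) ∧ ¬ NoSl (sl b) (G.thi true b b.ax)
  face : ∀ b ∈ D.G₀, ∀ k ∈ D.DF, VI1 G sl b (h1.toFun '' M.F k)
  edge : ∀ b ∈ D.G₀, ∀ k ∈ D.DF, ∀ e, E.seg e ⊆ M.F k → VI1 G sl b (h1.toFun '' E.seg e)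
  vert : ∀ b ∈ D.G₀, ∀ k ∈ D.DF, ∀ x ∈ E.verts, x ∈ M.F k → h1.toFun x ∈ G.TB true b →
    ¬ NoSl (sl b) (h1.toFun x b.ax)
  cell : ∀ b ∈ D.G₀, ∀ i ∈ D.Zd, i ∉ D.Pr → VI1 G sl b (h1.toFun '' M.Q i)

/-- positions -/
structure DPre (G : Geo B) (D : Dat K M) (h1 : ConHomeo Ω Λ) : Prop where
  /-- the boxes of round T at the processed squares are processed -/
  rel : ∀ s ∈ D.S₀, ∀ l b, H155.RelT s l b → b ∈ D.G₀
  /-- the drawn cells are near the middle planes -/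
  nrm : ∀ i ∈ D.Zd, i ∉ D.Pr → ∀ x ∈ M.Q i, ∀ s ∈ D.S₀, h1.toFun x ∈ PK G s →
    |h1.toFun x (K.nrm s) - K.slo s (K.nrm s)| ≤ B.τ s / 4
  /-- the cells with no peeled face are off the plates -/
  miss : ∀ i ∈ D.Gc G h1, i ∉ D.Pr → ∀ x ∈ M.Q i, ∀ s ∈ D.S₀, h1.toFun x ∉ G.PB 1 s

/-- the set `X` is mapped onto a box, whose corners have the coordinates of images of vertices of
the cell `Q` -/
def RectAt (E : Edges M) (Q : Set V) (h1 : V → V) (X : Set V) : Prop :=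
  ∃ lo hi : V, h1 '' X = Icc lo hi ∧ ∀ j, (∃ x ∈ E.verts, x ∈ Q ∧ h1 x j = lo j) ∧
    ∃ x ∈ E.verts, x ∈ Q ∧ h1 x j = hi j

/-- the protected cells -/
structure PRect (G : Geo B) (E : Edges M) (D : Dat K M) (h1 : ConHomeo Ω Λ) : Prop where
  cell : ∀ s ∈ D.S₀, ∀ i ∈ D.Pr, (h1.toFun '' M.Q i ∩ PK G s).Nonempty →
    RectAt E (M.Q i) h1.toFun (M.Q i)
  face : ∀ s ∈ D.S₀, ∀ i ∈ D.Pr, ∀ k, M.F k ⊆ M.Q i → (h1.toFun '' M.F k ∩ PK G s).Nonempty →
    RectAt E (M.Q i) h1.toFun (M.F k)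
  edge : ∀ s ∈ D.S₀, ∀ i ∈ D.Pr, ∀ k, M.F k ⊆ M.Q i → ∀ e, E.seg e ⊆ M.F k →
    (h1.toFun '' E.seg e ∩ PK G s).Nonempty → RectAt E (M.Q i) h1.toFun (E.seg e)

/-- the levels avoid the coordinates of the vertices of the protected cells -/
def PAvoid (L : PLev G) (E : Edges M) (D : Dat K M) (h1 : ConHomeo Ω Λ) : Prop :=
  ∀ s ∈ D.S₀, ∀ i ∈ D.Pr, (h1.toFun '' M.Q i ∩ PK G s).Nonempty → ∀ x ∈ E.verts, x ∈ M.Q i →
    ∀ β, ∀ n < L.N s β, 2 * L.c s β < |h1.toFun x (tg s β) - L.a s β n|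

/-! ### the moves -/

/-- the positions of a set which is off the plates -/
structure OffS (G : Geo B) (S₀ : Set K.S) (A : Set V) : Prop where
  nrm : ∀ y ∈ A, ∀ s ∈ S₀, y ∈ PK G s → |y (K.nrm s) - K.slo s (K.nrm s)| ≤ B.τ s / 4
  off : ∀ y ∈ A, ∀ s ∈ S₀, y ∉ G.PB 1 s

theorem OffS.mono {S₀ : Set K.S} {A' : Set V} (h : OffS G S₀ A) (hA : A' ⊆ A) : OffS G S₀ A' :=
  ⟨fun y hy => h.nrm y (hA hy), fun y hy => h.off y (hA hy)⟩

/-- a point which misses the plate, in a cell of a level: it is in the full zone of a box of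
round T -/
theorem exists_boxS {S₀ : Set K.S} (hA : OffS G S₀ A) {s : K.S} (hs : s ∈ S₀) {β : Bool} {n : ℕ}
    (hn : n < L.N s β) (hz : z ∈ A) (hzK : z ∈ PK G s)
    (hzn : |z (tg s β) - L.a s β n| ≤ 2 * L.c s β) :
    ∃ b, H155.RelT s (tg s β) b ∧ z ∈ G.TB true b := by
  have hp := p_pos (G := G) s
  have hpa := p_a (G := G) s
  have hτ := B.τ_pos s
  have hw := hA.nrm z hz s hs hzK
  obtain ⟨w1, w2⟩ := L.win s β hn
  obtain ⟨c1, c2⟩ := abs_le.1 hzn
  have hoff := hA.off z hz s hs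
  rw [mem_PB] at hoff
  have hj : ∃ j, j ≠ K.nrm s ∧ (z j < K.slo s j + G.p s ∨ K.shi s j - G.p s < z j) := by
    by_contra hcon
    push Not at hcon
    refine hoff ⟨fun k hk => ?_, by linarith⟩
    have := hcon k hk
    rw [one_mul]
    exact this
  obtain ⟨j, hjn, hj⟩ := hj
  have hjl : j ≠ tg s β := by
    rintro rfl
    rcases hj with h | h <;> linarith
  have hK := hzK.1 j hjn
  have hside : ∃ β' : Bool, 3 / 4 * G.p s ≤ (if β' then K.shi s j - z j else z j - K.slo s j) ∧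
      (if β' then K.shi s j - z j else z j - K.slo s j) ≤ 3 / 2 * G.p s := by
    rcases hj with h | h
    · refine ⟨false, ?_⟩
      simp only [Bool.false_eq_true, if_false]
      constructor <;> linarith [hK.1, hK.2]
    · refine ⟨true, ?_⟩
      simp only [if_true]
      constructor <;> linarith [hK.1, hK.2]
  obtain ⟨β', hside⟩ := hside
  have hwall : G.Wall s j (tg s β) β' z :=
    { k_n := hjn
      l_n := tg_ne s β
      k_l := hjl
      n := by linarith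
      u := hside
      lo := by linarith
      hi := by linarith }
  rcases Vale.Agent.P073.H267.Geo.wall hwall with ⟨e, he, hd, -, hze⟩ | ⟨b, hb, -, hl, -, hzb⟩
  · exact ⟨.inl e, ⟨he, hd⟩, hze⟩
  · exact ⟨.inr b, ⟨hb, hl⟩, hzb⟩

/-- moves inside of a cell -/
theorem moveS (hA : OffS G D.S₀ A) (hrel : ∀ s ∈ D.S₀, ∀ l b, H155.RelT s l b → b ∈ D.G₀)
    (hvi : ∀ b ∈ D.G₀, VI1 G sl b A)
    (hends : ∀ b ∈ D.G₀, ¬ NoSl (sl b) (G.tlo true b b.ax) ∧ ¬ NoSl (sl b) (G.thi true b b.ax))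
    (hband : ∀ s ∈ D.S₀, ∀ β, ∀ n < L.N s β, ∀ b, H155.RelT s (tg s β) b →
      ∀ r, |r - L.a s β n| ≤ 2 * L.c s β → NoSl (sl b) r)
    {s : K.S} (hs : s ∈ D.S₀) {β : Bool} {n : ℕ} (hn : n < L.N s β) (hz : z ∈ A)
    (hzK : z ∈ PK G s) (hzn : |z (tg s β) - L.a s β n| ≤ 2 * L.c s β) {t : ℝ}
    (ht : |t - L.a s β n| ≤ 2 * L.c s β) : Function.update z (tg s β) t ∈ A := by
  obtain ⟨b, hb, hzb⟩ := exists_boxS hA hs hn hz hzK hzn
  have hax := hb.ax
  have hbG := hrel s hs _ b hb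
  have hcell : ∀ r ∈ uIcc (z (tg s β)) t, NoSl (sl b) r := by
    intro r hr
    refine hband s hs β n hn b hb r ?_
    rw [mem_uIcc] at hr
    rw [abs_le] at hzn ht ⊢
    rcases hr with hr | hr <;> constructor <;> linarith [hr.1, hr.2]
  have h1 := hzb.1 b.ax
  have h2 := hzb.2 b.ax
  rw [hax] at h1 h2
  have hwin : t ∈ Icc (G.tlo true b b.ax) (G.thi true b b.ax) := by
    rw [hax]
    constructor
    · by_contra hcon
      push Not at hcon
      refine (hends b hbG).1 ?_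
      rw [hax]
      exact hcell _ (by rw [mem_uIcc]; right; exact ⟨hcon.le, h1⟩)
    · by_contra hcon
      push Not at hcon
      refine (hends b hbG).2 ?_
      rw [hax]
      exact hcell _ (by rw [mem_uIcc]; left; exact ⟨h2, hcon.le⟩)
  have h3 := hvi b hbG z hz hzb t hwin (by rw [hax]; exact hcell)
  rwa [hax] at h3

/-- moves inside the cells of the levels stay in the support -/
theorem update_mem_PK {s : K.S} {β : Bool} {n : ℕ} (hn : n < L.N s β) (hy : y ∈ PK G s) {t : ℝ}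
    (ht : |t - L.a s β n| ≤ 2 * L.c s β) : Function.update y (tg s β) t ∈ PK G s := by
  obtain ⟨w1, w2⟩ := L.win s β hn
  obtain ⟨c1, c2⟩ := abs_le.1 ht
  have hp := p_pos (G := G) s
  have hpa := p_a (G := G) s
  constructor
  · intro j hj
    by_cases hjt : j = tg s β
    · subst hjt
      rw [Function.update_self]
      constructor <;> linarith
    · rw [Function.update_of_ne hjt]
      exact hy.1 j hj
  · rw [Function.update_of_ne (tg_ne s β).symm]
    exact hy.2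

/-- **invariance of the sets off the plates** -/
theorem inv_of_vi (hA : OffS G D.S₀ A)
    (hrel : ∀ s ∈ D.S₀, ∀ l b, H155.RelT s l b → b ∈ D.G₀)
    (hvi : ∀ b ∈ D.G₀, VI1 G sl b A)
    (hends : ∀ b ∈ D.G₀, ¬ NoSl (sl b) (G.tlo true b b.ax) ∧ ¬ NoSl (sl b) (G.thi true b b.ax))
    (hband : ∀ s ∈ D.S₀, ∀ β, ∀ n < L.N s β, ∀ b, H155.RelT s (tg s β) b →
      ∀ r, |r - L.a s β n| ≤ 2 * L.c s β → NoSl (sl b) r) : Inv L D.S₀ A := by
  intro s hs β n hn y hy hyn t ht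
  have h1 : |y (tg s β) - L.a s β n| ≤ 2 * L.c s β := by
    rw [abs_le]; constructor <;> linarith [hyn.1, hyn.2]
  have h2 : |t - L.a s β n| ≤ 2 * L.c s β := by
    rw [abs_le]; constructor <;> linarith [ht.1, ht.2]
  constructor
  · intro h3
    have h4 := moveS hA hrel hvi hends hband hs hn h3 (update_mem_PK hn hy h2)
      (by rw [Function.update_self]; exact h2) h1
    rwa [Function.update_idem, Function.update_eq_self] at h4
  · intro h3
    exact moveS hA hrel hvi hends hband hs hn h3 hy h1 h2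

/-- **invariance of the boxes** -/
theorem inv_of_rect (hlv : PAvoid L E D h1) {i : M.ι} (hi : i ∈ D.Pr) {X : Set V}
    (hX : X ⊆ M.Q i)
    (H : ∀ s ∈ D.S₀, (h1.toFun '' X ∩ PK G s).Nonempty → RectAt E (M.Q i) h1.toFun X) :
    Inv L D.S₀ (h1.toFun '' X) := by
  intro s hs β n hn
  by_cases hne : (h1.toFun '' X ∩ PK G s).Nonempty
  · obtain ⟨lo, hi', he, hc⟩ := H s hs hne
    obtain ⟨⟨x, hx, hxQ, hxl⟩, x', hx', hxQ', hxl'⟩ := hc (tg s β)
    have hQ : (h1.toFun '' M.Q i ∩ PK G s).Nonempty := by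
      obtain ⟨y, hy, hy'⟩ := hne
      exact ⟨y, image_mono hX hy, hy'⟩
    have h2 := hlv s hs i hi hQ x hx hxQ β n hn
    have h3 := hlv s hs i hi hQ x' hx' hxQ' β n hn
    rw [he]
    refine mvInv_icc ordConnected_Icc (fun hm => ?_) (fun hm => ?_) _
    · rw [← hxl] at hm
      refine absurd h2 (not_lt.2 ?_)
      rw [abs_le]; constructor <;> linarith [hm.1, hm.2]
    · rw [← hxl'] at hm
      refine absurd h3 (not_lt.2 ?_)
      rw [abs_le]; constructor <;> linarith [hm.1, hm.2]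
  · intro y hy hyn t ht
    have h2 : |t - L.a s β n| ≤ 2 * L.c s β := by
      rw [abs_le]; constructor <;> linarith [ht.1, ht.2]
    exact ⟨fun h3 => absurd ⟨_, h3, update_mem_PK hn hy h2⟩ hne, fun h3 => absurd ⟨_, h3, hy⟩ hne⟩

/-! ### the theorem -/

/-- drawn faces are off the plates, if they are not peeled -/
theorem offS_face (P : DPre G D h1) {k : M.κ} (hk : k ∈ D.DF) (hk' : k ∉ D.Peel G h1) :
    OffS G D.S₀ (h1.toFun '' M.F k) := by
  obtain ⟨⟨i, hi, hki⟩, hP⟩ := hk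
  refine ⟨?_, ?_⟩
  · rintro _ ⟨x, hx, rfl⟩ s hs hK
    exact P.nrm i hi (fun hiP => hP i hiP hki) x (hki hx) s hs hK
  · rintro _ ⟨x, hx, rfl⟩ s hs hB
    exact hk' ⟨s, hs, ⟨⟨i, hi, hki⟩, hP⟩, x, hx, hB⟩

/-- **[INV]** -/
theorem invIn_of (T : TPre G E D h1 sl) (P : DPre G D h1) (R : PRect G E D h1)
    (hlv : PAvoid L E D h1)
    (hband : ∀ s ∈ D.S₀, ∀ β, ∀ n < L.N s β, ∀ b, H155.RelT s (tg s β) b →
      ∀ r, |r - L.a s β n| ≤ 2 * L.c s β → NoSl (sl b) r) : InvIn G E D L h1 where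
  face := by
    rintro k (⟨hk, hk'⟩ | ⟨i, hi, hki⟩)
    · exact inv_of_vi (offS_face P hk hk') P.rel (fun b hb => T.face b hb k hk) T.ends hband
    · exact inv_of_rect hlv hi hki fun s hs => R.face s hs i hi k hki
  edge := by
    rintro k (⟨hk, hk'⟩ | ⟨i, hi, hki⟩) e he
    · exact inv_of_vi ((offS_face P hk hk').mono (image_mono he)) P.rel
        (fun b hb => T.edge b hb k hk e he) T.ends hband
    · exact inv_of_rect hlv hi (he.trans hki) fun s hs => R.edge s hs i hi k hki e he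
  vert := by
    rintro k (⟨hk, hk'⟩ | ⟨i, hi, hki⟩) x hx hxk
    · refine inv_of_vi ((offS_face P hk hk').mono
        (by rintro _ rfl; exact ⟨x, hxk, rfl⟩)) P.rel (fun b hb => ?_) T.ends hband
      rintro _ rfl hb' t _ hr
      exact absurd (hr _ left_mem_uIcc) (T.vert b hb k hk x hx hxk hb')
    · have h2 := inv_of_rect hlv hi (X := {x}) (singleton_subset_iff.2 (hki hxk))
        fun s hs hne => ⟨h1.toFun x, h1.toFun x, by rw [image_singleton, Icc_self],
          fun j => ⟨⟨x, hx, hki hxk, rfl⟩, x, hx, hki hxk, rfl⟩⟩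
      rwa [image_singleton] at h2
  cell := by
    intro i hi
    by_cases hiP : i ∈ D.Pr
    · exact inv_of_rect hlv hiP Subset.rfl fun s hs => R.cell s hs i hiP
    · have hZ : i ∈ D.Zd := by
        rcases hi with h | h
        · exact absurd h hiP
        · exact h.1
      refine inv_of_vi ⟨?_, ?_⟩ P.rel (fun b hb => T.cell b hb i hZ hiP) T.ends hband
      · rintro _ ⟨x, hx, rfl⟩ s hs hK
        exact P.nrm i hZ hiP x hx s hs hK
      · rintro _ ⟨x, hx, rfl⟩ s hs hB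
        exact P.miss i hi hiP x hx s hs hB

/-- the hypothesis on the bands from the closed slivers -/
theorem band_of (H : H155.BandP L sl) : ∀ s ∈ D.S₀, ∀ β, ∀ n < L.N s β, ∀ b,
    H155.RelT s (tg s β) b → ∀ r, |r - L.a s β n| ≤ 2 * L.c s β → NoSl (sl b) r := by
  intro s _ β n hn b hb r hr p hp hrp
  have hr' := abs_le.1 hr
  rcases H s β n hn b hb p hp with h1 | h1
  · linarith [hrp.2, hr'.1]
  · linarith [hrp.1, hr'.2]

end Vale.Agent.P073.H805
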