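import Vale.Agent.P073.H805.ConfP
import Vale.Agent.P073.H155.THin

/-!
# P073, block H805: the hypotheses (hP), (hpos) of [T-HIN]

`hP_of`: a passive cell which crosses the wall of the box of the plate `s` is in the collar of the
side of the edge `e`, if the new image is in the tube of `e`.
-/

open Set Metric Topology Filter

set_option linter.unusedSectionVars false

namespace P073.H919

open P073 P073.H936 P073.H936.K3 P073.H142 P073.H880 P073.H345 P073.H236 P073.H579 P073.H429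
open Vale.Agent.P073.St (V)
open Vale.Agent.P073.AB (Idx)
open Vale.Agent.P073.H73 (Mesh)
open Vale.Agent.P073.H193 (Edges)
open Vale.Agent.P073.H471 Vale.Agent.P073.H267
open P073.Net P073.PA691
open Vale.Agent.P073.H341 (ROutZ HtOk Mg mem_int_pe)
open _root_.P073.H880.RP (Dat ROut3 Sg3)

variable {Ω Λ : Set V} {v : V} {K : BoxCx Λ v} {S : Rad K} {W : Wid K S} {B : Boxes W}
  {G : Geo B} {M : Mesh Ω} {E : Edges M} {D : Dat K M} {L : PLev G}
  {F Fσ : Bool → BFam 3 D.S₀ Λ} {T Tσ : Bool → ConHomeo Λ Λ} {κ₀ κ₁ : V → V} {c d : ℝ}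
  {Zb : D.S₀ → Set M.ι} {h1 h2 h3 h4 : ConHomeo Ω Λ} {u : V} {ι : Type} {Fm : ι → Set V}
  {H : HkG M L (Subtype.val : D.S₀ → K.S) F T κ₀ κ₁ c d Zb h2 h3 h4 u} {hΩ : IsOpen Ω}
  {r q : D.S₀ → ℝ} {h5 f5 : ConHomeo Ω Λ} {ς : Bool → D.S₀ → ℝ}

/-- the centre of the first band -/
theorem pcen_zero (L : PLev G) (s : K.S) (β : Bool) (h : 0 < L.N s β) :
    pcen L s ⟨β, ⟨0, h⟩⟩ = K.slo s (tg s β) + G.a s +
      stp (L.N s β) (K.slo s (tg s β) + G.a s) (K.shi s (tg s β) - G.a s) / 2 := by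
  show K.slo s (tg s β) + G.a s + (((0 : ℕ) : ℝ) + 1 / 2) * _ = _
  push_cast
  ring

/-- the centre of the last band -/
theorem pcen_last (L : PLev G) (s : K.S) (β : Bool) (h : L.N s β - 1 < L.N s β) :
    pcen L s ⟨β, ⟨L.N s β - 1, h⟩⟩ = K.shi s (tg s β) - G.a s -
      stp (L.N s β) (K.slo s (tg s β) + G.a s) (K.shi s (tg s β) - G.a s) / 2 := by
  have hN : 0 < L.N s β := (L.lvs s β).pos
  have h1 : (L.N s β : ℝ) ≠ 0 := by positivity
  have h2 : (L.N s β : ℝ) * stp (L.N s β) (K.slo s (tg s β) + G.a s)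
      (K.shi s (tg s β) - G.a s) = (K.shi s (tg s β) - G.a s) - (K.slo s (tg s β) + G.a s) := by
    unfold stp
    rw [mul_div_cancel₀ _ h1]
  show K.slo s (tg s β) + G.a s + (((L.N s β - 1 : ℕ) : ℝ) + 1 / 2) * _ = _
  rw [Nat.cast_sub (show 1 ≤ L.N s β from hN)]
  push_cast
  linear_combination h2

/-- **position of the points of a passive cell** after the hook and the second staircases -/
theorem HkGF.posS (O : HkGF H hΩ r q h5) (P : Sg3 L D.S₀ Fσ ς Tσ)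
    (hf5 : ∀ x ∈ Ω, f5.toFun x = PS.map Tσ (h5.toFun x))
    (R : ROut3 G E D h1 h2 L.lv Fm) (Z : ROutZ G E D h1 h2 L.lv Fm) (hht : HtOk G D)
    (hc1 : c ≤ 1) {s : D.S₀} (r0 : 0 ≤ r s) (r1 : r s < 1) (hς : ∀ β, 0 ≤ ς β s)
    (hcell : ∀ i ∈ Zb s, h3.toFun '' M.Q i = Pre (κ₁ ∘ κ₀) Λ h2 (M.Q i))
    (hosc : ∀ i ∈ Zb s, ∀ x ∈ M.Q i, ∀ y ∈ M.Q i, ∀ l,
      |h1.toFun x l - h1.toFun y l| ≤ G.p s.1 / 4) {i : M.ι} (I : Psv H s h1 i)
    (hoi : ∀ x ∈ M.Q i, ∀ y ∈ M.Q i, ∀ l, |h1.toFun x l - h1.toFun y l| ≤ G.p s.1 / 4) {x : V}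
    (hx : x ∈ M.Q i) (hxb : h4.toFun x ∈ HB G c d s.1) :
    ∃ β b, Col G s.1 1 β b (h4.toFun x) ∧
      bif b then K.shi s.1 (tg s.1 β) - G.a s.1 - stp (L.N s.1 β)
          (K.slo s.1 (tg s.1 β) + G.a s.1) (K.shi s.1 (tg s.1 β) - G.a s.1) <
          f5.toFun x (tg s.1 β)
      else f5.toFun x (tg s.1 β) < K.slo s.1 (tg s.1 β) + G.a s.1 + stp (L.N s.1 β)
          (K.slo s.1 (tg s.1 β) + G.a s.1) (K.shi s.1 (tg s.1 β) - G.a s.1) := by
  have hp := Geo.p_pos (G := G) s.1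
  have hpa := Geo.p_a (G := G) s.1
  have hxΩ := M.sub i hx
  obtain ⟨x', hx', -, -, -, β, b, hcx', hcx⟩ := H.exists_pre1 R hht (M.sub i) I.loc I.gc hx hxb
  refine ⟨β, b, hcx, ?_⟩
  have HP := Sg3_prodOn P s H.hc H.hc2 H.hd
  have h5b : h5.toFun x ∈ HB G c d s.1 := (O.mem_box s hxΩ).2 hxb
  have e5 : f5.toFun x (tg s.1 β) = sgPσ Fσ ς s (tg s.1 β) (h5.toFun x (tg s.1 β)) := by
    rw [hf5 x hxΩ]; exact HP.apply h5b _
  have hmono := HP.mono (tg s.1 β)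
  have hN := (L.lvs s.1 β).pos
  have hpw : ∀ k : Fin (L.N s.1 β), pwσ L Fσ ς s ⟨β, k⟩ ≤ stp (L.N s.1 β)
      (K.slo s.1 (tg s.1 β) + G.a s.1) (K.shi s.1 (tg s.1 β) - G.a s.1) / 2 := by
    intro k
    have h1 := mul_nonneg (hς β) ((Fσ β).he s).le
    show stp _ _ _ / 2 - ς β s * (Fσ β).e s ≤ _
    linarith
  have hcen : ∀ k : Fin (L.N s.1 β),
      |sgPσ Fσ ς s (tg s.1 β) (pcen L s.1 ⟨β, k⟩) - pcen L s.1 ⟨β, k⟩| ≤ pwσ L Fσ ς s ⟨β, k⟩ := by
    intro k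
    refine (Sg3_band P s ⟨β, k⟩ (pcen L s.1 ⟨β, k⟩)).2 ?_
    rw [sub_self, abs_zero]
    have hB := P.B β s
    have h1 := (Fσ β).heo s
    rw [hB.N, hB.al, hB.be] at h1
    change 2 * (Fσ β).e s < stp (L.N s.1 β) (K.slo s.1 (tg s.1 β) + G.a s.1)
      (K.shi s.1 (tg s.1 β) - G.a s.1) at h1
    show 0 ≤ stp _ _ _ / 2 - (Fσ β).e s
    linarith
  have hpos : ∀ k : Fin (L.N s.1 β), 0 ≤ r s * pwid L (fun β => (F β).e s) s.1 ⟨β, k⟩ := by
    intro k
    exact mul_nonneg r0 ((((H.hookIn s).boxK hΩ).H.ok ⟨β, k⟩).pos).le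
  cases b
  · simp only [Col, cond_false, one_mul] at hcx' ⊢
    have h6 := (O.conf R Z hht hc1 r0 r1 hcell hosc I hx hxb ⟨β, ⟨0, hN⟩⟩).1 (by
      intro z hz hzb
      obtain ⟨z', hz', -, -, h7, -⟩ := H.exists_pre1 R hht (M.sub i) I.loc I.gc hz hzb
      obtain ⟨h8, h9⟩ := h7 β
      have h10 := (abs_le.1 (hoi z' hz' x' hx' (tg s.1 β))).2
      have h11 := (L.win s.1 β hN).1
      have h12 := (L.lvs s.1 β).c0
      show h4.toFun z (tg s.1 β) < _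
      rw [h9]
      exact H.P.lt_band (b := s) hN (by rw [← h8]; linarith))
    have h7 : h5.toFun x (tg s.1 β) < pcen L s.1 ⟨β, ⟨0, hN⟩⟩ := by
      have := hpos ⟨0, hN⟩
      have h6' : h5.toFun x (tg s.1 β) < pcen L s.1 ⟨β, ⟨0, hN⟩⟩ -
        r s * pwid L (fun β => (F β).e s) s.1 ⟨β, ⟨0, hN⟩⟩ := h6
      linarith
    have h8 := hmono h7
    have h9 := (abs_le.1 (hcen ⟨0, hN⟩)).2
    have h10 := hpw ⟨0, hN⟩
    rw [pcen_zero] at h9
    rw [e5]
    rw [pcen_zero] at h8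
    linarith
  · simp only [Col, cond_true, one_mul] at hcx' ⊢
    have hN1 : L.N s.1 β - 1 < L.N s.1 β := by omega
    have h6 := (O.conf R Z hht hc1 r0 r1 hcell hosc I hx hxb ⟨β, ⟨L.N s.1 β - 1, hN1⟩⟩).2 (by
      intro z hz hzb
      obtain ⟨z', hz', -, -, h7, -⟩ := H.exists_pre1 R hht (M.sub i) I.loc I.gc hz hzb
      obtain ⟨h8, h9⟩ := h7 β
      have h10 := (abs_le.1 (hoi z' hz' x' hx' (tg s.1 β))).1
      have h11 := (L.win s.1 β hN1).2
      have h12 := (L.lvs s.1 β).c0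
      show _ < h4.toFun z (tg s.1 β)
      rw [h9]
      exact H.P.gt_band (b := s) hN1 (by rw [← h8]; linarith))
    have h7 : pcen L s.1 ⟨β, ⟨L.N s.1 β - 1, hN1⟩⟩ < h5.toFun x (tg s.1 β) := by
      have := hpos ⟨L.N s.1 β - 1, hN1⟩
      have h6' : pcen L s.1 ⟨β, ⟨L.N s.1 β - 1, hN1⟩⟩ +
        r s * pwid L (fun β => (F β).e s) s.1 ⟨β, ⟨L.N s.1 β - 1, hN1⟩⟩ <
          h5.toFun x (tg s.1 β) := h6
      linarith
    have h8 := hmono h7
    have h9 := (abs_le.1 (hcen ⟨L.N s.1 β - 1, hN1⟩)).1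
    have h10 := hpw ⟨L.N s.1 β - 1, hN1⟩
    rw [pcen_last] at h9
    rw [e5]
    rw [pcen_last] at h8
    linarith

/-- the side of the square `s` which contains the edge `e` -/
noncomputable def sdE (K : BoxCx Λ v) (s : K.S) (e : K.G) : Bool := by
  classical
  exact decide (K.w (K.a e) (tg s (!bt s (K.dir e))) ≠ K.slo s (tg s (!bt s (K.dir e))))

theorem sdE_spec {s : K.S} {e : K.G} (he : K.edge e ⊆ K.sq s) :
    K.w (K.a e) (tg s (!bt s (K.dir e))) =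
      bif sdE K s e then K.shi s (tg s (!bt s (K.dir e)))
      else K.slo s (tg s (!bt s (K.dir e))) := by
  have h1 : tg s (!bt s (K.dir e)) ≠ K.dir e := by
    have h2 := P073.H155.tg_bt_dir he
    intro h3
    exact tg_ne_not s (bt s (K.dir e)) (h2.trans h3.symm)
  by_cases h : K.w (K.a e) (tg s (!bt s (K.dir e))) = K.slo s (tg s (!bt s (K.dir e)))
  · have h2 : sdE K s e = false := by simp [sdE, h]
    rw [h2]; exact h
  · have h2 : sdE K s e = true := by simp [sdE, h]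
    rw [h2]
    exact (edge_side he (tg_ne s _) h1).resolve_left h

/-- **(hP)** the points of a passive cell with new image in the tube of `e` are in the collar of
the side of `e` -/
theorem HkGF.col_of_YB (O : HkGF H hΩ r q h5) (P : Sg3 L D.S₀ Fσ ς Tσ)
    (hf5 : ∀ x ∈ Ω, f5.toFun x = PS.map Tσ (h5.toFun x))
    (R : ROut3 G E D h1 h2 L.lv Fm) (Z : ROutZ G E D h1 h2 L.lv Fm) (hht : HtOk G D)
    (hc1 : c ≤ 1) {s : D.S₀} (r0 : 0 ≤ r s) (r1 : r s < 1) (hς : ∀ β, 0 ≤ ς β s)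
    (hst : ∀ β, stp (L.N s.1 β) (K.slo s.1 (tg s.1 β) + G.a s.1)
      (K.shi s.1 (tg s.1 β) - G.a s.1) ≤ G.a s.1)
    (hcell : ∀ i ∈ Zb s, h3.toFun '' M.Q i = Pre (κ₁ ∘ κ₀) Λ h2 (M.Q i))
    (hosc : ∀ i ∈ Zb s, ∀ x ∈ M.Q i, ∀ y ∈ M.Q i, ∀ l,
      |h1.toFun x l - h1.toFun y l| ≤ G.p s.1 / 4) {i : M.ι} (I : Psv H s h1 i)
    (hoi : ∀ x ∈ M.Q i, ∀ y ∈ M.Q i, ∀ l, |h1.toFun x l - h1.toFun y l| ≤ G.p s.1 / 4)
    {Y : Lat B} {e : K.G} (he : K.edge e ⊆ K.sq s.1) {x : V} (hx : x ∈ M.Q i)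
    (hxb : h4.toFun x ∈ HB G c d s.1) (hY : f5.toFun x ∈ YB Y e) :
    Col G s.1 1 (!bt s.1 (K.dir e)) (sdE K s.1 e) (h4.toFun x) := by
  obtain ⟨β, b, h1, h2⟩ := O.posS P hf5 R Z hht hc1 r0 r1 hς hcell hosc I hoi hx hxb
  have hsp := sdE_spec he
  have htd := P073.H155.tg_bt_dir he
  have ha : 0 < G.a s.1 := by
    have := Geo.p_pos (G := G) s.1
    have := Geo.p_a (G := G) s.1
    linarith
  obtain ⟨h3, h4⟩ := mem_YB.1 hY
  obtain ⟨h5, h6⟩ := Vale.Agent.P073.H669.eLo_P (W := W) G he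
  change K.slo s.1 (K.dir e) + 32 * G.a s.1 ≤ eal W e at h5
  change ebe W e ≤ K.shi s.1 (K.dir e) - 32 * G.a s.1 at h6
  have hst' := hst β
  by_cases hβ : β = bt s.1 (K.dir e)
  · exfalso
    rw [hβ, htd] at h2
    have hst' := hst (bt s.1 (K.dir e))
    rw [htd] at hst'
    cases b
    · simp only [cond_false] at h2
      linarith
    · simp only [cond_true] at h2
      linarith
  · have hβ' : β = !bt s.1 (K.dir e) := by
      cases β <;> cases h : bt s.1 (K.dir e) <;> simp_all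
    subst hβ'
    have hne : tg s.1 (!bt s.1 (K.dir e)) ≠ K.dir e := by
      intro h7
      exact tg_ne_not s.1 (bt s.1 (K.dir e)) (htd.trans h7.symm)
    obtain ⟨h7, h8⟩ := h4 _ hne
    have h9 := side_ge S he (tg_ne s.1 (!bt s.1 (K.dir e))) hne
    have h10 := Y.pT e (tg s.1 (!bt s.1 (K.dir e)))
    have h11 := Y.qT e (tg s.1 (!bt s.1 (K.dir e)))
    have h12 := B.T_le e
    have h13 := W.we_le e
    have h14 := G.a_u s.1
    have h15 := G.u_T s.1 e he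
    rw [hsp] at h7 h8
    cases hb : sdE K s.1 e <;> rw [hb] at h7 h8 <;> simp only [cond_false, cond_true] at h7 h8
    · cases b
      · exact h1
      · exfalso
        simp only [cond_true] at h2
        linarith
    · cases b
      · exfalso
        simp only [cond_false] at h2
        linarith
      · exact h1

/-- **(hP)** of 155's `bandInv_thin_tube` -/
theorem HkGF.hP_of (O : HkGF H hΩ r q h5) (P : Sg3 L D.S₀ Fσ ς Tσ)
    (hf5 : ∀ x ∈ Ω, f5.toFun x = PS.map Tσ (h5.toFun x))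
    (R : ROut3 G E D h1 h2 L.lv Fm) (Z : ROutZ G E D h1 h2 L.lv Fm) (hht : HtOk G D)
    (hc1 : c ≤ 1) {s : D.S₀} (r0 : 0 ≤ r s) (r1 : r s < 1) (hς : ∀ β, 0 ≤ ς β s)
    (hst : ∀ β, stp (L.N s.1 β) (K.slo s.1 (tg s.1 β) + G.a s.1)
      (K.shi s.1 (tg s.1 β) - G.a s.1) ≤ G.a s.1)
    (hcell : ∀ i ∈ Zb s, h3.toFun '' M.Q i = Pre (κ₁ ∘ κ₀) Λ h2 (M.Q i))
    (hosc : ∀ i ∈ Zb s, ∀ x ∈ M.Q i, ∀ y ∈ M.Q i, ∀ l,
      |h1.toFun x l - h1.toFun y l| ≤ G.p s.1 / 4) {i : M.ι} (I : Psv H s h1 i)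
    (hoi : ∀ x ∈ M.Q i, ∀ y ∈ M.Q i, ∀ l, |h1.toFun x l - h1.toFun y l| ≤ G.p s.1 / 4)
    {Y : Lat B} {e : K.G} (he : K.edge e ⊆ K.sq s.1) {X : Set V} (hX : X ⊆ M.Q i) :
    ∃ T' : Set V, ((H.hookIn s).boxK hΩ).Near (bt s.1 (K.dir e)) T' ∧
      ∀ x ∈ X, h4.toFun x ∈ HB G c d s.1 → f5.toFun x ∈ YB Y e → h4.toFun x ∈ T' := by
  refine ⟨{y | y ∈ HB G c d s.1 ∧ Col G s.1 1 (!bt s.1 (K.dir e)) (sdE K s.1 e) y}, ?_, ?_⟩
  · have h := H.near_col hΩ R Z hht hc1 s hcell hosc (!bt s.1 (K.dir e)) (sdE K s.1 e)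
    rwa [Bool.not_not] at h
  · exact fun x hx hxb hY => ⟨hxb, O.col_of_YB P hf5 R Z hht hc1 r0 r1 hς hst hcell hosc I hoi
      he (hX hx) hxb hY⟩

/-- **(hside)** of 155's `inv_thin` -/
theorem HkGF.hside_of (O : HkGF H hΩ r q h5) (P : Sg3 L D.S₀ Fσ ς Tσ)
    (hf5 : ∀ x ∈ Ω, f5.toFun x = PS.map Tσ (h5.toFun x))
    (R : ROut3 G E D h1 h2 L.lv Fm) (Z : ROutZ G E D h1 h2 L.lv Fm) (hht : HtOk G D)
    (hc1 : c ≤ 1) {s : D.S₀} (r0 : 0 ≤ r s) (r1 : r s < 1) (hς : ∀ β, 0 ≤ ς β s)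
    (hst : ∀ β, stp (L.N s.1 β) (K.slo s.1 (tg s.1 β) + G.a s.1)
      (K.shi s.1 (tg s.1 β) - G.a s.1) ≤ G.a s.1)
    (hcell : ∀ i ∈ Zb s, h3.toFun '' M.Q i = Pre (κ₁ ∘ κ₀) Λ h2 (M.Q i))
    (hosc : ∀ i ∈ Zb s, ∀ x ∈ M.Q i, ∀ y ∈ M.Q i, ∀ l,
      |h1.toFun x l - h1.toFun y l| ≤ G.p s.1 / 4) {i : M.ι} (I : Psv H s h1 i)
    (hoi : ∀ x ∈ M.Q i, ∀ y ∈ M.Q i, ∀ l, |h1.toFun x l - h1.toFun y l| ≤ G.p s.1 / 4)
    {Y : Lat B} {e : K.G} (he : K.edge e ⊆ K.sq s.1) {X : Set V} (hX : X ⊆ M.Q i) :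
    (∀ x ∈ X, h4.toFun x ∈ HB G c d s.1 → f5.toFun x ∈ YB Y e →
      h4.toFun x (tg s.1 (!bt s.1 (K.dir e))) ≤
        K.slo s.1 (tg s.1 (!bt s.1 (K.dir e))) + G.p s.1) ∨
    (∀ x ∈ X, h4.toFun x ∈ HB G c d s.1 → f5.toFun x ∈ YB Y e →
      K.shi s.1 (tg s.1 (!bt s.1 (K.dir e))) - G.p s.1 ≤
        h4.toFun x (tg s.1 (!bt s.1 (K.dir e)))) := by
  have key : ∀ x ∈ X, h4.toFun x ∈ HB G c d s.1 → f5.toFun x ∈ YB Y e →
      Col G s.1 1 (!bt s.1 (K.dir e)) (sdE K s.1 e) (h4.toFun x) := fun x hx hxb hY =>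
    O.col_of_YB P hf5 R Z hht hc1 r0 r1 hς hst hcell hosc I hoi he (hX hx) hxb hY
  cases hb : sdE K s.1 e
  · refine Or.inl fun x hx hxb hY => ?_
    have h := key x hx hxb hY
    rw [hb] at h
    simpa only [Col, cond_false, one_mul] using h
  · refine Or.inr fun x hx hxb hY => ?_
    have h := key x hx hxb hY
    rw [hb] at h
    simpa only [Col, cond_true, one_mul] using h

/-! ### positions near an edge -/

/-- two edges which start at the same vertex in the same direction are equal -/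
theorem edge_eq_a {e e' : K.G} (h : K.a e = K.a e') (hd : K.dir e = K.dir e') : e = e' := by
  by_contra hne
  have h1 := K.ab_dir e
  have h2 := K.ab_dir e'
  rw [← hd, ← h] at h2
  obtain ⟨t, ht1, ht2⟩ := exists_between (lt_min h1 h2)
  obtain ⟨ht2, ht3⟩ := lt_min_iff.1 ht2
  set x : V := Function.update (K.w (K.a e)) (K.dir e) t with hx
  have xd : x (K.dir e) = t := by simp [hx]
  have xo : ∀ j, j ≠ K.dir e → x j = K.w (K.a e) j := fun j hj => by simp [hx, hj]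
  have hxe : x ∈ Icc (K.w (K.a e)) (K.w (K.b e)) := by
    refine ⟨fun j => ?_, fun j => ?_⟩ <;> by_cases hj : j = K.dir e
    · rw [hj, xd]; exact ht1.le
    · rw [xo j hj]
    · rw [hj, xd]; exact ht2.le
    · rw [xo j hj, K.ab_off e j hj]
  have hxe' : x ∈ Icc (K.w (K.a e')) (K.w (K.b e')) := by
    refine ⟨fun j => ?_, fun j => ?_⟩ <;> by_cases hj : j = K.dir e
    · rw [hj, xd, ← h]; exact ht1.le
    · rw [xo j hj, ← h]
    · rw [hj, xd]; exact ht3.le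
    · rw [xo j hj, h, K.ab_off e' j (by rw [← hd]; exact hj)]
  obtain ⟨i, hi⟩ := K.edge_meet e e' hne x hxe hxe'
  rcases K.w_on_edge i e (hi ▸ hxe) with rfl | rfl
  · rw [hi] at xd; linarith
  · rw [hi] at xd; linarith

/-- two edges which end at the same vertex in the same direction are equal -/
theorem edge_eq_b {e e' : K.G} (h : K.b e = K.b e') (hd : K.dir e = K.dir e') : e = e' := by
  by_contra hne
  have h1 := K.ab_dir e
  have h2 := K.ab_dir e'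
  rw [← hd, ← h] at h2
  obtain ⟨t, ht1, ht2⟩ := exists_between (max_lt h1 h2)
  obtain ⟨ht1, ht3⟩ := max_lt_iff.1 ht1
  set x : V := Function.update (K.w (K.b e)) (K.dir e) t with hx
  have xd : x (K.dir e) = t := by simp [hx]
  have xo : ∀ j, j ≠ K.dir e → x j = K.w (K.b e) j := fun j hj => by simp [hx, hj]
  have hxe : x ∈ Icc (K.w (K.a e)) (K.w (K.b e)) := by
    refine ⟨fun j => ?_, fun j => ?_⟩ <;> by_cases hj : j = K.dir e
    · rw [hj, xd]; exact ht1.le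
    · rw [xo j hj, K.ab_off e j hj]
    · rw [hj, xd]; exact ht2.le
    · rw [xo j hj]
  have hxe' : x ∈ Icc (K.w (K.a e')) (K.w (K.b e')) := by
    refine ⟨fun j => ?_, fun j => ?_⟩ <;> by_cases hj : j = K.dir e
    · rw [hj, xd]; exact ht3.le
    · rw [xo j hj, h, K.ab_off e' j (by rw [← hd]; exact hj)]
    · rw [hj, xd, ← h]; exact ht2.le
    · rw [xo j hj, ← h]
  obtain ⟨i, hi⟩ := K.edge_meet e e' hne x hxe hxe'
  rcases K.w_on_edge i e (hi ▸ hxe) with rfl | rfl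
  · rw [hi] at xd; linarith
  · rw [hi] at xd; linarith

/-- **a point in the tube of `e` which is close to an edge `e'` of a square: `e' = e`** -/
theorem edge_eq_of_near {e e' : K.G} {s : K.S} (he' : K.edge e' ⊆ K.sq s) {x z : V}
    (hx : (K.w (K.a e) (K.dir e) + W.wv (K.a e) / 4 ≤ x (K.dir e) ∧
      x (K.dir e) ≤ K.w (K.b e) (K.dir e) - W.wv (K.b e) / 4) ∧
      ∀ k, k ≠ K.dir e → |x k - K.w (K.a e) k| ≤ 2 * S.q e)
    (hz : z ∈ K.edge e') (hxz : ∀ k, |x k - z k| ≤ 2 * G.p s) : e' = e := by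
  have hp := Geo.p_pos (G := G) s
  have hq := S.q_pos e
  have hva := W.wv_pos (K.a e)
  have hvb := W.wv_pos (K.b e)
  by_contra hne
  have hxe : x ∈ K.nb e (2 * S.q e) := by
    intro k
    by_cases hk : k = K.dir e
    · subst hk
      constructor <;> linarith [hx.1.1, hx.1.2]
    · have h1 := abs_le.1 (hx.2 k hk)
      have h2 := K.ab_off e k hk
      constructor <;> linarith [h1.1, h1.2]
  have hpq : 2 * G.p s ≤ 2 * S.q e' := by
    have h1 := G.p_uT s e' he'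
    have h2 := G.uT_lam e'
    have h3 := G.lam_T e'
    have h4 := B.T_le e'
    have h5 := W.we_le e'
    have h6 := G.uT_pos e'
    linarith
  have hxe' : x ∈ K.nb e' (2 * S.q e') := by
    intro k
    have h1 := abs_le.1 (hxz k)
    have h2 := hz.1 k
    have h3 := hz.2 k
    constructor <;> linarith [h1.1, h1.2]
  obtain ⟨i, hi, hi'⟩ := S.tube_disj e e' (Ne.symm hne) x hxe hxe'
  have hws : K.w i ∈ K.sq s := by
    refine he' ?_
    rcases hi' with rfl | rfl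
    · exact TM.wa_mem K e'
    · exact TM.wb_mem K e'
  have hpi : 2 * G.p s ≤ W.wv i / 8 := by
    have h1 := G.p_be s i hws
    have h2 := G.be_wv i
    have h3 := G.be_pos i
    linarith
  have hvi := W.wv_pos i
  -- the coordinate along `e` of `z` is not the coordinate of the vertex
  have hzi : ∀ k, k ≠ K.dir e' → z k = K.w i k := by
    intro k hk
    have h1 := hz.1 k
    have h2 := hz.2 k
    have h3 := K.ab_off e' k hk
    rcases hi' with rfl | rfl <;> linarith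
  have hx1 := abs_le.1 (hxz (K.dir e))
  have hdir : K.dir e' = K.dir e := by
    by_contra hd
    have h1 := hzi (K.dir e) (Ne.symm hd)
    rcases hi with rfl | rfl
    · linarith [hx.1.1, hx1.2]
    · linarith [hx.1.2, hx1.1]
  rcases hi with hi | hi <;> rcases hi' with hi' | hi'
  · exact hne (edge_eq_a (hi'.symm.trans hi) hdir)
  · subst hi
    have h1 := hz.2 (K.dir e)
    rw [← hi'] at h1
    linarith [hx.1.1, hx1.2]
  · subst hi
    have h1 := hz.1 (K.dir e)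
    rw [← hi'] at h1
    linarith [hx.1.2, hx1.1]
  · exact hne (edge_eq_b (hi'.symm.trans hi) hdir)

/-- the second staircases move points with new position in the tube of `e` by at most `2 δ` -/
theorem sg3_disp_YB (P : Sg3 L D.S₀ Fσ ς Tσ) {Y : Lat B} {e : K.G} {δ : ℝ} (hδ0 : 0 ≤ δ)
    (hδ : ∀ β, ∀ s : D.S₀, K.edge e ⊆ K.sq s.1 → (Fσ β).e s ≤ δ) {y : V}
    (hY : PS.map Tσ y ∈ YB Y e) : ‖PS.map Tσ y - y‖ ≤ 2 * δ := by
  have key : ∀ s : D.S₀, PS.map Tσ y ∈ PK G s.1 → K.edge e ⊆ K.sq s.1 := fun s hs =>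
    have hZe : PS.map Tσ y ∈ Ze W e := B.E_subset e (YB_sub_E Y e hY)
    edge_subset_sq (PK_sub_ss s.1 hs) hZe.1 (Ze_nJ hZe)
  set y1 : V := (Tσ false).toFun y with hy1
  have e2 : PS.map Tσ y = (Tσ true).toFun y1 := rfl
  have h1 : ‖(Tσ true).toFun y1 - y1‖ ≤ δ := by
    by_cases hA : ∃ s, y1 ∈ ((Fσ true).B s).K
    · obtain ⟨s, hs⟩ := hA
      refine ((P.isS true).norm_sub_le hs).trans (hδ true s (key s ?_))
      rw [e2]
      exact P.mem_K ((P.isS true).mem hs)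
    · push Not at hA
      rw [(P.isS true).off y1 hA, sub_self, norm_zero]
      exact hδ0
  have h2 : ‖y1 - y‖ ≤ δ := by
    by_cases hB : ∃ s, y ∈ ((Fσ false).B s).K
    · obtain ⟨s, hs⟩ := hB
      have h3 := P.mem_K ((P.isS false).mem hs)
      refine ((P.isS false).norm_sub_le hs).trans (hδ false s (key s ?_))
      rw [e2]
      by_cases hA : ∃ s', y1 ∈ ((Fσ true).B s').K
      · obtain ⟨s', hs'⟩ := hA
        have h4 : s'.1 = s.1 := PK_unique (P.mem_K hs') h3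
        rw [← h4]
        exact P.mem_K ((P.isS true).mem hs')
      · push Not at hA
        rw [(P.isS true).off y1 hA]
        exact h3
    · push Not at hB
      rw [hy1, (P.isS false).off y hB, sub_self, norm_zero]
      exact hδ0
  calc ‖PS.map Tσ y - y‖ = ‖((Tσ true).toFun y1 - y1) + (y1 - y)‖ := by
        rw [sub_add_sub_cancel]; rfl
    _ ≤ 2 * δ := by linarith [norm_add_le ((Tσ true).toFun y1 - y1) (y1 - y)]

/-- **(hpos)** of 155's `bandInv_thin_tube` / `inv_thin`, from the cover: the cell is close to an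
edge `e'` of a square `s` -/
theorem HkGF.hpos_of (O : HkGF H hΩ r q h5) (P : Sg3 L D.S₀ Fσ ς Tσ)
    (hf5 : ∀ x ∈ Ω, f5.toFun x = PS.map Tσ (h5.toFun x)) {Y : Lat B} {e : K.G} {δ : ℝ}
    (hδ0 : 0 ≤ δ) (hδ : ∀ β, ∀ s : D.S₀, K.edge e ⊆ K.sq s.1 → (Fσ β).e s ≤ δ)
    (hδa : 2 * δ ≤ G.be (K.a e)) (hδb : 2 * δ ≤ G.be (K.b e)) (hδT : 2 * δ ≤ B.T e) {x : V}
    (hx : x ∈ Ω) (hY : f5.toFun x ∈ YB Y e) (hn : ∀ s : D.S₀, h4.toFun x ∉ HB G c d s.1)
    (hA : ∃ (s : K.S) (e' : K.G), K.edge e' ⊆ K.sq s ∧ ∃ z ∈ K.edge e',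
      ∀ k, |h4.toFun x k - z k| ≤ 2 * G.p s) : h4.toFun x ∈ G.TB true (.inl e) := by
  obtain ⟨s, e', he', z, hz, hxz⟩ := hA
  have e5 : h5.toFun x = h4.toFun x := O.out.off hx fun s hs => hn s (interior_subset hs)
  have e6 : f5.toFun x = PS.map Tσ (h4.toFun x) := by rw [hf5 x hx, e5]
  rw [e6] at hY
  have h1 := sg3_disp_YB P hδ0 hδ hY
  have h2 : ∀ k, |PS.map Tσ (h4.toFun x) k - h4.toFun x k| ≤ 2 * δ := fun k => by
    have h := norm_le_pi_norm (PS.map Tσ (h4.toFun x) - h4.toFun x) k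
    rw [Pi.sub_apply, Real.norm_eq_abs] at h
    exact h.trans h1
  obtain ⟨⟨h3, h4'⟩, h5'⟩ := mem_YB.1 hY
  unfold eal at h3
  unfold ebe at h4'
  have hwa := G.be_wv (K.a e)
  have hwb := G.be_wv (K.b e)
  have hba := G.be_pos (K.a e)
  have hbb := G.be_pos (K.b e)
  have hTq : B.T e ≤ S.q e := (B.T_le e).trans (W.we_le e)
  have hd := abs_le.1 (h2 (K.dir e))
  have hx' : (K.w (K.a e) (K.dir e) + W.wv (K.a e) / 4 ≤ h4.toFun x (K.dir e) ∧
      h4.toFun x (K.dir e) ≤ K.w (K.b e) (K.dir e) - W.wv (K.b e) / 4) ∧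
      ∀ k, k ≠ K.dir e → |h4.toFun x k - K.w (K.a e) k| ≤ 2 * S.q e := by
    refine ⟨⟨by linarith [hd.2], by linarith [hd.1]⟩, fun k hk => ?_⟩
    obtain ⟨h6, h7⟩ := h5' k hk
    have h8 := Y.pT e k
    have h9 := Y.qT e k
    have h10 := abs_le.1 (h2 k)
    rw [abs_le]
    constructor <;> linarith [h10.1, h10.2]
  have hee : e' = e := edge_eq_of_near (G := G) he' hx' hz hxz
  subst hee
  rw [Geo.mem_inl]
  refine ⟨⟨by linarith [hx'.1.1], by linarith [hx'.1.2]⟩, fun k hk => ?_⟩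
  rw [if_pos rfl]
  have h6 : z k = K.w (K.a e') k := by
    have h7 := hz.1 k
    have h8 := hz.2 k
    have h9 := K.ab_off e' k hk
    linarith
  have h10 := G.p_uT s e' he'
  have h11 := Geo.p_pos (G := G) s
  have h12 := hxz k
  rw [h6] at h12
  linarith

end P073.H919
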