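import Vale.Agent.P073.TR.FlowBox

/-!
# P073, H805: calculus of flow boxes
-/

open Set Metric Topology Filter

namespace P073.H805

open P073 P073.TR

variable {E F G : Type*} [NormedAddCommGroup E] [NormedSpace ℝ E]
  [NormedAddCommGroup F] [NormedSpace ℝ F] [NormedAddCommGroup G] [NormedSpace ℝ G]
  {ι κ : Type*}

/-- `u` has a flow box at `x`, for the family `M` -/
def Reg (u : E → F) (M : ι → Set E) (x : E) : Prop :=
  ∃ (σ : F →ₗ[ℝ] E) (r : ℝ), FlowBox u M x σ r

/-- only the germs matter -/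
theorem Reg.congr [FiniteDimensional ℝ F] {u u' : E → F} {M : ι → Set E} {M' : κ → Set E} {x : E}
    (h : Reg u M x) (hu : u' =ᶠ[𝓝 x] u)
    (hM : ∀ k, (∃ i, ∀ᶠ y in 𝓝 x, (y ∈ M' k ↔ y ∈ M i)) ∨ (∀ᶠ y in 𝓝 x, y ∈ M' k) ∨
      (∀ᶠ y in 𝓝 x, y ∉ M' k)) [Finite κ] : Reg u' M' x := by
  obtain ⟨σ, r, h⟩ := h
  -- choose for each k one alternative
  have hM2 : ∀ k, ∃ P : E → Prop, (∀ᶠ y in 𝓝 x, (y ∈ M' k ↔ P y)) ∧
      ∀ w s, ‖w‖ < r → ‖s‖ < r → (P (x + w + σ s) ↔ P (x + w)) := by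
    intro k
    rcases hM k with ⟨i, hi⟩ | hk | hk
    · exact ⟨fun y => y ∈ M i, hi, fun w s hw hs => h.iff i w s hw hs⟩
    · exact ⟨fun _ => True, hk.mono fun y hy => by simp [hy], fun _ _ _ _ => Iff.rfl⟩
    · exact ⟨fun _ => False, hk.mono fun y hy => by simp [hy], fun _ _ _ _ => Iff.rfl⟩
  choose P hP1 hP2 using hM2
  have hev : ∀ᶠ y in 𝓝 x, u' y = u y ∧ ∀ k, (y ∈ M' k ↔ P k y) :=
    hu.and (eventually_all.2 hP1)
  obtain ⟨δ, hδ, hδ'⟩ := Metric.eventually_nhds_iff_ball.1 hev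
  have hσc : Continuous σ := σ.continuous_of_finiteDimensional
  have hc : ContinuousAt (fun z : E × F => x + z.1 + σ z.2) (0, 0) := by
    apply Continuous.continuousAt; fun_prop
  have hev2 : ∀ᶠ z : E × F in 𝓝 (0, 0), x + z.1 + σ z.2 ∈ ball x δ :=
    hc.eventually (by simp only [map_zero, add_zero]; exact ball_mem_nhds x hδ)
  have hev3 : ∀ᶠ z : E × F in 𝓝 (0, 0), x + z.1 ∈ ball x δ := by
    have hc3 : ContinuousAt (fun z : E × F => x + z.1) (0, 0) := by
      apply Continuous.continuousAt; fun_prop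
    exact hc3.eventually (by simp only [add_zero]; exact ball_mem_nhds x hδ)
  obtain ⟨ρ, hρ, hb⟩ := Metric.eventually_nhds_iff_ball.1 (hev2.and hev3)
  refine ⟨σ, min r ρ, lt_min h.pos hρ, fun w s hw hs => ?_, fun k w s hw hs => ?_⟩
  all_goals
    have hz : ((w, s) : E × F) ∈ ball ((0:E), (0:F)) ρ := by
      rw [mem_ball, Prod.dist_eq]
      simp only [dist_zero_right]
      exact max_lt (hw.trans_le (min_le_right _ _)) (hs.trans_le (min_le_right _ _))
    obtain ⟨h1, h2⟩ := hb _ hz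
    have hw' := hw.trans_le (min_le_left r ρ)
    have hs' := hs.trans_le (min_le_left r ρ)
  · rw [(hδ' _ h1).1, (hδ' _ h2).1, h.add w s hw' hs']
  · rw [(hδ' _ h1).2 k, (hδ' _ h2).2 k, hP2 k w s hw' hs']

theorem Reg.congr_fun [FiniteDimensional ℝ F] {u u' : E → F} {M : ι → Set E} {x : E}
    (h : Reg u M x) (hu : u' =ᶠ[𝓝 x] u) : Reg u' M x := by
  obtain ⟨σ, r, h⟩ := h
  obtain ⟨δ, hδ, hδ'⟩ := Metric.eventually_nhds_iff_ball.1 hu
  have hσc : Continuous σ := σ.continuous_of_finiteDimensional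
  have hc : ContinuousAt (fun z : E × F => x + z.1 + σ z.2) (0, 0) := by
    apply Continuous.continuousAt; fun_prop
  have hev2 : ∀ᶠ z : E × F in 𝓝 (0, 0), x + z.1 + σ z.2 ∈ ball x δ :=
    hc.eventually (by simp only [map_zero, add_zero]; exact ball_mem_nhds x hδ)
  have hev3 : ∀ᶠ z : E × F in 𝓝 (0, 0), x + z.1 ∈ ball x δ := by
    have hc3 : ContinuousAt (fun z : E × F => x + z.1) (0, 0) := by
      apply Continuous.continuousAt; fun_prop
    exact hc3.eventually (by simp only [add_zero]; exact ball_mem_nhds x hδ)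
  obtain ⟨ρ, hρ, hb⟩ := Metric.eventually_nhds_iff_ball.1 (hev2.and hev3)
  refine ⟨σ, min r ρ, lt_min h.pos hρ, fun w s hw hs => ?_, fun k w s hw hs => ?_⟩
  · have hz : ((w, s) : E × F) ∈ ball ((0:E), (0:F)) ρ := by
      rw [mem_ball, Prod.dist_eq]
      simp only [dist_zero_right]
      exact max_lt (hw.trans_le (min_le_right _ _)) (hs.trans_le (min_le_right _ _))
    obtain ⟨h1, h2⟩ := hb _ hz
    rw [hδ' _ h1, hδ' _ h2, h.add w s (hw.trans_le (min_le_left r ρ))
      (hs.trans_le (min_le_left r ρ))]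
  · exact h.iff k w s (hw.trans_le (min_le_left r ρ)) (hs.trans_le (min_le_left r ρ))

/-- sub-family, reindexing -/
theorem Reg.reindex {u : E → F} {M : ι → Set E} {M' : κ → Set E} {x : E} (h : Reg u M x)
    (hM : ∀ k, ∃ i, M' k = M i) : Reg u M' x := by
  obtain ⟨σ, r, h⟩ := h
  refine ⟨σ, r, h.pos, h.add, fun k w s hw hs => ?_⟩
  obtain ⟨i, hi⟩ := hM k
  rw [hi]; exact h.iff i w s hw hs

/-- regularity is an open condition -/
theorem Reg.eventually {u : E → F} {M : ι → Set E} {x : E} (h : Reg u M x) :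
    ∀ᶠ y in 𝓝 x, Reg u M y := by
  obtain ⟨σ, r, h⟩ := h
  have hr := h.pos
  filter_upwards [ball_mem_nhds x (half_pos hr)] with y hy
  have hy' : ‖y - x‖ < r / 2 := by rwa [← dist_eq_norm]
  refine ⟨σ, r / 2, half_pos hr, fun w s hw hs => ?_, fun i w s hw hs => ?_⟩
  all_goals
    have h1 : ‖y - x + w‖ < r := (norm_add_le _ _).trans_lt (by linarith)
    have h2 : ‖s‖ < r := by linarith
    have e1 : y + w = x + (y - x + w) := by abel
    rw [e1]
  · exact h.add _ s h1 h2
  · exact h.iff i _ s h1 h2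

/-- post-composition with an equivariant map -/
theorem Reg.comp [FiniteDimensional ℝ G] {u : E → F} {M : ι → Set E} {x : E}
    (h : Reg u M x) (huc : ContinuousAt u x) {g : F → G} (τ : G →ₗ[ℝ] F) {ρ : ℝ} (hρ : 0 < ρ)
    (hg : ∀ y s, ‖y - u x‖ < ρ → ‖s‖ < ρ → g (y + τ s) = g y + s) :
    Reg (fun y => g (u y)) M x := by
  obtain ⟨σ, r, h⟩ := h
  have hτ : Continuous τ := τ.continuous_of_finiteDimensional
  have h1 : ∀ᶠ s : G in 𝓝 0, ‖τ s‖ < r := by
    have : ContinuousAt (fun s : G => ‖τ s‖) 0 := by fun_prop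
    exact this.eventually_lt_const (by simpa using h.pos)
  have h2 : ∀ᶠ w : E in 𝓝 0, ‖u (x + w) - u x‖ < ρ := by
    have hc : ContinuousAt (fun w : E => u (x + w) - u x) 0 := by
      apply ContinuousAt.sub _ continuousAt_const
      apply ContinuousAt.comp (f := fun w : E => x + w) (x := (0:E)) (g := u)
      · simpa using huc
      · fun_prop
    exact hc.norm.eventually_lt_const (by simpa using hρ)
  obtain ⟨δ1, hδ1, hb1⟩ := Metric.eventually_nhds_iff_ball.1 h1
  obtain ⟨δ2, hδ2, hb2⟩ := Metric.eventually_nhds_iff_ball.1 h2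
  refine ⟨σ.comp τ, min (min r ρ) (min δ1 δ2), lt_min (lt_min h.pos hρ) (lt_min hδ1 hδ2),
    fun w s hw hs => ?_, fun i w s hw hs => ?_⟩
  all_goals
    have w1 : ‖w‖ < r := hw.trans_le ((min_le_left _ _).trans (min_le_left _ _))
    have w2 : w ∈ ball (0:E) δ2 := by
      rw [mem_ball_zero_iff]; exact hw.trans_le ((min_le_right _ _).trans (min_le_right _ _))
    have s1 : s ∈ ball (0:G) δ1 := by
      rw [mem_ball_zero_iff]; exact hs.trans_le ((min_le_right _ _).trans (min_le_left _ _))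
    have s2 : ‖s‖ < ρ := hs.trans_le ((min_le_left _ _).trans (min_le_right _ _))
  · simp only [LinearMap.comp_apply]
    rw [h.add w (τ s) w1 (hb1 s s1)]
    exact hg _ s (hb2 w w2) s2
  · exact h.iff i w (τ s) w1 (hb1 s s1)

/-- **joint flow boxes**: if `u` is regular and the affine function `L + c` is regular for the
family enlarged by the level set of `u`, then `(u, L + c)` is regular. -/
theorem Reg.joint [FiniteDimensional ℝ F] [FiniteDimensional ℝ G] {u : E → F} {M : ι → Set E}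
    {M' : κ → Set E} {L : E →ₗ[ℝ] G} {c : G} {x : E} (h1 : Reg u M x)
    (huc : ContinuousAt u x) (h2 : Reg (fun y => L y + c) M' x)
    (hM : ∀ i, ∃ k, M' k = M i) (hlev : ∃ k, ∀ᶠ y in 𝓝 x, (y ∈ M' k ↔ u y = u x)) :
    Reg (fun y => (u y, L y + c)) M x := by
  obtain ⟨σ, r, h1⟩ := h1
  obtain ⟨τ, r', h2⟩ := h2
  obtain ⟨k, hk⟩ := hlev
  have hτL : ∀ t : G, L (τ t) = t := by
    -- for small t, then by scaling
    intro t
    obtain ⟨a, ha, hat⟩ : ∃ a : ℝ, 0 < a ∧ ‖a • t‖ < r' := by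
      refine ⟨r' / (2 * (‖t‖ + 1)), by have := h2.pos; positivity, ?_⟩
      have h3 := h2.pos
      have h4 : 0 ≤ ‖t‖ := norm_nonneg t
      rw [norm_smul, Real.norm_of_nonneg (by positivity), div_mul_eq_mul_div,
        div_lt_iff₀ (by positivity)]
      nlinarith
    have h5 := h2.add 0 (a • t) (by simpa using h2.pos) hat
    simp only [add_zero, map_add, map_smul] at h5
    have h6 : a • L (τ t) = a • t := by
      have : L x + a • L (τ t) + c = L x + c + a • t := h5
      have h7 : a • L (τ t) = (L x + a • L (τ t) + c) - L x - c := by abel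
      rw [h7, this]; abel
    exact smul_right_injective G ha.ne' h6
  have hσc : Continuous σ := σ.continuous_of_finiteDimensional
  have hτc : Continuous τ := τ.continuous_of_finiteDimensional
  obtain ⟨δ, hδ, hδ'⟩ := Metric.eventually_nhds_iff_ball.1 hk
  -- the combined direction
  set ξ : F × G →ₗ[ℝ] E := (σ.comp (LinearMap.fst ℝ F G)) +
    τ.comp (LinearMap.snd ℝ F G - (L.comp σ).comp (LinearMap.fst ℝ F G)) with hξ
  by_cases hLc : Continuous fun s : F => L (σ s)
  swap
  · exact absurd ((L.comp σ).continuous_of_finiteDimensional) hLc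
  have hξv : ∀ s t, ξ (s, t) = σ s + τ (t - L (σ s)) := fun s t => by
    simp [hξ]
  -- smallness
  have hev : ∀ᶠ z : E × F × G in 𝓝 (0, 0, 0), ‖z.1‖ < r ∧ ‖z.2.1‖ < r ∧
      ‖u (x + z.1) - u x‖ < r ∧ ‖z.1 - σ (u (x + z.1) - u x)‖ < r' ∧
      ‖z.2.2 - L (σ z.2.1)‖ < r' ∧
      ‖z.1 + τ (z.2.2 - L (σ z.2.1))‖ < r ∧ ‖u (x + z.1) - u x + z.2.1‖ < r ∧
      ‖z.1 + τ (z.2.2 - L (σ z.2.1)) - σ (u (x + z.1) - u x)‖ < r ∧
      ‖z.1 - σ (u (x + z.1) - u x)‖ < δ ∧
      ‖z.1 - σ (u (x + z.1) - u x) + τ (z.2.2 - L (σ z.2.1))‖ < δ ∧ ‖z.1‖ < r' := by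
    have cu : ContinuousAt (fun z : E × F × G => u (x + z.1) - u x) (0, 0, 0) := by
      apply ContinuousAt.sub _ continuousAt_const
      apply ContinuousAt.comp (f := fun z : E × F × G => x + z.1) (x := ((0:E), (0:F), (0:G)))
        (g := u)
      · simpa using huc
      · fun_prop
    have cσu : ContinuousAt (fun z : E × F × G => σ (u (x + z.1) - u x)) (0, 0, 0) :=
      ContinuousAt.comp (g := σ) hσc.continuousAt cu
    have c1 : ContinuousAt (fun z : E × F × G => z.1) (0, 0, 0) := by fun_prop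
    have c2 : ContinuousAt (fun z : E × F × G => z.2.1) (0, 0, 0) := by fun_prop
    have c3 : ContinuousAt (fun z : E × F × G => z.2.2 - L (σ z.2.1)) (0, 0, 0) := by
      have : ContinuousAt (fun z : E × F × G => L (σ z.2.1)) (0, 0, 0) :=
        ContinuousAt.comp (g := fun s : F => L (σ s)) hLc.continuousAt c2
      exact ContinuousAt.sub (by fun_prop) this
    have c4 : ContinuousAt (fun z : E × F × G => τ (z.2.2 - L (σ z.2.1))) (0, 0, 0) :=
      ContinuousAt.comp (g := τ) hτc.continuousAt c3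
    have hr := h1.pos
    have hr' := h2.pos
    have e1 := c1.norm.eventually_lt_const (u := r) (by simpa using hr)
    have e2 := c2.norm.eventually_lt_const (u := r) (by simpa using hr)
    have e3 := cu.norm.eventually_lt_const (u := r) (by simpa using hr)
    have e4 := (c1.sub cσu).norm.eventually_lt_const (u := r') (by simpa using hr')
    have e5 := c3.norm.eventually_lt_const (u := r') (by simpa using hr')
    have e6 := (c1.add c4).norm.eventually_lt_const (u := r) (by simpa using hr)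
    have e7 := (cu.add c2).norm.eventually_lt_const (u := r) (by simpa using hr)
    have e8 := ((c1.add c4).sub cσu).norm.eventually_lt_const (u := r) (by simpa using hr)
    have e9 := (c1.sub cσu).norm.eventually_lt_const (u := δ) (by simpa using hδ)
    have e10 := ((c1.sub cσu).add c4).norm.eventually_lt_const (u := δ) (by simpa using hδ)
    have e11 := c1.norm.eventually_lt_const (u := r') (by simpa using hr')
    filter_upwards [e1, e2, e3, e4, e5, e6, e7, e8, e9, e10, e11] with z a1 a2 a3 a4 a5 a6 a7 a8 a9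
      a10 a11
    exact ⟨a1, a2, a3, a4, a5, a6, a7, a8, a9, a10, a11⟩
  obtain ⟨ρ, hρ, hb⟩ := Metric.eventually_nhds_iff_ball.1 hev
  -- invariance of `u` under `τ`
  have huτ : ∀ w s t, ‖w‖ < ρ → ‖s‖ < ρ → ‖t‖ < ρ →
      u (x + w + τ (t - L (σ s))) = u (x + w) := by
    intro w s t hw hs ht
    have hz : ((w, s, t) : E × F × G) ∈ ball ((0:E), (0:F), (0:G)) ρ := by
      rw [mem_ball, Prod.dist_eq, Prod.dist_eq]
      simp only [dist_zero_right]
      exact max_lt hw (max_lt hs ht)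
    obtain ⟨a1, a2, a3, a4, a5, a6, a7, a8, a9, a10, a11⟩ := hb _ hz
    simp only at a1 a2 a3 a4 a5 a6 a7 a8 a9 a10 a11
    set q := u (x + w) - u x with hq
    set y := τ (t - L (σ s)) with hy
    have b1 : u (x + (w - σ q)) = u x := by
      have := h1.add w (-q) a1 (by rwa [norm_neg])
      rw [map_neg, ← sub_eq_add_neg, add_sub_assoc] at this
      rw [this, hq]; abel
    have b2 : x + (w - σ q) ∈ M' k := by
      rw [hδ' _ (by rw [mem_ball, dist_eq_norm]; simpa using a9)]
      exact b1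
    have b3 : x + (w - σ q) + y ∈ M' k := (h2.iff k (w - σ q) (t - L (σ s)) a4 a5).2 b2
    have b4 : u (x + (w - σ q) + y) = u x := by
      rwa [hδ' _ (by rw [mem_ball, dist_eq_norm, add_assoc, add_sub_cancel_left]
                     exact a10)] at b3
    have b5 := h1.add (w + y - σ q) q a8 a3
    have e1 : x + (w + y - σ q) + σ q = x + w + y := by abel
    have e2 : x + (w + y - σ q) = x + (w - σ q) + y := by abel
    rw [e1, e2, b4] at b5
    rw [b5, hq]; abel
  refine ⟨ξ, ρ, hρ, fun w s hw hs => ?_, fun i w s hw hs => ?_⟩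
  all_goals
    obtain ⟨s, t⟩ := s
    have hs1 : ‖s‖ < ρ := (norm_fst_le (s, t)).trans_lt hs
    have hs2 : ‖t‖ < ρ := (norm_snd_le (s, t)).trans_lt hs
    have hz : ((w, s, t) : E × F × G) ∈ ball ((0:E), (0:F), (0:G)) ρ := by
      rw [mem_ball, Prod.dist_eq, Prod.dist_eq]
      simp only [dist_zero_right]
      exact max_lt hw (max_lt hs1 hs2)
    obtain ⟨a1, a2, a3, a4, a5, a6, a7, a8, a9, a10, a11⟩ := hb _ hz
    simp only at a1 a2 a3 a4 a5 a6 a7 a8 a9 a10 a11
    have e0 : x + w + ξ (s, t) = x + (w + τ (t - L (σ s))) + σ s := by rw [hξv]; abel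
    rw [e0]
  · have b1 := h1.add (w + τ (t - L (σ s))) s a6 a2
    have b2 := huτ w s t hw hs1 hs2
    have b3 : L (x + (w + τ (t - L (σ s))) + σ s) = L (x + w) + t := by
      simp only [map_add, hτL, map_sub]; abel
    rw [b1, ← add_assoc, b2]
    simp only [Prod.mk_add_mk, Prod.mk.injEq, true_and]
    rw [← add_assoc] at b3
    rw [b3]; abel
  · obtain ⟨k', hk'⟩ := hM i
    rw [h1.iff i _ s a6 a2]
    have := h2.iff k' w (t - L (σ s)) a11 a5
    rw [hk', add_assoc] at this
    exact this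

/-- regularity near a compact level set -/
theorem exists_reg_near {u : E → F} {M : ι → Set E} {C : Set E} (hC : IsCompact C) {g : E → ℝ}
    (hg : ContinuousOn g C) (h : ∀ x ∈ C, g x = 0 → Reg u M x) :
    ∃ ε > 0, ∀ x ∈ C, |g x| ≤ ε → Reg u M x := by
  by_contra hcon
  push Not at hcon
  have hch : ∀ n : ℕ, ∃ x ∈ C, |g x| ≤ 1 / ((n:ℝ) + 1) ∧ ¬ Reg u M x := fun n =>
    hcon _ (by positivity)
  choose x hxC hx1 hx2 using hch
  obtain ⟨a, haC, φ, hφ, hlim⟩ := hC.tendsto_subseq hxC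
  have hg0 : g a = 0 := by
    have h1 : Tendsto (fun n => g (x (φ n))) atTop (𝓝 (g a)) :=
      (hg a haC).tendsto.comp (tendsto_nhdsWithin_iff.2 ⟨hlim, Eventually.of_forall fun n => hxC _⟩)
    have h2 : Tendsto (fun n => g (x (φ n))) atTop (𝓝 0) := by
      apply squeeze_zero_norm (a := fun n => 1 / (((φ n : ℕ) : ℝ) + 1)) (fun n => hx1 _)
      exact tendsto_one_div_add_atTop_nhds_zero_nat.comp hφ.tendsto_atTop
    exact tendsto_nhds_unique h1 h2
  have h3 := (h a haC hg0).eventually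
  obtain ⟨n, hn⟩ := (hlim.eventually h3).exists
  exact hx2 _ hn

end P073.H805
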