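import Vale.Agent.P073.H805.Marks
import Vale.Agent.P073.H926.Num3

/-!
# P073, block H805: **[MARKS]** for `K3C`
-/

open Set Metric Topology Filter

namespace Vale.Agent.P073.H926

open _root_.P073 _root_.P073.Net _root_.P073.PA691 _root_.P073.TM
open Vale.Agent.P073.St (V)
open Vale.Agent.P073.H471 Vale.Agent.P073.H267
open Vale.Agent.P073.H73 (Mesh)
open Vale.Agent.P073.H669 (Rel)
open Vale.Agent.P073.H687 (Marks)

/-- two powers of one half are equal, or differ at least by the smaller one -/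
theorem pow_sep (a b : ℕ) : (1:ℝ) / 2 ^ a = 1 / 2 ^ b ∨
    min ((1:ℝ) / 2 ^ a) (1 / 2 ^ b) ≤ |(1:ℝ) / 2 ^ a - 1 / 2 ^ b| := by
  have key : ∀ a b : ℕ, a < b → (1:ℝ) / 2 ^ b ≤ 1 / 2 ^ a - 1 / 2 ^ b := by
    intro a b h
    obtain ⟨n, rfl⟩ := Nat.exists_eq_add_of_lt h
    have h1 : (0:ℝ) < 1 / 2 ^ a := by positivity
    have h2 : (1:ℝ) ≤ 2 ^ n := one_le_pow₀ (by norm_num)
    have h3 : (1:ℝ) / 2 ^ (a + n + 1) * (2 * 2 ^ n) = 1 / 2 ^ a := by
      rw [pow_add, pow_add]; field_simp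
    have h4 : (0:ℝ) < 1 / 2 ^ (a + n + 1) := by positivity
    nlinarith
  rcases lt_trichotomy a b with h | h | h
  · right
    have h1 := key a b h
    exact (min_le_right _ _).trans (h1.trans (le_abs_self _))
  · left; rw [h]
  · right
    have h1 := key b a h
    rw [abs_sub_comm]
    exact (min_le_left _ _).trans (h1.trans (le_abs_self _))

variable {c₀ n δ : ℝ} {j : ℕ} {Ω Λ : Set V} {v w : V} {ρ : V → ℝ} {M : Mesh Ω} {h : ConHomeo Ω Λ}
  {J₀ J : Set (ℕ × (Fin 3 → ℤ))} {P Z : Set M.ι} {K : BoxCx Λ w}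

namespace KIn3

variable (D : KIn3 c₀ n j δ v w ρ M h J₀ J P Z) (C : Cells ρ w K)

include D

/-- the ends of the boxes: equal or far from each other -/
theorem be_sep {R : ℝ} {i i' : K.W} (h1 : R ≤ (D.G C).be i) (h2 : R ≤ (D.G C).be i') :
    (D.G C).be i = (D.G C).be i' ∨ R ≤ |(D.G C).be i - (D.G C).be i'| := by
  have hc := c3_pos D.pos
  have e : ∀ i, (D.G C).be i = c3 n / 2048 * C.sW i := fun _ => rfl
  have hi : C.sW i = 1 / 2 ^ (C.fW i).m := rfl
  have hi' : C.sW i' = 1 / 2 ^ (C.fW i').m := rfl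
  rw [e, e] at *
  rcases pow_sep (C.fW i).m (C.fW i').m with h3 | h3
  · left
    rw [hi, hi', h3]
  · right
    rw [← mul_sub, abs_mul, abs_of_pos (by positivity : 0 < c3 n / 2048)]
    rw [← hi, ← hi'] at h3
    have h4 : c3 n / 2048 * min (C.sW i) (C.sW i') ≤ c3 n / 2048 * |C.sW i - C.sW i'| :=
      mul_le_mul_of_nonneg_left h3 (by positivity)
    rw [mul_min_of_nonneg _ _ (by positivity : 0 ≤ c3 n / 2048)] at h4
    exact (le_min h1 h2).trans h4

/-- **[MARKS]** for `K3C` -/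
theorem exists_marks {J' R : K.S → ℝ} (hJ0 : ∀ s, 0 ≤ J' s) (hJR : ∀ s, J' s ≤ R s)
    (hw : ∀ s i, K.w i ∈ K.sq s → 2 * R s ≤ (D.G C).be i) :
    ∃ Q, Marks (D.G C) J' R Q :=
  H805.exists_marks D.hρ C (D.G C) hJ0 hJR hw fun s i i' hi hi' =>
    D.be_sep C (hw s i hi) (hw s i' hi')

/-- the oscillation at a box which is related to the square -/
theorem ω3T_le_S {s : K.S} {l : Fin 3} {b : TBx K} (hb : Rel s l b) :
    ω3T δ C b ≤ ω3S δ C s ∧ ω3S δ C s ≤ 4 * ω3T δ C b := by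
  have hδ := D.δpos
  rcases b with e | H
  · have h1 := C.sG_sS D.hρ hb.1
    constructor
    · show 4 * δ * C.sG e ≤ 4 * δ * C.sS s
      nlinarith [h1.1]
    · show 4 * δ * C.sS s ≤ 4 * (4 * δ * C.sG e)
      nlinarith [h1.2]
  · have h0 : K.w H.i ∈ K.sq s := by rw [← hb.1]; exact H805.hang_mem' H
    have h1 := C.sW_sS D.hρ h0
    constructor
    · show 4 * δ * C.sW H.i ≤ 4 * δ * C.sS s
      nlinarith [h1.1]
    · show 4 * δ * C.sS s ≤ 4 * (4 * δ * C.sW H.i)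
      nlinarith [h1.2]

theorem ω3S_be {s : K.S} {i : K.W} (hi : K.w i ∈ K.sq s) :
    1000000000000 * ω3S δ C s ≤ (D.G C).be i := by
  have h1 := D.ω3S_oS C s
  have h2 := (D.G C).oS_τ s
  have h3 := (D.G C).τ_p s
  have h4 := (D.G C).p_be s i hi
  have h5 := D.ω3S_pos C s
  linarith

theorem ω3S_om {s : K.S} {q : K.T} (hq : q = K.sm s ∨ q = K.sp s) :
    4194304 * ω3S δ C s ≤ (D.G C).om q := by
  have h1 := (C.sS_sT D.hρ (sq_sub_of hq)).1
  have h2 := D.δ_le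
  have h3 := δ3_eq (n := n)
  have h4 := C.sS_pos s
  have h5 := C.sT_pos q
  have h6 := D.δpos
  show 4194304 * (4 * δ * C.sS s) ≤ o3 n * C.sT q
  calc 4194304 * (4 * δ * C.sS s) = (16777216 * δ) * C.sS s := by ring
    _ ≤ (16777216 * δ) * C.sT q := mul_le_mul_of_nonneg_left h1 (by positivity)
    _ ≤ o3 n * C.sT q := mul_le_mul_of_nonneg_right (by linarith) h5.le

/-- **[MARKS]** for multiples of the oscillation -/
theorem exists_marksN {N' N : ℝ} (h0 : 0 ≤ N') (h1 : N' ≤ N) (h2 : N ≤ 500000000000) :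
    ∃ Q, Marks (D.G C) (fun s => N' * ω3S δ C s) (fun s => N * ω3S δ C s) Q := by
  have hpos := fun s => D.ω3S_pos C s
  refine D.exists_marks C (fun s => mul_nonneg h0 (hpos s).le)
    (fun s => mul_le_mul_of_nonneg_right h1 (hpos s).le) fun s i hi => ?_
  have h3 := D.ω3S_be C hi
  have h4 := mul_le_mul_of_nonneg_right h2 (hpos s).le
  linarith

end KIn3

end Vale.Agent.P073.H926
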