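import Vale.Agent.P073.H805.NearS
import Vale.Agent.P073.H919.HookG
import Vale.Agent.P073.H919.HookP
import Vale.Agent.P073.H341.PIn3D

/-!
# P073, block H805: `Near` at the side walls of a plate

`HkG`: the hook of ROUND P on the boxes `HB G c d s`.  `T = {y u ≤ slo u + p}`: outside of the box
of the exchange, so that the drawn cells which meet `T` are controlled by the margin clause `lev`
of the exchange.
-/

open Set Metric Topology Filter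

set_option linter.unusedSectionVars false

namespace P073.H919

open P073 P073.H936 P073.H936.K3 P073.H142 P073.H880 P073.H345 P073.H236 P073.H579
open Vale.Agent.P073.St (V)
open Vale.Agent.P073.AB (Idx)
open Vale.Agent.P073.H73 (Mesh)
open Vale.Agent.P073.H193 (Edges)
open Vale.Agent.P073.H471 Vale.Agent.P073.H267
open P073.Net P073.PA691

/-- below the flat: below the band -/
theorem σ_lt_band {γ : Type*} {Λ : Set V} (F : BFam 3 γ Λ) {b : γ} {k : ℕ} (hk : k < (F.B b).N)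
    {t : ℝ} (h : t < (F.B b).a k - (F.B b).c) :
    F.σ b t < bc (F.B b).N (F.B b).al (F.B b).be k -
      bw (F.B b).N (F.B b).al (F.B b).be (F.e b) := by
  have hc := (F.B b).lvs.c0
  have h3 := F.σ_strictMono b h
  have h4 := abs_σ_sub_le_iff F (b := b) hk (t := (F.B b).a k - (F.B b).c)
  have h4' := abs_σ_sub_le_iff F (b := b) hk (t := t)
  have n4' := mt h4'.1 (by rw [abs_le]; rintro ⟨h6, -⟩; linarith)
  have a4 := (abs_le.1 (h4.2 (by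
    rw [show (F.B b).a k - (F.B b).c - (F.B b).a k = -(F.B b).c by ring, abs_neg,
      abs_of_pos hc]))).2
  by_contra hcon
  push Not at hcon
  exact n4' (abs_le.2 ⟨by linarith, by linarith⟩)

/-- above the flat: above the band -/
theorem σ_gt_band {γ : Type*} {Λ : Set V} (F : BFam 3 γ Λ) {b : γ} {k : ℕ} (hk : k < (F.B b).N)
    {t : ℝ} (h : (F.B b).a k + (F.B b).c < t) :
    bc (F.B b).N (F.B b).al (F.B b).be k +
      bw (F.B b).N (F.B b).al (F.B b).be (F.e b) < F.σ b t := by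
  have hc := (F.B b).lvs.c0
  have h3 := F.σ_strictMono b h
  have h4 := abs_σ_sub_le_iff F (b := b) hk (t := (F.B b).a k + (F.B b).c)
  have h4' := abs_σ_sub_le_iff F (b := b) hk (t := t)
  have n4' := mt h4'.1 (by rw [abs_le]; rintro ⟨-, h6⟩; linarith)
  have a4 := (abs_le.1 (h4.2 (by
    rw [show (F.B b).a k + (F.B b).c - (F.B b).a k = (F.B b).c by ring,
      abs_of_pos hc]))).1
  by_contra hcon
  push Not at hcon
  exact n4' (abs_le.2 ⟨by linarith, by linarith⟩)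

section

variable {Ω Λ : Set V} {v : V} {K : BoxCx Λ v} {S : Rad K} {W : Wid K S} {B : Boxes W}
  {G : Geo B} {L : PLev G} {γ : Type*} {φ : γ → K.S} {F : Bool → BFam 3 γ Λ}
  {T : Bool → ConHomeo Λ Λ} {κ₀ κ₁ : V → V}

/-- **position of a point of a mesh set**, before the insertion -/
theorem PSt.exists_pre (P : PSt L φ F T) (h₀ : IsQ (fun b => L.bx false (φ b)) κ₀)
    (h₁ : IsQ (fun b => L.bx true (φ b)) κ₁) {b : γ} {h2 h3 h4 : ConHomeo Ω Λ}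
    (hf : ∀ x ∈ Ω, h4.toFun x = (T true).toFun ((T false).toFun (h3.toFun x))) {A : Set V}
    (hA : A ⊆ Ω) (hg : h3.toFun '' A = Pre (κ₁ ∘ κ₀) Λ h2 A) {c d : ℝ} (hc : 7 / 8 ≤ c)
    (hc2 : c ≤ 2) (hd : d ≤ 1) {x : V} (hx : x ∈ A) (hb : h4.toFun x ∈ HB G c d (φ b)) :
    ∃ x' ∈ A, h2.toFun x' ∈ HB G c d (φ b) ∧
      h2.toFun x' (K.nrm (φ b)) = h4.toFun x (K.nrm (φ b)) ∧
      ∀ β, h2.toFun x' (tg (φ b) β) =
          qm (L.lvs (φ b) β).L (L.c (φ b) β) (h3.toFun x (tg (φ b) β)) ∧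
        h4.toFun x (tg (φ b) β) = (F β).σ b (h3.toFun x (tg (φ b) β)) := by
  have HP := P.prodOn b hc hc2 hd
  have hx3 := h3.mapsTo (hA hx)
  have h5 : h3.toFun x ∈ HB G c d (φ b) := (HP.mem _ hx3).1 (by rw [← hf x (hA hx)]; exact hb)
  have H₀ := fullSet_φ (G := G) (L := L) P.inj (β := false) b (c := c) (d := d) hc hc2 hd
  have H₁ := fullSet_φ (G := G) (L := L) P.inj (β := true) b (c := c) (d := d) hc hc2 hd
  have h6 : κ₁ (κ₀ (h3.toFun x)) = prodK (L.kP (φ b)) (h3.toFun x) := by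
    rw [H₁.eq h₁ ((H₀.mem_iff h₀).2 h5), H₀.eq h₀ h5]
    exact L.prodK_P (φ b) false _
  have h7 : h3.toFun x ∈ Pre (κ₁ ∘ κ₀) Λ h2 A := by rw [← hg]; exact mem_image_of_mem _ hx
  obtain ⟨x', hx', he⟩ := h7.2
  have he' : h2.toFun x' = prodK (L.kP (φ b)) (h3.toFun x) := by
    rw [he]; exact h6
  refine ⟨x', hx', ?_, ?_, fun β => ⟨?_, ?_⟩⟩
  · rw [he]
    exact (κ_mem_iff P.inj h₀ h₁ hc hc2 hd).2 h5
  · rw [he', hf x (hA hx), HP.apply h5, P.sgP_nrm]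
    show L.kP (φ b) (K.nrm (φ b)) _ = _
    rw [PLev.kP_nrm]; rfl
  · rw [he']
    show L.kP (φ b) (tg (φ b) β) _ = _
    rw [PLev.kP_tg]
    show kQ (L.bx β (φ b)) (L.bx β (φ b)).j _ = _
    rw [kQ_self]
    rfl
  · rw [hf x (hA hx), HP.apply h5, P.sgP_tg]

variable (P : PSt L φ F T) {b : γ} {β : Bool} {t : ℝ}

include P

theorem PSt.al_eq : ((F β).B b).al = K.slo (φ b) (tg (φ b) β) + G.a (φ b) := (P.B β b).al

theorem PSt.be_eq : ((F β).B b).be = K.shi (φ b) (tg (φ b) β) - G.a (φ b) := (P.B β b).be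

/-- below the window nothing moves -/
theorem PSt.low (h : (F β).σ b t ≤ K.slo (φ b) (tg (φ b) β) + G.a (φ b)) :
    (F β).σ b t = t ∧ qm (L.lvs (φ b) β).L (L.c (φ b) β) t = t := by
  have h1 : t ≤ K.slo (φ b) (tg (φ b) β) + G.a (φ b) := by
    by_contra hcon
    push Not at hcon
    have h2 := (F β).σ_strictMono b hcon
    rw [(F β).σ_out (Or.inl (by rw [P.al_eq]))] at h2
    linarith
  exact ⟨(F β).σ_out (Or.inl (by rw [P.al_eq]; exact h1)), L.qm_id _ _ (Or.inl h1)⟩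

theorem PSt.high (h : K.shi (φ b) (tg (φ b) β) - G.a (φ b) ≤ (F β).σ b t) :
    (F β).σ b t = t ∧ qm (L.lvs (φ b) β).L (L.c (φ b) β) t = t := by
  have h1 : K.shi (φ b) (tg (φ b) β) - G.a (φ b) ≤ t := by
    by_contra hcon
    push Not at hcon
    have h2 := (F β).σ_strictMono b hcon
    have h3 : (F β).σ b (K.shi (φ b) (tg (φ b) β) - G.a (φ b)) =
        K.shi (φ b) (tg (φ b) β) - G.a (φ b) := (F β).σ_out (Or.inr (by rw [P.be_eq]))
    linarith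
  exact ⟨(F β).σ_out (Or.inr (by rw [P.be_eq]; exact h1)), L.qm_id _ _ (Or.inr h1)⟩

/-- below a level before the insertion: below the band afterwards -/
theorem PSt.lt_band {k : ℕ} (hk : k < L.N (φ b) β)
    (h : qm (L.lvs (φ b) β).L (L.c (φ b) β) t < L.a (φ b) β k) :
    (F β).σ b t < bc (L.N (φ b) β) (K.slo (φ b) (tg (φ b) β) + G.a (φ b))
      (K.shi (φ b) (tg (φ b) β) - G.a (φ b)) k -
      bw (L.N (φ b) β) (K.slo (φ b) (tg (φ b) β) + G.a (φ b))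
        (K.shi (φ b) (tg (φ b) β) - G.a (φ b)) ((F β).e b) := by
  have hl := L.lvs (φ b) β
  have hB := P.B β b
  have hmem : L.a (φ b) β k ∈ hl.L := hl.mem_L.2 ⟨k, hk, rfl⟩
  have h1 : t < L.a (φ b) β k - L.c (φ b) β := by
    by_contra hcon
    push Not at hcon
    have h2 := qm_monotone hl.c0.le hl.sepd hcon
    rw [qm_flat hl.c0.le hl.sepd hmem (by rw [abs_le]; constructor <;> linarith [hl.c0])] at h2
    linarith
  have h2 := σ_lt_band (F β) (b := b) (k := k) (t := t) (by rw [hB.N]; exact hk)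
    (by rw [hB.a, hB.c]; exact h1)
  rw [hB.N, hB.al, hB.be] at h2
  exact h2

/-- above a level before the insertion: above the band afterwards -/
theorem PSt.gt_band {k : ℕ} (hk : k < L.N (φ b) β)
    (h : L.a (φ b) β k < qm (L.lvs (φ b) β).L (L.c (φ b) β) t) :
    bc (L.N (φ b) β) (K.slo (φ b) (tg (φ b) β) + G.a (φ b))
      (K.shi (φ b) (tg (φ b) β) - G.a (φ b)) k +
      bw (L.N (φ b) β) (K.slo (φ b) (tg (φ b) β) + G.a (φ b))
        (K.shi (φ b) (tg (φ b) β) - G.a (φ b)) ((F β).e b) < (F β).σ b t := by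
  have hl := L.lvs (φ b) β
  have hB := P.B β b
  have hmem : L.a (φ b) β k ∈ hl.L := hl.mem_L.2 ⟨k, hk, rfl⟩
  have h1 : L.a (φ b) β k + L.c (φ b) β < t := by
    by_contra hcon
    push Not at hcon
    have h2 := qm_monotone hl.c0.le hl.sepd hcon
    have h3 := qm_flat hl.c0.le hl.sepd hmem (t := L.a (φ b) β k + L.c (φ b) β)
      (by rw [abs_le]; constructor <;> linarith [hl.c0])
    rw [h3] at h2
    linarith
  have h2 := σ_gt_band (F β) (b := b) (k := k) (t := t) (by rw [hB.N]; exact hk)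
    (by rw [hB.a, hB.c]; exact h1)
  rw [hB.N, hB.al, hB.be] at h2
  exact h2

end

/-! ### the drawn cells near the side walls -/

section near

open Vale.Agent.P073.H341 (ROutZ HtOk Mg mem_int_pe)
open _root_.P073.H880.RP (Dat ROut3)

variable {Ω Λ : Set V} {v : V} {K : BoxCx Λ v} {S : Rad K} {W : Wid K S} {B : Boxes W}
  {G : Geo B} {M : Mesh Ω} {E : Edges M} {D : Dat K M} {L : PLev G}
  {F : Bool → BFam 3 D.S₀ Λ} {T : Bool → ConHomeo Λ Λ} {κ₀ κ₁ : V → V} {c d : ℝ}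
  {Zb : D.S₀ → Set M.ι} {h1 h2 h3 h4 : ConHomeo Ω Λ} {u : V} {ι : Type} {Fm : ι → Set V}

/-- the points which are not in the plates of the other squares -/
theorem notMem_pe (R : ROut3 G E D h1 h2 L.lv Fm) (hht : HtOk G D) {s : D.S₀} (hc : 7 / 8 ≤ c)
    (hd : d ≤ 1) {x : V} (hx : x ∈ Ω) (hb : h2.toFun x ∈ HB G c d s.1) :
    ∀ s' ∈ D.S₀, s' ≠ s.1 → h1.toFun x ∉ interior (D.PE G s') := by
  intro s' hs' hne hi
  have h3 := hht.pe_PB hs' ((R.box s' hs' x hx).2 (interior_subset hi))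
  exact Set.disjoint_left.1 (Geo.disjoint_PB (G := G) (c := 7 / 8) (by norm_num) hne)
    (PB_mono (by norm_num) s' h3) (HB_PB hc hd s.1 hb)

/-- off the box of the exchange nothing changes -/
theorem h2_eq (R : ROut3 G E D h1 h2 L.lv Fm) (Z : ROutZ G E D h1 h2 L.lv Fm) (hht : HtOk G D)
    {s : D.S₀} (hc : 7 / 8 ≤ c) (hd : d ≤ 1) {x : V} (hx : x ∈ Ω)
    (hb : h2.toFun x ∈ HB G c d s.1) {β : Bool}
    (hl : h2.toFun x (tg s.1 β) ≤ K.slo s.1 (tg s.1 β) + G.p s.1 ∨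
      K.shi s.1 (tg s.1 β) - G.p s.1 ≤ h2.toFun x (tg s.1 β)) : h2.toFun x = h1.toFun x := by
  refine R.off x hx fun s' hs' hi => ?_
  by_cases hne : s' = s.1
  · subst hne
    have h3 := (mem_int_pe.1 ((Z.intbox s.1 hs' x hx).2 hi)).1 (tg s.1 β) (tg_ne s.1 β)
    rcases hl with h4 | h4
    · linarith [h3.1]
    · linarith [h3.2]
  · exact notMem_pe R hht hc hd hx hb s' hs' hne hi

/-- **a drawn cell which meets the collar is below all levels** -/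
theorem cell_low (R : ROut3 G E D h1 h2 L.lv Fm) (Z : ROutZ G E D h1 h2 L.lv Fm)
    (hht : HtOk G D) {s : D.S₀} (hc : 7 / 8 ≤ c) (hd : d ≤ 1) {i : M.ι}
    (hi : ∀ y ∈ M.Q i, h2.toFun y ∈ HB G c d s.1)
    (hosc : ∀ x ∈ M.Q i, ∀ y ∈ M.Q i, ∀ l, |h1.toFun x l - h1.toFun y l| ≤ G.p s.1 / 4)
    {β : Bool} {x : V} (hx : x ∈ M.Q i)
    (hl : h2.toFun x (tg s.1 β) ≤ K.slo s.1 (tg s.1 β) + G.p s.1) {y : V} (hy : y ∈ M.Q i)
    {k : ℕ} (hk : k < L.N s.1 β) : h2.toFun y (tg s.1 β) < L.a s.1 β k := by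
  have hp := Geo.p_pos (G := G) s.1
  have hpa := Geo.p_a (G := G) s.1
  have h3 := h2_eq R Z hht hc hd (M.sub i hx) (hi x hx) (Or.inl hl)
  have h4 := (abs_le.1 (hosc y hy x hx (tg s.1 β))).2
  rw [← h3] at h4
  have h5 : h1.toFun y (tg s.1 β) ≤ K.slo s.1 (tg s.1 β) + 5 / 4 * G.p s.1 := by linarith
  have h6 := (Z.lev s.1 s.2 y (M.sub i hy)
    (fun _ => Or.inr ⟨tg s.1 β, tg_ne s.1 β, Or.inl h5⟩)
    (notMem_pe R hht hc hd (M.sub i hy) (hi y hy)) (tg s.1 β) (L.a s.1 β k) (by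
      rw [PLev.lvs_lv, PLev.lv_tg]; exact (L.lvs s.1 β).mem_L.2 ⟨k, hk, rfl⟩)).2.1
  have h7 := L.win s.1 β hk
  have h8 := (L.lvs s.1 β).c0
  exact h6.2 (by linarith [h7.1])

/-- the upper side -/
theorem cell_high (R : ROut3 G E D h1 h2 L.lv Fm) (Z : ROutZ G E D h1 h2 L.lv Fm)
    (hht : HtOk G D) {s : D.S₀} (hc : 7 / 8 ≤ c) (hd : d ≤ 1) {i : M.ι}
    (hi : ∀ y ∈ M.Q i, h2.toFun y ∈ HB G c d s.1)
    (hosc : ∀ x ∈ M.Q i, ∀ y ∈ M.Q i, ∀ l, |h1.toFun x l - h1.toFun y l| ≤ G.p s.1 / 4)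
    {β : Bool} {x : V} (hx : x ∈ M.Q i)
    (hl : K.shi s.1 (tg s.1 β) - G.p s.1 ≤ h2.toFun x (tg s.1 β)) {y : V} (hy : y ∈ M.Q i)
    {k : ℕ} (hk : k < L.N s.1 β) : L.a s.1 β k < h2.toFun y (tg s.1 β) := by
  have hp := Geo.p_pos (G := G) s.1
  have hpa := Geo.p_a (G := G) s.1
  have h3 := h2_eq R Z hht hc hd (M.sub i hx) (hi x hx) (Or.inr hl)
  have h4 := (abs_le.1 (hosc y hy x hx (tg s.1 β))).1
  rw [← h3] at h4
  have h5 : K.shi s.1 (tg s.1 β) - 5 / 4 * G.p s.1 ≤ h1.toFun y (tg s.1 β) := by linarith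
  have h6 := (Z.lev s.1 s.2 y (M.sub i hy)
    (fun _ => Or.inr ⟨tg s.1 β, tg_ne s.1 β, Or.inr h5⟩)
    (notMem_pe R hht hc hd (M.sub i hy) (hi y hy)) (tg s.1 β) (L.a s.1 β k) (by
      rw [PLev.lvs_lv, PLev.lv_tg]; exact (L.lvs s.1 β).mem_L.2 ⟨k, hk, rfl⟩)).2.2
  have h7 := L.win s.1 β hk
  have h8 := (L.lvs s.1 β).c0
  exact h6.2 (by linarith [h7.2])

variable (H : HkG M L (Subtype.val : D.S₀ → K.S) F T κ₀ κ₁ c d Zb h2 h3 h4 u)

include H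

/-- the images of the drawn cells before the insertion -/
theorem HkG.h2_mem {s : D.S₀} {i : M.ι} (hi : i ∈ Zb s)
    (hcell : h3.toFun '' M.Q i = Pre (κ₁ ∘ κ₀) Λ h2 (M.Q i)) :
    ∀ y ∈ M.Q i, h2.toFun y ∈ HB G c d s.1 := by
  have HP := H.P.prodOn s H.hc H.hc2 H.hd
  have h5 : h3.toFun '' M.Q i ⊆ HB G c d s.1 := by
    rintro _ ⟨x, hx, rfl⟩
    refine (HP.mem _ (h3.mapsTo (M.sub i hx))).1 ?_
    rw [← H.map x (M.sub i hx)]
    exact interior_subset (H.int s i hi ⟨x, hx, rfl⟩)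
  have h6 := image_sub_of_pre (b := s) H.P.inj H.q₀ H.q₁ H.surj (M.sub i) hcell H.hc H.hc2 H.hd h5
  exact fun y hy => h6 ⟨y, hy, rfl⟩

/-- **a drawn cell which meets the collar is below all bands** -/
theorem HkG.band_low (R : ROut3 G E D h1 h2 L.lv Fm) (Z : ROutZ G E D h1 h2 L.lv Fm)
    (hht : HtOk G D) {s : D.S₀} {i : M.ι} (hi : i ∈ Zb s)
    (hcell : h3.toFun '' M.Q i = Pre (κ₁ ∘ κ₀) Λ h2 (M.Q i))
    (hosc : ∀ x ∈ M.Q i, ∀ y ∈ M.Q i, ∀ l, |h1.toFun x l - h1.toFun y l| ≤ G.p s.1 / 4)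
    {β : Bool} {x : V} (hx : x ∈ M.Q i)
    (hl : h4.toFun x (tg s.1 β) ≤ K.slo s.1 (tg s.1 β) + G.p s.1) {y : V} (hy : y ∈ M.Q i)
    (k : Fin (L.N s.1 β)) : h4.toFun y (tg s.1 β) <
      pcen L s.1 ⟨β, k⟩ - pwid L (fun β => (F β).e s) s.1 ⟨β, k⟩ := by
  have hp := Geo.p_pos (G := G) s.1
  have hpa := Geo.p_a (G := G) s.1
  have h2m := H.h2_mem hi hcell
  have hb : ∀ z ∈ M.Q i, h4.toFun z ∈ HB G c d s.1 := fun z hz =>
    interior_subset (H.int s i hi ⟨z, hz, rfl⟩)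
  obtain ⟨x', hx', -, -, h5⟩ := H.P.exists_pre H.q₀ H.q₁ H.map (M.sub i) hcell H.hc H.hc2 H.hd
    hx (hb x hx)
  obtain ⟨h6, h7⟩ := h5 β
  have h8 := H.P.low (b := s) (β := β) (t := h3.toFun x (tg s.1 β)) (by rw [← h7]; linarith)
  have h9 : h2.toFun x' (tg s.1 β) ≤ K.slo s.1 (tg s.1 β) + G.p s.1 := by
    rw [h6, h8.2, ← h8.1, ← h7]; exact hl
  obtain ⟨y', hy', -, -, g5⟩ := H.P.exists_pre H.q₀ H.q₁ H.map (M.sub i) hcell H.hc H.hc2 H.hd
    hy (hb y hy)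
  obtain ⟨g6, g7⟩ := g5 β
  have g8 := cell_low R Z hht H.hc H.hd h2m hosc hx' h9 hy' k.2
  rw [g6] at g8
  rw [g7]
  exact H.P.lt_band (b := s) k.2 g8

/-- the upper side -/
theorem HkG.band_high (R : ROut3 G E D h1 h2 L.lv Fm) (Z : ROutZ G E D h1 h2 L.lv Fm)
    (hht : HtOk G D) {s : D.S₀} {i : M.ι} (hi : i ∈ Zb s)
    (hcell : h3.toFun '' M.Q i = Pre (κ₁ ∘ κ₀) Λ h2 (M.Q i))
    (hosc : ∀ x ∈ M.Q i, ∀ y ∈ M.Q i, ∀ l, |h1.toFun x l - h1.toFun y l| ≤ G.p s.1 / 4)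
    {β : Bool} {x : V} (hx : x ∈ M.Q i)
    (hl : K.shi s.1 (tg s.1 β) - G.p s.1 ≤ h4.toFun x (tg s.1 β)) {y : V} (hy : y ∈ M.Q i)
    (k : Fin (L.N s.1 β)) : pcen L s.1 ⟨β, k⟩ + pwid L (fun β => (F β).e s) s.1 ⟨β, k⟩ <
      h4.toFun y (tg s.1 β) := by
  have hp := Geo.p_pos (G := G) s.1
  have hpa := Geo.p_a (G := G) s.1
  have h2m := H.h2_mem hi hcell
  have hb : ∀ z ∈ M.Q i, h4.toFun z ∈ HB G c d s.1 := fun z hz =>
    interior_subset (H.int s i hi ⟨z, hz, rfl⟩)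
  obtain ⟨x', hx', -, -, h5⟩ := H.P.exists_pre H.q₀ H.q₁ H.map (M.sub i) hcell H.hc H.hc2 H.hd
    hx (hb x hx)
  obtain ⟨h6, h7⟩ := h5 β
  have h8 := H.P.high (b := s) (β := β) (t := h3.toFun x (tg s.1 β)) (by rw [← h7]; linarith)
  have h9 : K.shi s.1 (tg s.1 β) - G.p s.1 ≤ h2.toFun x' (tg s.1 β) := by
    rw [h6, h8.2, ← h8.1, ← h7]; exact hl
  obtain ⟨y', hy', -, -, g5⟩ := H.P.exists_pre H.q₀ H.q₁ H.map (M.sub i) hcell H.hc H.hc2 H.hd
    hy (hb y hy)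
  obtain ⟨g6, g7⟩ := g5 β
  have g8 := cell_high R Z hht H.hc H.hd h2m hosc hx' h9 hy' k.2
  rw [g6] at g8
  rw [g7]
  exact H.P.gt_band (b := s) k.2 g8

omit H in
/-- the bands are in the window -/
theorem band_win (L : PLev G) {e : Bool → ℝ} (s : K.S) (he : ∀ β, 0 < e β)
    (heo : ∀ β, 2 * e β < stp (L.N s β) (K.slo s (tg s β) + G.a s) (K.shi s (tg s β) - G.a s))
    (i : PI L s) : K.slo s (tg s i.1) + 2 * G.p s < pcen L s i - pwid L e s i ∧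
      pcen L s i + pwid L e s i < K.shi s (tg s i.1) - 2 * G.p s := by
  have h := (bands_plate L s he heo (c := 2) (d := 1) le_rfl one_pos).ok i
  have h1 := h.lo
  have h2 := h.hi
  unfold P073.H919.hlo at h1
  unfold P073.H919.hhi at h2
  rw [if_neg (tg_ne s i.1)] at h1 h2
  exact ⟨h1, h2⟩

/-- **`Near` at the lower wall of a plate**, transversal direction `tg s (!X)` -/
theorem HkG.near_lo (hΩ : IsOpen Ω) (R : ROut3 G E D h1 h2 L.lv Fm)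
    (Z : ROutZ G E D h1 h2 L.lv Fm) (hht : HtOk G D) (s : D.S₀) (X : Bool)
    (hcell : ∀ i ∈ Zb s, h3.toFun '' M.Q i = Pre (κ₁ ∘ κ₀) Λ h2 (M.Q i))
    (hosc : ∀ i ∈ Zb s, ∀ x ∈ M.Q i, ∀ y ∈ M.Q i, ∀ l,
      |h1.toFun x l - h1.toFun y l| ≤ G.p s.1 / 4) {t₂ : ℝ}
    (hl : K.slo s.1 (tg s.1 (!X)) + c * G.p s.1 ≤ t₂)
    (ht : t₂ ≤ K.slo s.1 (tg s.1 (!X)) + G.p s.1) :
    ((H.hookIn s).boxK hΩ).Near X
      {y | y ∈ HB G c d s.1 ∧ y (tg s.1 (!X)) ≤ t₂} := by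
  have hp := Geo.p_pos (G := G) s.1
  have hw := band_win L s.1 (e := fun β => (F β).e s) (fun β => (F β).he s) (fun β => by
      have h1 := (F β).heo s
      rw [(H.P.B β s).N, (H.P.B β s).al, (H.P.B β s).be] at h1
      exact h1)
  have key : ∀ j : PI L s.1, j.1 ≠ X → j.1 = !X := fun j hj => by
    cases X <;> cases h : j.1 <;> simp_all
  refine BoxK.near_slab (D := (H.hookIn s).boxK hΩ) (X := X) (A := Iic t₂)
    ordConnected_Iic (Or.inl ?_) ?_ ?_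
  · show hlo G c d s.1 (tg s.1 (!X)) ≤ t₂
    unfold P073.H919.hlo
    rw [if_neg (tg_ne s.1 (!X))]
    exact hl
  · rintro ⟨β, k⟩ hj t ht'
    have hβ : β = !X := key ⟨β, k⟩ hj
    subst hβ
    have h1 := (hw ⟨!X, k⟩).1
    have h2 := neg_le_abs (t - pcen L s.1 ⟨!X, k⟩)
    have h3 : t ≤ t₂ := ht'
    show pwid L (fun β => (F β).e s) s.1 ⟨!X, k⟩ < |t - pcen L s.1 ⟨!X, k⟩|
    change K.slo s.1 (tg s.1 (!X)) + 2 * G.p s.1 < _ at h1
    linarith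
  · intro q hq
    rintro ⟨β, k⟩ hj y hy
    have hβ : β = !X := key ⟨β, k⟩ hj
    subst hβ
    obtain ⟨x, hx, hxt⟩ := hq
    rw [show ((H.hookIn s).boxK hΩ).K.C q = M.Q q.1 from H.hookIn_C s q] at hx hy
    have h1 := H.band_low R Z hht (s := s) (i := q.1) q.2 (hcell q.1 q.2) (hosc q.1 q.2)
      (β := !X) hx (le_trans hxt ht) hy k
    have h2 := neg_le_abs (h4.toFun y (tg s.1 (!X)) - pcen L s.1 ⟨!X, k⟩)
    show pwid L (fun β => (F β).e s) s.1 ⟨!X, k⟩ <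
      |h4.toFun y (tg s.1 (!X)) - pcen L s.1 ⟨!X, k⟩|
    linarith

/-- **`Near` at the upper wall of a plate**, transversal direction `tg s (!X)` -/
theorem HkG.near_hi (hΩ : IsOpen Ω) (R : ROut3 G E D h1 h2 L.lv Fm)
    (Z : ROutZ G E D h1 h2 L.lv Fm) (hht : HtOk G D) (s : D.S₀) (X : Bool)
    (hcell : ∀ i ∈ Zb s, h3.toFun '' M.Q i = Pre (κ₁ ∘ κ₀) Λ h2 (M.Q i))
    (hosc : ∀ i ∈ Zb s, ∀ x ∈ M.Q i, ∀ y ∈ M.Q i, ∀ l,
      |h1.toFun x l - h1.toFun y l| ≤ G.p s.1 / 4) {t₂ : ℝ}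
    (hl : t₂ ≤ K.shi s.1 (tg s.1 (!X)) - c * G.p s.1)
    (ht : K.shi s.1 (tg s.1 (!X)) - G.p s.1 ≤ t₂) :
    ((H.hookIn s).boxK hΩ).Near X
      {y | y ∈ HB G c d s.1 ∧ t₂ ≤ y (tg s.1 (!X))} := by
  have hp := Geo.p_pos (G := G) s.1
  have hw := band_win L s.1 (e := fun β => (F β).e s) (fun β => (F β).he s) (fun β => by
      have h1 := (F β).heo s
      rw [(H.P.B β s).N, (H.P.B β s).al, (H.P.B β s).be] at h1
      exact h1)
  have key : ∀ j : PI L s.1, j.1 ≠ X → j.1 = !X := fun j hj => by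
    cases X <;> cases h : j.1 <;> simp_all
  refine BoxK.near_slab (D := (H.hookIn s).boxK hΩ) (X := X) (A := Ici t₂)
    ordConnected_Ici (Or.inr ?_) ?_ ?_
  · show t₂ ≤ hhi G c d s.1 (tg s.1 (!X))
    unfold P073.H919.hhi
    rw [if_neg (tg_ne s.1 (!X))]
    exact hl
  · rintro ⟨β, k⟩ hj t ht'
    have hβ : β = !X := key ⟨β, k⟩ hj
    subst hβ
    have h1 := (hw ⟨!X, k⟩).2
    have h2 := le_abs_self (t - pcen L s.1 ⟨!X, k⟩)
    have h3 : t₂ ≤ t := ht'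
    show pwid L (fun β => (F β).e s) s.1 ⟨!X, k⟩ < |t - pcen L s.1 ⟨!X, k⟩|
    change _ < K.shi s.1 (tg s.1 (!X)) - 2 * G.p s.1 at h1
    linarith
  · intro q hq
    rintro ⟨β, k⟩ hj y hy
    have hβ : β = !X := key ⟨β, k⟩ hj
    subst hβ
    obtain ⟨x, hx, hxt⟩ := hq
    rw [show ((H.hookIn s).boxK hΩ).K.C q = M.Q q.1 from H.hookIn_C s q] at hx hy
    have h1 := H.band_high R Z hht (s := s) (i := q.1) q.2 (hcell q.1 q.2) (hosc q.1 q.2)
      (β := !X) hx (le_trans ht hxt) hy k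
    have h2 := le_abs_self (h4.toFun y (tg s.1 (!X)) - pcen L s.1 ⟨!X, k⟩)
    show pwid L (fun β => (F β).e s) s.1 ⟨!X, k⟩ <
      |h4.toFun y (tg s.1 (!X)) - pcen L s.1 ⟨!X, k⟩|
    linarith

end near

end P073.H919
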