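import Vale.Agent.P073.H926.CovB
import Vale.Agent.P073.RT.H741.Cells

/-!
# P073, block [K3C], the drawn cells of ROUND T before the hook of the plates

`near_edge`: a frontier point of a tile is in the middle part of a square or close to an edge of a
square.  `KIn3.edge_A1`: a drawn cell which is in no box of the hook of a plate is close to an edge of
a processed square.
-/

open Set Metric Topology Filter

namespace Vale.Agent.P073.H926

open _root_.P073 _root_.P073.Net _root_.P073.PA691 _root_.P073.TM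
open Vale.Agent.P073.St (V)
open Vale.Agent.P073.H471 Vale.Agent.P073.H267
open Vale.Agent.P073.H73 (Mesh)
open Vale.Agent.P073.H304 (Nb In Zmax)
open _root_.P073.H345 (PK PK_sub_ss τ_as_PK PB_sub_PK tg)
open _root_.P073.H919 (HB mem_HB HB_PB HB_interior)

section geo

variable {Λ : Set V} {v : V} {K : BoxCx Λ v} {S : Rad K} {W : Wid K S} {B : Boxes W}
  {G : Geo B} {x y z : V} {t : K.T}

/-- every frontier point of a tile is in a square of the tile -/
theorem exists_sq_of_frontier (hz : z ∈ frontier (K.cube t)) :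
    ∃ s, (t = K.sm s ∨ t = K.sp s) ∧ z ∈ K.sq s := by
  obtain ⟨s, hs, hzs⟩ := RT.H741.bdry_cover K t hz
  refine ⟨s, ?_, hzs⟩
  set c : V := fun k => (K.slo s k + K.shi s k) / 2 with hc
  have h1 : c (K.nrm s) = K.slo s (K.nrm s) := by
    simp only [hc]; rw [← K.s_flat s]; ring
  have h2 : ∀ k, k ≠ K.nrm s → K.slo s k < c k ∧ c k < K.shi s k := fun k hk => by
    have := K.s_lt s k hk
    simp only [hc]
    constructor <;> linarith
  have h3 : c ∈ K.sq s := sqo_subset_sq s ⟨h1, h2⟩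
  exact K.sqo_tile s t c h1 h2 (isClosed_Icc.frontier_subset (hs h3))

/-- a frontier point of a tile is in the middle part of a square, or close to an edge of it -/
theorem near_edge (hz : z ∈ frontier (K.cube t)) {m : K.S → ℝ} (hm : ∀ s, 0 ≤ m s) :
    (∃ s, (t = K.sm s ∨ t = K.sp s) ∧ z (K.nrm s) = K.slo s (K.nrm s) ∧
      ∀ k, k ≠ K.nrm s → K.slo s k + m s < z k ∧ z k < K.shi s k - m s) ∨
    ∃ s, (t = K.sm s ∨ t = K.sp s) ∧ ∃ e, K.edge e ⊆ K.sq s ∧ ∃ z' ∈ K.edge e,
      ∀ k, |z k - z' k| ≤ m s := by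
  obtain ⟨s, hs, hzs⟩ := exists_sq_of_frontier hz
  have h1 : z (K.nrm s) = K.slo s (K.nrm s) :=
    le_antisymm ((hzs.2 _).trans (K.s_flat s).ge) (hzs.1 _)
  by_cases hin : ∀ k, k ≠ K.nrm s → K.slo s k + m s < z k ∧ z k < K.shi s k - m s
  · exact Or.inl ⟨s, hs, h1, hin⟩
  push Not at hin
  obtain ⟨k, hk, hkk⟩ := hin
  obtain ⟨c, hc, hzc⟩ : ∃ c, (c = K.slo s k ∨ c = K.shi s k) ∧ |z k - c| ≤ m s := by
    have h3 := hzs.1 k
    have h4 := hzs.2 k
    by_cases hlo : K.slo s k + m s < z k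
    · exact ⟨K.shi s k, Or.inr rfl, by
        have := hkk hlo
        rw [abs_le]; constructor <;> linarith [hm s]⟩
    · push Not at hlo
      exact ⟨K.slo s k, Or.inl rfl, by rw [abs_le]; constructor <;> linarith [hm s]⟩
  set z' : V := Function.update z k c with hz'
  have hcle : K.slo s k ≤ c ∧ c ≤ K.shi s k := by
    have := (K.s_lt s k hk).le
    rcases hc with rfl | rfl
    · exact ⟨le_rfl, this⟩
    · exact ⟨this, le_rfl⟩
  have hz's : z' ∈ K.sq s := by
    refine ⟨fun j => ?_, fun j => ?_⟩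
    · by_cases hj : j = k
      · subst hj; rw [hz', Function.update_self]; exact hcle.1
      · rw [hz', Function.update_of_ne hj]; exact hzs.1 j
    · by_cases hj : j = k
      · subst hj; rw [hz', Function.update_self]; exact hcle.2
      · rw [hz', Function.update_of_ne hj]; exact hzs.2 j
  obtain ⟨e, hes, hz'e⟩ := K.sq_bd s z' hz's ⟨k, hk, by
    rw [hz', Function.update_self]; exact hc⟩
  refine Or.inr ⟨s, hs, e, hes, z', hz'e, fun j => ?_⟩
  by_cases hj : j = k
  · subst hj; rw [hz', Function.update_self]; exact hzc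
  · rw [hz', Function.update_of_ne hj, sub_self, abs_zero]; exact hm s

/-- a cell close to the middle part of a square is in the box of the hook of the plate -/
theorem pos_Pm {s : K.S} (hts : t = K.sm s ∨ t = K.sp s) {c d : ℝ} (hd : 1 / 2 ≤ d)
    (hz : z (K.nrm s) = K.slo s (K.nrm s))
    (hz2 : ∀ k, k ≠ K.nrm s → K.slo s k + (c * G.p s + G.κ t) < z k ∧
      z k < K.shi s k - (c * G.p s + G.κ t)) (hy : ‖y - z‖ ≤ G.κ t / 8) :
    y ∈ interior (HB G c d s) := by
  have hp := Geo.p_pos (G := G) s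
  have hκ := G.κ_pos t
  have hτ := B.τ_pos s
  have hκτ := G.κ_τ t s hts
  refine HB_interior (c := c) (c' := c + G.κ t / 2 / G.p s) (d := d) (d' := 1 / 4) ?_
    (by linarith) s (mem_HB.2 ⟨fun k hk => ?_, ?_⟩)
  · have : 0 < G.κ t / 2 / G.p s := by positivity
    linarith
  · have h1 := abs_le.1 ((abs_sub_le_norm y z k).trans hy)
    have h2 := hz2 k hk
    have h3 : (c + G.κ t / 2 / G.p s) * G.p s = c * G.p s + G.κ t / 2 := by
      field_simp
    rw [h3]
    constructor <;> linarith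
  · have h1 := abs_le.1 ((abs_sub_le_norm y z (K.nrm s)).trans hy)
    rw [hz] at h1
    rw [abs_le]
    constructor <;> linarith

end geo

variable {c₀ n δ : ℝ} {j : ℕ} {Ω Λ : Set V} {v w : V} {ρ : V → ℝ} {M : Mesh Ω} {h : ConHomeo Ω Λ}
  {J₀ J : Set (ℕ × (Fin 3 → ℤ))} {P Z : Set M.ι} {K : BoxCx Λ w} {x y : V} {q t : K.T}

namespace KIn3

variable (D : KIn3 c₀ n j δ v w ρ M h J₀ J P Z) (C : Cells ρ w K)

/-- **(A1), edge form**: a drawn cell which is in no box of the hook of a plate is close to an edge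
of a processed square -/
theorem edge_A1 {g : V → V} {i : M.ι} (hi : i ∈ Zmax M w h.toFun J₀ P (2 / 2 ^ j))
    (hg : NearG (D.G C) M h.toFun g 100 i) {c d : ℝ} (hc0 : 0 ≤ c) (hc : c ≤ 1) (hd : 1 / 2 ≤ d)
    (hm : ∀ s ∈ pS C J₀, ¬ g '' M.Q i ⊆ interior (HB (D.G C) c d s)) :
    ∃ s ∈ pS C J₀, ∃ e, K.edge e ⊆ K.sq s ∧ ∃ z ∈ K.edge e, ∀ x ∈ M.Q i, ∀ k,
      |g x k - z k| ≤ 2 * (D.G C).p s := by
  obtain ⟨t, ht, z, hz, hxz⟩ := D.exists_z C hi hg
  have hp : ∀ s, 0 < (D.G C).p s := fun s => Geo.p_pos (G := D.G C) s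
  have hκ := (D.G C).κ_pos t
  rcases near_edge hz (m := fun s => c * (D.G C).p s + (D.G C).κ t)
    (fun s => by have := mul_nonneg hc0 (hp s).le; linarith) with
    ⟨s, hs, h1, h2⟩ | ⟨s, hs, e, he, z', hz', h1⟩
  · exfalso
    refine hm s (mem_pS ht hs) ?_
    rintro _ ⟨x, hx, rfl⟩
    exact pos_Pm hs hd h1 h2 (hxz x hx)
  · refine ⟨s, mem_pS ht hs, e, he, z', hz', fun x hx k => ?_⟩
    have h2 := (abs_sub_le_norm (g x) z k).trans (hxz x hx)
    have h3 := abs_sub_le (g x k) (z k) (z' k)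
    have h4 := (D.G C).κ_τ t s hs
    have h5 := (D.G C).τ_p s
    have h6 := mul_le_mul_of_nonneg_right hc (hp s).le
    have h7 := h1 k
    have h8 := hp s
    linarith

end KIn3

end Vale.Agent.P073.H926
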