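import Vale.Agent.P073.H805.PsvK
import Vale.Agent.P073.H805.A1E
import Vale.Agent.P073.H926.CovD

/-!
# P073, block H805: **[PSVT]** for `K3C`

The hypotheses of `psvT_of` and `preT_of` from the data `KIn3`, `Cells`.
-/

open Set Metric Topology Filter

set_option linter.unusedSectionVars false

namespace Vale.Agent.P073.H926

open _root_.P073 _root_.P073.Net _root_.P073.PA691 _root_.P073.TM _root_.P073.H236
  _root_.P073.H142 _root_.P073.H196 _root_.P073.H880 _root_.P073.H880.RP _root_.P073.H919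
  _root_.P073.H155 _root_.P073.H936 _root_.P073.H936.K3
open Vale.Agent.P073.St (V)
open Vale.Agent.P073.H471 Vale.Agent.P073.H267
open Vale.Agent.P073.H73 (Mesh)
open Vale.Agent.P073.H193 (Edges)
open Vale.Agent.P073.H304 (Nb In Zmax)
open _root_.P073.H345 (PK PK_sub_ss τ_as_PK PB_sub_PK tg PLev PK_unique)

variable {c₀ n δ : ℝ} {j : ℕ} {Ω Λ : Set V} {v w : V} {ρ : V → ℝ} {M : Mesh Ω} {E : Edges M}
  {h : ConHomeo Ω Λ} {J₀ J : Set (ℕ × (Fin 3 → ℤ))} {P Z : Set M.ι} {K : BoxCx Λ w}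
  {h1 h2 h3 h3p h4 : ConHomeo Ω Λ}

namespace KIn3

variable (D : KIn3 c₀ n j δ v w ρ M h J₀ J P Z) (C : Cells ρ w K)

/-- hypothesis `hpb` of `psvT_of` -/
theorem zd_pb
    (hT : ∀ k, ∀ x ∈ M.F k, ∀ q, h.toFun x ∈ K.cube q → ‖h1.toFun x - h.toFun x‖ ≤ (D.G C).om q) :
    ∀ i ∈ (D.dat C).Zd, ∀ s ∈ (D.dat C).S₀, ∀ x ∈ M.Q i, h1.toFun x ∈ (D.G C).PB 1 s →
      ∀ y ∈ M.Q i, h1.toFun y ∈ (D.G C).PB (15 / 16) s ∧
        |h1.toFun y (K.nrm s) - K.slo s (K.nrm s)| ≤ (D.B C).τ s / 4 :=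
  fun _ hi _ _ _ hx hxs => (D.zd_PB C hT hi hx hxs).2

/-- hypothesis `hosc` of `psvT_of` and `preT_of` -/
theorem zd_osc
    (hT : ∀ k, ∀ x ∈ M.F k, ∀ q, h.toFun x ∈ K.cube q → ‖h1.toFun x - h.toFun x‖ ≤ (D.G C).om q) :
    ∀ i ∈ (D.dat C).Zd, ∀ s ∈ (D.dat C).S₀, ∀ z ∈ M.Q i, h1.toFun z ∈ PK (D.G C) s →
      ∀ x ∈ M.Q i, ‖h1.toFun x - h1.toFun z‖ ≤ (D.G C).p s / 16 := by
  intro i hi s hs z hz hzs x hx
  have a := (D.pos_PK C hs hi.1 (D.nearC_drawn C hT hi) hz hzs hx).2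
  have h3 := (D.G C).oS_τ s
  have h4 := (D.G C).τ_p s
  have hτ := (D.B C).τ_pos s
  linarith

variable {L : PLev (D.G C)} {ι : Type} {Fm : ι → Set V} {hΛ : IsOpen Λ} {c : K.S → Bool → ℝ}
  {c0 : ∀ s β, 0 < c s β} {c1 : ∀ s β, c s β ≤ L.c s β} {κ : Bool → V → V}
  {Θ : Bool → ConHomeo Λ Λ} {GE : E.ε → (V → V) → Prop} {GF : M.κ → (V → V) → Prop}
  {F : Bool → BFam 3 (D.dat C).S₀ Λ} {T T2 : Bool → ConHomeo Λ Λ}
  {μ₂ : Bool → (D.dat C).S₀ → ℝ}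

/-- **a drawn cell which is in no box of the hook of a plate**: close to `h` before the hook -/
theorem nearG_psv
    (hT : ∀ k, ∀ x ∈ M.F k, ∀ q, h.toFun x ∈ K.cube q → ‖h1.toFun x - h.toFun x‖ ≤ (D.G C).om q)
    (X : PEx (D.G C) E (D.dat C) L Fm h1 h2)
    (I : PIns (D.G C) E (D.dat C) L hΛ h1 h2 c c0 c1 κ Θ GE GF h3)
    (PP : PS3 (thinL L c c0 c1) (D.dat C).S₀ F T)
    (P2 : P073.H190.PT2 (thinL L c c0 c1) (D.dat C).S₀ F μ₂ T2)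
    (hh4 : ∀ x ∈ Ω, h4.toFun x = PS.map T2 (h3.toFun x))
    (hc : ∀ s ∈ (D.dat C).S₀, ∀ β q, (q = K.sm s ∨ q = K.sp s) → L.c s β ≤ (D.G C).om q)
    (hD : ∀ s : (D.dat C).S₀, ∀ β q, (q = K.sm s.1 ∨ q = K.sp s.1) → (F β).D s ≤ (D.G C).om q)
    {i : M.ι} (hZ : i ∈ (D.dat C).Zd) (hP : i ∉ (D.dat C).Pr)
    (hn : ∀ s, i ∉ ZbP (D.G C) (D.dat C) h4 s) : NearG (D.G C) M h.toFun h4.toFun 100 i :=
  D.nearG_given C P2 I.isΘ hc hD hh4 (D.nearC_drawn C hT hZ)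
    (fun x hx => I.out.givc i (gc_of_notMem X I PP P2 hh4 (D.zd_pb C hT) hZ hP hn) x hx)

/-- **[PSVT]** for `K3C` -/
theorem psvT
    (hT : ∀ k, ∀ x ∈ M.F k, ∀ q, h.toFun x ∈ K.cube q → ‖h1.toFun x - h.toFun x‖ ≤ (D.G C).om q)
    (X : PEx (D.G C) E (D.dat C) L Fm h1 h2)
    (I : PIns (D.G C) E (D.dat C) L hΛ h1 h2 c c0 c1 κ Θ GE GF h3)
    (PP : PS3 (thinL L c c0 c1) (D.dat C).S₀ F T)
    (P2 : P073.H190.PT2 (thinL L c c0 c1) (D.dat C).S₀ F μ₂ T2)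
    (hh4 : ∀ x ∈ Ω, h4.toFun x = PS.map T2 (h3.toFun x))
    (hc : ∀ s ∈ (D.dat C).S₀, ∀ β q, (q = K.sm s ∨ q = K.sp s) → L.c s β ≤ (D.G C).om q)
    (hD : ∀ s : (D.dat C).S₀, ∀ β q, (q = K.sm s.1 ∨ q = K.sp s.1) → (F β).D s ≤ (D.G C).om q)
    (heq : ∀ s : (D.dat C).S₀, ∀ x ∈ Ω, h4.toFun x ∈ HB (D.G C) (29 / 32) (3 / 4) s.1 →
      h3p.toFun x = h3.toFun x)
    {u : V} {H : HkG M (thinL L c c0 c1) (Subtype.val : (D.dat C).S₀ → K.S) F T (κ false) (κ true)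
      (29 / 32) (3 / 4) (ZbP (D.G C) (D.dat C) h4) h2 h3p h4 u}
    {i : M.ι} (hZ : i ∈ (D.dat C).Zd) (hP : i ∉ (D.dat C).Pr)
    (hn : ∀ s, i ∉ ZbP (D.G C) (D.dat C) h4 s) : PsvT H h1 h3 i := by
  refine psvT_of X I PP P2 hh4 heq (D.zd_pb C hT) (D.zd_osc C hT) hZ hP hn ?_
  obtain ⟨s, -, e, he, z, hz, hxz⟩ := D.edge_A1 C hZ
    (D.nearG_psv C hT X I PP P2 hh4 hc hD hZ hP hn)
    (c := 29 / 32) (d := 3 / 4) (by norm_num) (by norm_num) (by norm_num)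
    fun s hs hsub => hn ⟨s, hs⟩ ⟨⟨hZ, hP⟩, hsub⟩
  exact ⟨s, e, he, z, hz, hxz⟩

end KIn3

end Vale.Agent.P073.H926
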