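import Vale.Agent.P073.H805.Inv3
import Vale.Agent.P073.H579.OutS
import Vale.Agent.P073.H83.SqRel
import Vale.Agent.P073.H407.InW0
import Vale.Agent.P073.H581.OutCl

/-!
# P073, H805, **[INV]**, part 2: the facts on round T and on the protected cells

`tpre_of`: `TPre` from `T3OutS`; `prect_of`: `PRect` for a map with `h1 '' X = h '' X` for the strata
`X` of the protected cells.
-/

open Set Metric Topology Filter

namespace Vale.Agent.P073.H805

open _root_.P073 _root_.P073.Net _root_.P073.PA691 _root_.P073.H236 _root_.P073.H579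
  _root_.P073.H345
open Vale.Agent.P073.St (V)
open Vale.Agent.P073.H471 Vale.Agent.P073.H267 Vale.Agent.P073.H267.Geo
open Vale.Agent.P073.H73 (Mesh)
open Vale.Agent.P073.H193 (Edges pgn_of_fat extreme_segment_sub)
open Vale.Agent.P073.H304 (Nb InW)
open Vale.Agent.P073.AB (Idx squ)
open _root_.P073.H880.RP

variable {Ω Λ : Set V} {v : V} {K : BoxCx Λ v} {S : Rad K} {W : Wid K S} {B : Boxes W}
  {G : Geo B} {M : Mesh Ω} {E : Edges M} {D : Dat K M} {h h1 : ConHomeo Ω Λ}
  {sl : TBx K → Finset (ℝ × ℝ)}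

/-- **the facts on round T** -/
theorem tpre_of {ω : TBx K → ℝ} {Act₀ : Set M.κ} {O : M.κ → V} {La : E.ε → ℝ}
    {Lf : M.κ → E.ε → ℝ} {Lam1 : M.κ → ℝ}
    (T : T3OutS G M E h h1 ω D.G₀ Act₀ O La Lf Lam1 sl) : TPre G E D h1 sl where
  ends := T.ends
  face := fun b hb k _ y hy hyb t ht hr => T.vi _ (Or.inl ⟨k, rfl⟩) b hb y hy hyb t ht hr
  edge := fun b hb k _ e _ y hy hyb t ht hr =>
    T.vi _ (Or.inr (Or.inl ⟨e, rfl⟩)) b hb y hy hyb t ht hr
  vert := fun b hb k _ x hx _ hxb => T.vert x hx b hb hxb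
  cell := fun b hb i _ _ y hy hyb t ht hr =>
    T.vi _ (Or.inr (Or.inr ⟨i, rfl⟩)) b hb y hy hyb t ht hr

/-! ### corners are vertices -/

/-- the lower corner is an extreme point -/
theorem left_ext {p q : V} (hpq : p ≤ q) : p ∈ (Icc p q).extremePoints ℝ := by
  refine ⟨⟨le_rfl, hpq⟩, fun x hx y hy hp => ?_⟩
  obtain ⟨s, t, hs, ht, hst, he⟩ := hp
  have key : ∀ j, x j = p j := fun j =>
    (H581.eq_of_combo hs ht hst (by rw [← he]; rfl) (hx.1 j) (hy.1 j)).1
  exact funext key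

theorem right_ext {p q : V} (hpq : p ≤ q) : q ∈ (Icc p q).extremePoints ℝ := by
  refine ⟨⟨hpq, le_rfl⟩, fun x hx y hy hp => ?_⟩
  obtain ⟨s, t, hs, ht, hst, he⟩ := hp
  have key : ∀ j, x j = q j := fun j =>
    (H581.eq_of_combo' hs ht hst (by rw [← he]; rfl) (hx.2 j) (hy.2 j)).1
  exact funext key

/-- extreme points of faces are vertices -/
theorem vert_of_ext_face (E : Edges M) {k : M.κ} {x : V} (hx : x ∈ (M.F k).extremePoints ℝ) :
    x ∈ E.verts := by
  have h1 := (pgn_of_fat (M.fat k)).ext_sub hx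
  obtain ⟨e, hxe, hek⟩ := E.bd k x h1
  have h2 : x ∈ (segment ℝ (E.a e) (E.b e)).extremePoints ℝ :=
    inter_extremePoints_subset_extremePoints_of_subset hek ⟨hxe, hx⟩
  rcases extreme_segment_sub _ _ h2 with rfl | h3
  · exact Or.inl ⟨e, rfl⟩
  · rw [mem_singleton_iff] at h3
    exact Or.inr ⟨e, h3.symm⟩

/-- extreme points of cells are vertices -/
theorem vert_of_ext_cell (E : Edges M) {i : M.ι} {x : V} (hx : x ∈ (M.Q i).extremePoints ℝ)
    (hxf : x ∈ frontier (M.Q i)) : x ∈ E.verts := by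
  obtain ⟨k, hxk, hk⟩ := M.bd i x hxf
  exact vert_of_ext_face E (inter_extremePoints_subset_extremePoints_of_subset hk ⟨hxk, hx⟩)

/-- corners are in the frontier -/
theorem left_frontier {p q : V} (hpq : p ≤ q) : p ∈ frontier (Icc p q) := by
  rw [isClosed_Icc.frontier_eq, TM.interior_Icc3]
  exact ⟨⟨le_rfl, hpq⟩, fun h => absurd (h 0).1 (lt_irrefl _)⟩

theorem right_frontier {p q : V} (hpq : p ≤ q) : q ∈ frontier (Icc p q) := by
  rw [isClosed_Icc.frontier_eq, TM.interior_Icc3]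
  exact ⟨⟨hpq, le_rfl⟩, fun h => absurd (h 0).2 (lt_irrefl _)⟩

/-! ### diagonal maps -/

/-- the image of a box under a diagonal map -/
theorem diag_image {g : V → V} {c lam a p q : V} (hlam : ∀ j, lam j ≠ 0) (hpq : p ≤ q)
    (hg : ∀ x ∈ Icc p q, ∀ j, g x j = c j + lam j * (x j - a j)) :
    g '' Icc p q = Icc (fun j => min (g p j) (g q j)) (fun j => max (g p j) (g q j)) := by
  have hp : p ∈ Icc p q := ⟨le_rfl, hpq⟩
  have hq : q ∈ Icc p q := ⟨hpq, le_rfl⟩
  apply Subset.antisymm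
  · rintro _ ⟨x, hx, rfl⟩
    have key : ∀ j, min (g p j) (g q j) ≤ g x j ∧ g x j ≤ max (g p j) (g q j) := by
      intro j
      rw [hg x hx, hg p hp, hg q hq]
      have h1 := hx.1 j
      have h2 := hx.2 j
      rcases lt_or_gt_of_ne (hlam j) with h3 | h3
      · refine ⟨(min_le_right _ _).trans ?_, le_trans ?_ (le_max_left _ _)⟩ <;> nlinarith
      · refine ⟨(min_le_left _ _).trans ?_, le_trans ?_ (le_max_right _ _)⟩ <;> nlinarith
    exact ⟨fun j => (key j).1, fun j => (key j).2⟩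
  · intro y hy
    have hx : (fun j => a j + (y j - c j) / lam j) ∈ Icc p q := by
      have key : ∀ j, p j ≤ a j + (y j - c j) / lam j ∧ a j + (y j - c j) / lam j ≤ q j := by
        intro j
        have h1 := hy.1 j
        have h2 := hy.2 j
        have h4 := hpq j
        simp only [hg p hp, hg q hq] at h1 h2
        rcases lt_or_gt_of_ne (hlam j) with h3 | h3
        · have e1 : c j + lam j * (q j - a j) ≤ c j + lam j * (p j - a j) := by nlinarith
          rw [min_eq_right e1] at h1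
          rw [max_eq_left e1] at h2
          constructor
          · have : p j - a j ≤ (y j - c j) / lam j := by
              rw [le_div_iff_of_neg h3]; linarith
            linarith
          · have : (y j - c j) / lam j ≤ q j - a j := by
              rw [div_le_iff_of_neg h3]; linarith
            linarith
        · have e1 : c j + lam j * (p j - a j) ≤ c j + lam j * (q j - a j) := by nlinarith
          rw [min_eq_left e1] at h1
          rw [max_eq_right e1] at h2
          constructor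
          · have : p j - a j ≤ (y j - c j) / lam j := by
              rw [le_div_iff₀ h3]; linarith
            linarith
          · have : (y j - c j) / lam j ≤ q j - a j := by
              rw [div_le_iff₀ h3]; linarith
            linarith
      exact ⟨fun j => (key j).1, fun j => (key j).2⟩
    refine ⟨_, hx, ?_⟩
    ext j
    rw [hg _ hx]
    have := hlam j
    field_simp
    ring

/-- a box in a cell on which the map is diagonal -/
theorem rectAt_of_icc {g : V → V} {c lam a p q : V} {Q : Set V} (hlam : ∀ j, lam j ≠ 0)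
    (hpq : p ≤ q) (hQ : Icc p q ⊆ Q)
    (hg : ∀ x ∈ Q, ∀ j, g x j = c j + lam j * (x j - a j)) (hp : p ∈ E.verts)
    (hq : q ∈ E.verts) : RectAt E Q g (Icc p q) := by
  have hp' : p ∈ Q := hQ ⟨le_rfl, hpq⟩
  have hq' : q ∈ Q := hQ ⟨hpq, le_rfl⟩
  refine ⟨_, _, diag_image hlam hpq fun x hx => hg x (hQ hx), fun j => ⟨?_, ?_⟩⟩
  · rcases min_choice (g p j) (g q j) with h | h
    · exact ⟨p, hp, hp', h.symm⟩
    · exact ⟨q, hq, hq', h.symm⟩
  · rcases max_choice (g p j) (g q j) with h | h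
    · exact ⟨p, hp, hp', h.symm⟩
    · exact ⟨q, hq, hq', h.symm⟩

/-- another map with the same image and the same values at the vertices -/
theorem RectAt.congr {g g' : V → V} {Q X : Set V} (H : RectAt E Q g X) (hX : g' '' X = g '' X)
    (hv : ∀ x ∈ E.verts, x ∈ Q → g' x = g x) : RectAt E Q g' X := by
  obtain ⟨lo, hi, he, hc⟩ := H
  refine ⟨lo, hi, hX.trans he, fun j => ?_⟩
  obtain ⟨⟨x, hx, hxQ, h1⟩, x', hx', hxQ', h2⟩ := hc j
  exact ⟨⟨x, hx, hxQ, by rw [hv x hx hxQ]; exact h1⟩, x', hx', hxQ', by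
    rw [hv x' hx' hxQ']; exact h2⟩

/-- a mesh edge in a square face is parallel to an axis -/
theorem edge_axis {w : V} (E : Edges M) {k : M.κ} {s : Idx × Fin 3} (hk : M.F k = squ w s)
    {e : E.ε} (he : E.seg e ⊆ M.F k) : ∃ l, ∀ j, j ≠ l → E.a e j = E.b e j := by
  have ha : E.a e ∈ squ w s := hk ▸ he (left_mem_segment ℝ _ _)
  have hb : E.b e ∈ squ w s := hk ▸ he (right_mem_segment ℝ _ _)
  -- the midpoint is not in the relative interior
  have hm : midpoint ℝ (E.a e) (E.b e) ∈ E.seg e := midpoint_mem_segment _ _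
  have hm' : midpoint ℝ (E.a e) (E.b e) ∉ AB.P86.rel w s := by
    intro h1
    rw [← H83.intrinsicInterior_squ, ← hk] at h1
    exact Set.disjoint_left.1 (E.rel e k) hm h1
  have hms : midpoint ℝ (E.a e) (E.b e) ∈ squ w s := hk ▸ he hm
  have e1 : ∀ j, midpoint ℝ (E.a e) (E.b e) j = (E.a e j + E.b e j) / 2 := by
    intro j
    rw [midpoint_eq_smul_add]
    simp only [Pi.smul_apply, Pi.add_apply, smul_eq_mul, invOf_eq_inv]
    ring
  have h2 : ∃ k', k' ≠ s.2 ∧ E.a e k' = E.b e k' := by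
    by_contra hcon
    push Not at hcon
    refine hm' ⟨hms.1, fun k' hk' => ?_⟩
    have h3 := hcon k' hk'
    have h4 := ha.2 k' hk'
    have h5 := hb.2 k' hk'
    rw [e1]
    rcases lt_or_gt_of_ne h3 with h6 | h6 <;> constructor <;> linarith [h4.1, h4.2, h5.1, h5.2]
  obtain ⟨k', hk', he'⟩ := h2
  obtain ⟨l, hl, hl'⟩ : ∃ l : Fin 3, l ≠ s.2 ∧ l ≠ k' := by
    have : ∀ x y : Fin 3, ∃ l : Fin 3, l ≠ x ∧ l ≠ y := by decide
    exact this _ _
  refine ⟨l, fun j hj => ?_⟩
  have h6 : j = s.2 ∨ j = k' := by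
    have : ∀ x y l j : Fin 3, x ≠ y → l ≠ x → l ≠ y → j ≠ l → j = x ∨ j = y := by decide
    exact this _ _ _ _ hk'.symm hl hl' hj
  rcases h6 with rfl | rfl
  · rw [ha.1, hb.1]
  · exact he'

/-- a segment parallel to an axis is a box -/
theorem segment_eq_icc {a b : V} {l : Fin 3} (h : ∀ j, j ≠ l → a j = b j) (hab : a l ≤ b l) :
    a ≤ b ∧ segment ℝ a b = Icc a b := by
  have hle : a ≤ b := fun j => by
    by_cases hj : j = l
    · subst hj; exact hab
    · exact (h j hj).le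
  refine ⟨hle, Subset.antisymm (segment_subset_Icc hle) fun x hx => ?_⟩
  rcases hab.eq_or_lt with h0 | h0
  · have hab' : a = b := funext fun j => by
      by_cases hj : j = l
      · subst hj; exact h0
      · exact h j hj
    subst hab'
    rw [Icc_self, mem_singleton_iff] at hx
    rw [hx]
    exact left_mem_segment ℝ _ _
  · rw [segment_eq_image']
    have hd : 0 < b l - a l := by linarith
    refine ⟨(x l - a l) / (b l - a l), ⟨div_nonneg (by linarith [hx.1 l]) hd.le, ?_⟩, ?_⟩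
    · rw [div_le_one hd]
      linarith [hx.2 l]
    · ext j
      simp only [Pi.add_apply, Pi.smul_apply, Pi.sub_apply, smul_eq_mul]
      by_cases hj : j = l
      · subst hj
        field_simp
        ring
      · have h1 := hx.1 j
        have h2 := hx.2 j
        rw [← h j hj] at h2 ⊢
        rw [sub_self, mul_zero, add_zero]
        exact le_antisymm h1 h2

/-! ### the protected cells -/

/-- **the protected cells** -/
theorem prect_of {η δ c₀ : ℝ} {v₀ w : V} {ρ : V → ℝ} {J₀ J : Set (ℕ × (Fin 3 → ℤ))}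
    {Z : Set M.ι} (hη : η < 1) (hin : InW (Λ := Λ) η δ c₀ v₀ w ρ M h.toFun J₀ J D.Pr Z)
    (hPK : ∀ s ∈ D.S₀, PK G s ⊆ Nb w J₀ c₀)
    (hQ : ∀ i ∈ D.Pr, h1.toFun '' M.Q i = h.toFun '' M.Q i)
    (hF : ∀ i ∈ D.Pr, ∀ k, M.F k ⊆ M.Q i → h1.toFun '' M.F k = h.toFun '' M.F k)
    (hE : ∀ i ∈ D.Pr, ∀ k, M.F k ⊆ M.Q i → ∀ e, E.seg e ⊆ M.F k →
      h1.toFun '' E.seg e = h.toFun '' E.seg e)
    (hv : ∀ i ∈ D.Pr, ∀ x ∈ E.verts, x ∈ M.Q i → h1.toFun x = h.toFun x) :
    PRect G E D h1 := by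
  -- the diagonal form
  have hdiag : ∀ i ∈ D.Pr, ∃ c lam a : V, ∃ r > 0, (∀ j, lam j ≠ 0) ∧ M.Q i = closedBall a r ∧
      ∀ x ∈ M.Q i, ∀ j, h.toFun x j = c j + lam j * (x j - a j) := by
    intro i hi
    obtain ⟨t, -, a, r, s, hr, hs, hQi, hh⟩ := hin.prot i hi
    refine ⟨H73.ctr w t.1 t.2, fun j => (1 - η) / 2 / 2 ^ t.1 / r * s j, a, r, hr, fun j => ?_,
      hQi, hh⟩
    have h1 : s j ≠ 0 := by rcases hs j with h | h <;> rw [h] <;> norm_num
    have h2 : (0:ℝ) < 1 - η := by linarith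
    have h3 : (1 - η) / 2 / 2 ^ t.1 / r ≠ 0 := by positivity
    exact mul_ne_zero h3 h1
  -- square faces
  have hsq : ∀ s ∈ D.S₀, ∀ i ∈ D.Pr, ∀ k, M.F k ⊆ M.Q i →
      (h1.toFun '' M.F k ∩ PK G s).Nonempty → ∃ u : Idx × Fin 3, M.F k = squ v₀ u := by
    intro s hs i hi k hk hne
    refine hin.face_prot hi hk ?_
    rw [← hF i hi k hk]
    obtain ⟨y, hy, hy'⟩ := hne
    exact ⟨y, hy, hPK s hs hy'⟩
  refine ⟨fun s hs i hi _ => ?_, fun s hs i hi k hk hne => ?_, fun s hs i hi k hk e he hne => ?_⟩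
  · obtain ⟨c, lam, a, r, hr, hlam, hQi, hg⟩ := hdiag i hi
    have hQi' : M.Q i = Icc (fun j => a j - r) (fun j => a j + r) := by
      rw [hQi]
      ext x
      rw [mem_closedBall, dist_pi_le_iff hr.le, mem_Icc]
      simp only [Pi.le_def, Real.dist_eq, abs_le]
      constructor
      · intro h2
        exact ⟨fun j => by linarith [(h2 j).1], fun j => by linarith [(h2 j).2]⟩
      · rintro ⟨h2, h3⟩ j
        constructor <;> linarith [h2 j, h3 j]
    have hpq : (fun j => a j - r) ≤ (fun j => a j + r : V) := fun j => by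
      show a j - r ≤ a j + r
      linarith
    have h2 : RectAt E (M.Q i) h.toFun (M.Q i) := by
      have h3 := rectAt_of_icc (E := E) (Q := M.Q i) hlam hpq hQi'.symm.subset hg
        (vert_of_ext_cell E (hQi' ▸ left_ext hpq) (hQi' ▸ left_frontier hpq))
        (vert_of_ext_cell E (hQi' ▸ right_ext hpq) (hQi' ▸ right_frontier hpq))
      rwa [← hQi'] at h3
    exact h2.congr (hQ i hi) (hv i hi)
  · obtain ⟨c, lam, a, r, hr, hlam, hQi, hg⟩ := hdiag i hi
    obtain ⟨u, hu⟩ := hsq s hs i hi k hk hne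
    rw [H83.squ_eq_Icc] at hu
    have hpq : (fun j => v₀ j + u.1.2 j / 2 ^ u.1.1) ≤ (fun j => if j = u.2 then
        v₀ j + u.1.2 j / 2 ^ u.1.1 else v₀ j + (u.1.2 j + 1) / 2 ^ u.1.1 : V) := fun j => by
      show v₀ j + u.1.2 j / 2 ^ u.1.1 ≤ if j = u.2 then _ else _
      have : (0:ℝ) < 1 / 2 ^ u.1.1 := by positivity
      split_ifs
      · exact le_rfl
      · rw [add_div]; linarith
    have h2 := rectAt_of_icc (E := E) (Q := M.Q i) hlam hpq (hu ▸ hk) hg
      (vert_of_ext_face E (hu ▸ left_ext hpq)) (vert_of_ext_face E (hu ▸ right_ext hpq))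
    rw [← hu] at h2
    exact h2.congr (hF i hi k hk) (hv i hi)
  · obtain ⟨c, lam, a, r, hr, hlam, hQi, hg⟩ := hdiag i hi
    obtain ⟨u, hu⟩ := hsq s hs i hi k hk (hne.mono (inter_subset_inter_left _ (image_mono he)))
    obtain ⟨l, hl⟩ := edge_axis E hu he
    have hQe : E.seg e ⊆ M.Q i := he.trans hk
    rcases le_total (E.a e l) (E.b e l) with h3 | h3
    · obtain ⟨hpq, hseg⟩ := segment_eq_icc hl h3
      have h2 := rectAt_of_icc (E := E) (Q := M.Q i) hlam hpq (hseg ▸ hQe) hg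
        (Or.inl ⟨e, rfl⟩) (Or.inr ⟨e, rfl⟩)
      rw [← hseg] at h2
      exact RectAt.congr h2 (hE i hi k hk e he) (hv i hi)
    · obtain ⟨hpq, hseg⟩ := segment_eq_icc (fun j hj => (hl j hj).symm) h3
      have hseg' : E.seg e = Icc (E.b e) (E.a e) := by
        show segment ℝ (E.a e) (E.b e) = _
        rw [segment_symm]; exact hseg
      have h2 := rectAt_of_icc (E := E) (Q := M.Q i) hlam hpq (hseg' ▸ hQe) hg
        (Or.inr ⟨e, rfl⟩) (Or.inl ⟨e, rfl⟩)
      rw [← hseg'] at h2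
      exact h2.congr (hE i hi k hk e he) (hv i hi)

end Vale.Agent.P073.H805
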