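import Vale.Agent.P073.H919.P45
import Vale.Agent.P073.H919.HookP
import Vale.Agent.P073.H155.THin3

/-!
# P073, block H805: **[PSVT]**, the drawn cells which are in no box of the hook of a plate

`gc_of_notMem`: such a cell has a given map before the hook; `psvT_of`: it is passive for the hooks
of the plates (155's `PsvT`); `preT_of`: the outputs of the rounds before the hook of the tubes.
-/

open Set Metric Topology Filter
open scoped ENNReal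

set_option linter.unusedSectionVars false
set_option autoImplicit false

namespace P073.H155

open _root_.P073 _root_.P073.H579 _root_.P073.Net _root_.P073.PA691 _root_.P073.H236
  _root_.P073.H345 _root_.P073.H142 _root_.P073.H919 _root_.P073.H936 _root_.P073.H936.K3
  _root_.P073.H429 _root_.P073.H880 _root_.P073.H880.RP
open Vale.Agent.P073.H341 (ROutZ HtOk)
open Vale.Agent.P073.St (V)
open Vale.Agent.P073.H73 (Mesh)
open Vale.Agent.P073.H193 (Edges)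
open Vale.Agent.P073.H471 Vale.Agent.P073.H267

variable {Ω Λ : Set V} {v : V} {K : BoxCx Λ v} {S : Rad K} {W : Wid K S} {B : Boxes W} {G : Geo B}
  {M : Mesh Ω} {E : Edges M} {D : Dat K M} {L : PLev G} {h1 h2 h3 h3p h4 h5 f5 : ConHomeo Ω Λ}
  {u : V}
  {ι : Type} {Fm : ι → Set V} {hΛ : IsOpen Λ} {c : K.S → Bool → ℝ} {c0 : ∀ s β, 0 < c s β}
  {c1 : ∀ s β, c s β ≤ L.c s β} {κ : Bool → V → V} {Θ : Bool → ConHomeo Λ Λ}
  {GE : E.ε → (V → V) → Prop} {GF : M.κ → (V → V) → Prop} {F : Bool → BFam 3 D.S₀ Λ}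
  {T T2 : Bool → ConHomeo Λ Λ} {μ₂ : Bool → D.S₀ → ℝ}

theorem abs_sub_le_norm' (x y : V) (k : Fin 3) : |x k - y k| ≤ ‖x - y‖ := by
  have h := norm_le_pi_norm (x - y) k
  rwa [Pi.sub_apply, Real.norm_eq_abs] at h

/-- a cell with a peeled face is in the box of the hook -/
theorem zbP_of_hkS (X : PEx G E D L Fm h1 h2) (I : PIns G E D L hΛ h1 h2 c c0 c1 κ Θ GE GF h3)
    (P : PS3 (thinL L c c0 c1) D.S₀ F T) (P2 : P073.H190.PT2 (thinL L c c0 c1) D.S₀ F μ₂ T2)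
    (hh4 : ∀ x ∈ Ω, h4.toFun x = PS.map T2 (h3.toFun x))
    (hpb : ∀ i ∈ D.Zd, ∀ s ∈ D.S₀, ∀ x ∈ M.Q i, h1.toFun x ∈ G.PB 1 s → ∀ y ∈ M.Q i,
      h1.toFun y ∈ G.PB (15 / 16) s ∧ |h1.toFun y (K.nrm s) - K.slo s (K.nrm s)| ≤ B.τ s / 4)
    {i : M.ι} {s : D.S₀} (hi : i ∈ D.HkS G h1 s.1) : i ∈ ZbP G D h4 s := by
  have hi' := hi
  obtain ⟨hZ, hP, k, hk, hks, hA, x, hx, hxb⟩ := hi'
  have hτ := B.τ_pos s.1
  have h6 : ∀ y ∈ M.Q i, h1.toFun y ∈ HB G (15 / 16) (1 / 2) s.1 := fun y hy => by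
    obtain ⟨a1, a2⟩ := hpb i hZ s.1 s.2 x (hk hx) hxb y hy
    exact (mem_HB_iff (by norm_num)).2 ⟨a1, by linarith⟩
  have h7 := h2_pos hΛ X.ex (fun s hs β => X.ht.le s hs β) hi h6
  have h8 := h4_pos (h4 := (h3.trans (T false)).trans (T true)) (PSt.of_PS3 P) (I.isQ false)
    (I.isQ true) (fun _ _ => rfl) (M.sub i) (I.out.img_cell i)
    (c := 15 / 16) (d := 1 / 2) (by norm_num) (by norm_num) (by norm_num) h7
  have h9 : h4.toFun '' M.Q i ⊆ HB G (15 / 16) (1 / 2) s.1 := by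
    rintro - ⟨y, hy, rfl⟩
    have hyΩ := M.sub i hy
    have h10 : PS.map T (h3.toFun y) ∈ HB G (15 / 16) (1 / 2) s.1 := h8 (mem_image_of_mem _ hy)
    have h11 : h3.toFun y ∈ HB G (15 / 16) (1 / 2) s.1 :=
      (((PSt.of_PS3 P).prodOn s (by norm_num) (by norm_num) (by norm_num)).mem _
        (h3.mapsTo hyΩ)).1 h10
    rw [hh4 y hyΩ, ← P2.map_eq_map P (HB_PB (by norm_num) (by norm_num) s.1 h11)]
    exact h10
  exact ⟨⟨hZ, hP⟩, h9.trans (HB_interior (by norm_num) (by norm_num) s.1)⟩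

/-- a drawn cell which is in no box of the hook of a plate has a given map before the hook -/
theorem gc_of_notMem (X : PEx G E D L Fm h1 h2) (I : PIns G E D L hΛ h1 h2 c c0 c1 κ Θ GE GF h3)
    (P : PS3 (thinL L c c0 c1) D.S₀ F T) (P2 : P073.H190.PT2 (thinL L c c0 c1) D.S₀ F μ₂ T2)
    (hh4 : ∀ x ∈ Ω, h4.toFun x = PS.map T2 (h3.toFun x))
    (hpb : ∀ i ∈ D.Zd, ∀ s ∈ D.S₀, ∀ x ∈ M.Q i, h1.toFun x ∈ G.PB 1 s → ∀ y ∈ M.Q i,
      h1.toFun y ∈ G.PB (15 / 16) s ∧ |h1.toFun y (K.nrm s) - K.slo s (K.nrm s)| ≤ B.τ s / 4)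
    {i : M.ι} (hZ : i ∈ D.Zd) (hP : i ∉ D.Pr) (hn : ∀ s, i ∉ ZbP G D h4 s) : i ∈ D.Gc G h1 := by
  refine Or.inr ⟨hZ, hP, fun k hk hp => ?_⟩
  obtain ⟨s, hs⟩ := hp
  exact hn ⟨s, hs.1⟩ (zbP_of_hkS X I P P2 hh4 hpb ⟨hZ, hP, k, hk, hs⟩)

/-- a point of the box of the hook was near the plate before the exchange -/
theorem pk_of_h2 (X : PEx G E D L Fm h1 h2) {s : D.S₀} {c' d' : ℝ} (hc : 7 / 8 ≤ c')
    (hd : d' ≤ 1) {x : V} (hx : x ∈ Ω) (hb : h2.toFun x ∈ HB G c' d' s.1) :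
    h1.toFun x ∈ PK G s.1 := by
  by_cases hi : h1.toFun x ∈ interior (D.PE G s.1)
  · exact PB_sub_PK (by norm_num) s.1 (X.ht.pe_PB s.2 (interior_subset hi))
  · have h3 : h2.toFun x = h1.toFun x := X.ex.off x hx fun s' hs' hi' => by
      by_cases hne : s' = s.1
      · exact hi (hne ▸ hi')
      · exact notMem_pe X.ex X.ht hc hd hx hb s' hs' hne hi'
    rw [← h3]
    exact PB_sub_PK (by linarith) s.1 (HB_PB le_rfl hd s.1 hb)

/-- **a drawn cell which is in no box of the hook of a plate is passive for these hooks** -/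
theorem psvT_of (X : PEx G E D L Fm h1 h2) (I : PIns G E D L hΛ h1 h2 c c0 c1 κ Θ GE GF h3)
    (P : PS3 (thinL L c c0 c1) D.S₀ F T) (P2 : P073.H190.PT2 (thinL L c c0 c1) D.S₀ F μ₂ T2)
    (hh4 : ∀ x ∈ Ω, h4.toFun x = PS.map T2 (h3.toFun x))
    (heq : ∀ s : D.S₀, ∀ x ∈ Ω, h4.toFun x ∈ HB G (29 / 32) (3 / 4) s.1 →
      h3p.toFun x = h3.toFun x)
    {H : HkG M (thinL L c c0 c1) (Subtype.val : D.S₀ → K.S) F T (κ false) (κ true) (29 / 32)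
      (3 / 4) (ZbP G D h4) h2 h3p h4 u}
    (hpb : ∀ i ∈ D.Zd, ∀ s ∈ D.S₀, ∀ x ∈ M.Q i, h1.toFun x ∈ G.PB 1 s → ∀ y ∈ M.Q i,
      h1.toFun y ∈ G.PB (15 / 16) s ∧ |h1.toFun y (K.nrm s) - K.slo s (K.nrm s)| ≤ B.τ s / 4)
    (hosc : ∀ i ∈ D.Zd, ∀ s ∈ D.S₀, ∀ z ∈ M.Q i, h1.toFun z ∈ PK G s → ∀ x ∈ M.Q i,
      ‖h1.toFun x - h1.toFun z‖ ≤ G.p s / 16)
    {i : M.ι} (hZ : i ∈ D.Zd) (hP : i ∉ D.Pr) (hn : ∀ s, i ∉ ZbP G D h4 s)
    (hA : ∃ (s : K.S) (e' : K.G), K.edge e' ⊆ K.sq s ∧ ∃ z ∈ K.edge e', ∀ x ∈ M.Q i,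
      ∀ k, |h4.toFun x k - z k| ≤ 2 * G.p s) : PsvT H h1 h3 i := by
  have hgc := gc_of_notMem X I P P2 hh4 hpb hZ hP hn
  have hmiss : ∀ x ∈ M.Q i, ∀ s ∈ D.S₀, h1.toFun x ∉ G.PB 1 s := X.miss i hgc hP
  have hloc : ∀ s : D.S₀, ∀ x ∈ Ω, h4.toFun x ∈ HB G (29 / 32) (3 / 4) s.1 →
      (x ∈ M.Q i ↔ κ true (κ false (h3p.toFun x)) ∈ h2.toFun '' M.Q i) := fun s x hx hb =>
    loc_of_pre (κ := κ true ∘ κ false) (M.sub i) (I.out.img_cell i) hx (heq s x hx hb)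
  refine ⟨fun s => ⟨hloc s, hmiss, hn s, fun h => hn s ⟨⟨hZ, hP⟩, h⟩⟩,
    I.out.img_cell i, fun k _ => I.out.img_face k, fun s x hx y hy l hb => ?_, hA⟩
  have hxΩ := M.sub i hx
  obtain ⟨x', hx', h6, -⟩ := H.P.exists_preL H.q₀ H.q₁ H.map
    H.hc H.hc2 H.hd hxΩ ((hloc s x hxΩ hb).1 hx) hb
  have h7 := pk_of_h2 X H.hc H.hd (M.sub i hx') h6
  have h8 := (abs_sub_le_norm' (h1.toFun x) (h1.toFun x') l).trans (hosc i hZ s.1 s.2 x' hx' h7 x hx)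
  have h9 := (abs_sub_le_norm' (h1.toFun y) (h1.toFun x') l).trans (hosc i hZ s.1 s.2 x' hx' h7 y hy)
  rw [abs_sub_comm] at h9
  have h10 := abs_sub_le (h1.toFun x l) (h1.toFun x' l) (h1.toFun y l)
  linarith

/-- the cells of `ZbP` have the property of the mesh sets also for the map of the hook -/
theorem zbP_img (I : PIns G E D L hΛ h1 h2 c c0 c1 κ Θ GE GF h3)
    (heq : ∀ s : D.S₀, ∀ x ∈ Ω, h4.toFun x ∈ HB G (29 / 32) (3 / 4) s.1 →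
      h3p.toFun x = h3.toFun x) (s : D.S₀) {i : M.ι} (hi : i ∈ ZbP G D h4 s) :
    h3p.toFun '' M.Q i = Pre (κ true ∘ κ false) Λ h2 (M.Q i) := by
  rw [← I.out.img_cell i]
  exact image_congr fun x hx =>
    heq s x (M.sub i hx) (interior_subset (hi.2 (mem_image_of_mem _ hx)))

/-- the oscillation of `h1` on the cells drawn in the plates -/
theorem zbP_osc (X : PEx G E D L Fm h1 h2) (I : PIns G E D L hΛ h1 h2 c c0 c1 κ Θ GE GF h3)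
    (heq : ∀ s : D.S₀, ∀ x ∈ Ω, h4.toFun x ∈ HB G (29 / 32) (3 / 4) s.1 →
      h3p.toFun x = h3.toFun x)
    {H : HkG M (thinL L c c0 c1) (Subtype.val : D.S₀ → K.S) F T (κ false) (κ true) (29 / 32)
      (3 / 4) (ZbP G D h4) h2 h3p h4 u}
    (hosc : ∀ i ∈ D.Zd, ∀ s ∈ D.S₀, ∀ z ∈ M.Q i, h1.toFun z ∈ PK G s → ∀ x ∈ M.Q i,
      ‖h1.toFun x - h1.toFun z‖ ≤ G.p s / 16) (s : D.S₀) {i : M.ι} (hi : i ∈ ZbP G D h4 s)
    {x : V} (hx : x ∈ M.Q i) {y : V} (hy : y ∈ M.Q i) :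
    ‖h1.toFun x - h1.toFun y‖ ≤ G.p s.1 / 16 := by
  have h6 := H.h2_mem hi (zbP_img I heq s hi) y hy
  exact hosc i hi.1.1 s.1 s.2 y hy (pk_of_h2 X H.hc H.hd (M.sub i hy) h6) x hx

/-- **the outputs of the rounds before the hook of the tubes** -/
theorem preT_of (X : PEx G E D L Fm h1 h2) (I : PIns G E D L hΛ h1 h2 c c0 c1 κ Θ GE GF h3)
    (heq : ∀ s : D.S₀, ∀ x ∈ Ω, h4.toFun x ∈ HB G (29 / 32) (3 / 4) s.1 →
      h3p.toFun x = h3.toFun x)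
    {H : HkG M (thinL L c c0 c1) (Subtype.val : D.S₀ → K.S) F T (κ false) (κ true) (29 / 32)
      (3 / 4) (ZbP G D h4) h2 h3p h4 u} {hΩ : IsOpen Ω} {r q : D.S₀ → ℝ}
    (O : HkGF H hΩ r q h5) {p0 : ∀ s, 0 < q s * r s} {p1 : ∀ s, q s * r s < 1}
    {ς : Bool → D.S₀ → ℝ} {Tσ : Bool → ConHomeo Λ Λ}
    (Pσ : Sg3 (thinL L c c0 c1) D.S₀ (fun β => sfam (F β) (fun s => q s * r s) p0 p1) ς Tσ)
    (hf5 : ∀ x ∈ Ω, f5.toFun x = PS.map Tσ (h5.toFun x))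
    (r0 : ∀ s, 0 < r s) (r1 : ∀ s, r s < 1) (q1 : ∀ s, q s < 1)
    (hst : ∀ s : D.S₀, ∀ β, stp (L.N s.1 β) (K.slo s.1 (tg s.1 β) + G.a s.1)
      (K.shi s.1 (tg s.1 β) - G.a s.1) ≤ G.a s.1)
    (hosc : ∀ i ∈ D.Zd, ∀ s ∈ D.S₀, ∀ z ∈ M.Q i, h1.toFun z ∈ PK G s → ∀ x ∈ M.Q i,
      ‖h1.toFun x - h1.toFun z‖ ≤ G.p s / 16) :
    PreT O h1 f5 (fun β => sfam (F β) (fun s => q s * r s) p0 p1) ς Tσ E Fm where
  P := Pσ
  hf5 := hf5
  r0 := fun s => (r0 s).le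
  r1 := r1
  q1 := fun s => (q1 s).le
  he := fun s Y k => (pwid_sfam H.P p0 p1 s ⟨Y, k⟩).le
  R := by
    have h : (thinL L c c0 c1).lv = L.lv := by
      funext s j; exact thinL_lv s j
    rw [h]; exact X.ex
  Z := by
    have h : (thinL L c c0 c1).lv = L.lv := by
      funext s j; exact thinL_lv s j
    rw [h]; exact X.exZ
  hht := X.ht
  c1 := by norm_num
  d2 := by norm_num
  hst := hst
  hcell := fun s i hi => zbP_img I heq s hi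
  hosc := fun s i hi x hx y hy l => by
    have h6 := zbP_osc (H := H) X I heq hosc s hi hx hy
    have h7 := abs_sub_le_norm' (h1.toFun x) (h1.toFun y) l
    have h8 := Geo.p_pos (G := G) s.1
    linarith

end P073.H155
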