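import Vale.Agent.P073.H805.Acc
import Vale.Agent.P073.H579.ProdLift
import Vale.Agent.P073.H919.PEx

/-!
# P073, block H805: [ACC-HOOK], part Z: columns which are drawn before the exchange

`HkGO.acc_path`: a path `p` in the box for the map before the insertion, from the image of `x` to
the top of the box, on which all labels are constant, and which meets no drawn cell: the new
clipped levels at `x` are the old ones.
-/

open Set Metric Topology Filter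
open scoped ENNReal

set_option linter.unusedSectionVars false

namespace P073.H579

open P073 P073.H880 P073.H919

section lift0

variable {k : ℝ → ℝ} {L : Set ℝ} {lo hi : ℝ → ℝ} {x : ℝ → ℝ}

/-- **lift of a function which stays on one side of every level**, with a given start -/
theorem Ins1.lift0 (h : Ins1 k L lo hi) (hx : ContinuousOn x (Icc 0 1))
    (ht : (∀ r ∈ Icc (0:ℝ) 1, x r = x 0) ∨ ∀ r ∈ Icc (0:ℝ) 1, x r ∉ L) {y : ℝ} (hy : k y = x 0) :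
    ∃ z : ℝ → ℝ, ContinuousOn z (Icc 0 1) ∧ z 0 = y ∧ (∀ r ∈ Icc (0:ℝ) 1, k (z r) = x r) ∧
      ∀ a ∈ L, ∀ r ∈ Icc (0:ℝ) 1, rho lo hi a (z r) = rho lo hi a (z 0) := by
  have h0 : (0:ℝ) ∈ Icc (0:ℝ) 1 := ⟨le_rfl, zero_le_one⟩
  rcases ht with ht | ht
  · exact ⟨fun _ => y, continuousOn_const, rfl, fun r hr => by rw [ht r hr, hy],
      fun _ _ _ _ => rfl⟩
  · obtain ⟨z, z1, z2, z3⟩ := h.exists_room zero_le_one hx
      (Or.inl fun r hr => ht r (Ioo_subset_Icc_self hr))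
    refine ⟨z, z1, ?_, z2, fun a ha r hr => z3 a ha r hr 0 h0⟩
    refine h.inj _ _ ((z2 0 h0).trans hy.symm) ?_
    rw [z2 0 h0]
    exact ht 0 h0

end lift0

end P073.H579

namespace P073.H919

open P073 P073.H936 P073.H936.K3 P073.H142 P073.H880 P073.H345 P073.H236 P073.H579
open Vale.Agent.P073.St (V)
open Vale.Agent.P073.AB (Idx)
open Vale.Agent.P073.H73 (Mesh)
open Vale.Agent.P073.H471 Vale.Agent.P073.H267
open P073.Net P073.PA691

variable {Ω Λ : Set V} {v : V} {K : BoxCx Λ v} {S : Rad K} {W : Wid K S} {B : Boxes W}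
  {G : Geo B} {L : PLev G} {γ : Type*} {φ : γ → K.S} {F : Bool → BFam 3 γ Λ}
  {T : Bool → ConHomeo Λ Λ} {M : Mesh Ω} {κ₀ κ₁ : V → V} {c d : ℝ} {Zb : γ → Set M.ι}
  {h2 h3 h4 h5 : ConHomeo Ω Λ} {u : V} {H : HkG M L φ F T κ₀ κ₁ c d Zb h2 h3 h4 u}
  {hΩ : IsOpen Ω} {r : γ → ℝ}

theorem kP_mem_HB (L : PLev G) (hc2 : c ≤ 2) (hd : d ≤ 1) {s : K.S} {y : V} :
    prodK (L.kP s) y ∈ HB G c d s ↔ y ∈ HB G c d s := by
  have h1 : prodK (L.kP s) y (K.nrm s) = y (K.nrm s) := by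
    show L.kP s (K.nrm s) _ = _
    rw [PLev.kP_nrm]
    rfl
  rw [mem_HB_iff hd, mem_HB_iff hd, h1, ← L.prodK_P s false y]
  exact and_congr_left fun _ => (PLev.prodQ_mem_PB hc2).trans (PLev.prodQ_mem_PB hc2)

/-- **a path for the map before the insertion**, on which the labels are constant, from the image of
`x` to the top or the bottom of the box, which meets no drawn cell: the new levels at `x` are the
old ones.  `f3` is a map which is equal to `h3` in the box. -/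
theorem HkGO.acc_path (O : HkGO H hΩ r h5) (b : γ) (r0 : 0 < r b) (r1 : r b < 1)
    {f3 : ConHomeo Ω Λ} (h33 : ∀ z ∈ Ω, f3.toFun z ∈ HB G c d (φ b) → h3.toFun z = f3.toFun z)
    {x : V} (hx : x ∈ Ω) (hB : f3.toFun x ∈ HB G c d (φ b)) {p : ℝ → V}
    (hp : ContinuousOn p (Icc 0 1)) (hpB : MapsTo p (Icc 0 1) (HB G c d (φ b)))
    (hp0 : κ₁ (κ₀ (f3.toFun x)) = p 0)
    (hpl : ∀ l, (∀ t ∈ Icc (0:ℝ) 1, p t l = p 0 l) ∨ ∀ t ∈ Icc (0:ℝ) 1, p t l ∉ L.lv (φ b) l)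
    (hend : p 1 (K.nrm (φ b)) = hlo G c d (φ b) (K.nrm (φ b)) ∨
      p 1 (K.nrm (φ b)) = hhi G c d (φ b) (K.nrm (φ b)))
    (hcell : ∀ t ∈ Icc (0:ℝ) 1, ∃ A ⊆ Ω, f3.toFun '' A = Pre (κ₁ ∘ κ₀) Λ h2 A ∧
      p t ∈ h2.toFun '' A ∧ ∀ i ∈ Zb b, Disjoint A (interior (M.Q i))) (i : PI L (φ b)) :
    plev L F φ b (r b) h5.toFun i x = plev L F φ b (r b) h4.toFun i x := by
  have h01 : (0:ℝ) ∈ Icc (0:ℝ) 1 := ⟨le_rfl, zero_le_one⟩
  have h11 : (1:ℝ) ∈ Icc (0:ℝ) 1 := ⟨zero_le_one, le_rfl⟩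
  have HP := H.P.prodOn b H.hc H.hc2 H.hd
  have ePB : prodK (L.kP (φ b)) (f3.toFun x) = p 0 := by
    rw [← hp0]
    exact (κ_eq_kP H.P.inj H.q₀ H.q₁ H.hc H.hc2 H.hd hB).symm
  have hpc : ∀ l, ContinuousOn (fun t => p t l) (Icc 0 1) := fun l =>
    (continuous_apply l).comp_continuousOn hp
  have key : ∀ l, ∃ z : ℝ → ℝ, ContinuousOn z (Icc 0 1) ∧ z 0 = f3.toFun x l ∧
      (∀ t ∈ Icc (0:ℝ) 1, L.kP (φ b) l (z t) = p t l) ∧
      ∀ a ∈ L.lv (φ b) l, ∀ t ∈ Icc (0:ℝ) 1,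
        rho (L.loP (φ b) l) (L.hiP (φ b) l) a (z t) =
          rho (L.loP (φ b) l) (L.hiP (φ b) l) a (z 0) := fun l =>
    (L.ins1P (φ b) l).lift0 (hpc l) (hpl l) (congrFun ePB l)
  choose z z1 z2 z3 z4 using key
  set y : ℝ → V := fun t l => z l t with hy
  have hyc : ContinuousOn y (Icc 0 1) := continuousOn_pi.2 fun l => z1 l
  have hyk : ∀ t ∈ Icc (0:ℝ) 1, prodK (L.kP (φ b)) (y t) = p t := fun t ht =>
    funext fun l => z3 l t ht
  have hyB : ∀ t ∈ Icc (0:ℝ) 1, y t ∈ HB G c d (φ b) := fun t ht =>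
    (kP_mem_HB L H.hc2 H.hd).1 (by rw [hyk t ht]; exact hpB ht)
  have hyΛ : ∀ t ∈ Icc (0:ℝ) 1, y t ∈ Λ := fun t ht => HB_sub H.hc H.hd _ (hyB t ht)
  set g : ℝ → V := fun t => f3.invFun (y t) with hg
  have hgc : ContinuousOn g (Icc 0 1) := f3.cont_inv.comp hyc (fun t ht => hyΛ t ht)
  have hgΩ : ∀ t ∈ Icc (0:ℝ) 1, g t ∈ Ω := fun t ht => f3.mapsTo_inv (hyΛ t ht)
  have hg3 : ∀ t ∈ Icc (0:ℝ) 1, f3.toFun (g t) = y t := fun t ht => f3.right_inv (hyΛ t ht)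
  have hg3' : ∀ t ∈ Icc (0:ℝ) 1, h3.toFun (g t) = y t := fun t ht => by
    rw [h33 _ (hgΩ t ht) (by rw [hg3 t ht]; exact hyB t ht), hg3 t ht]
  have hg4 : ∀ t ∈ Icc (0:ℝ) 1, h4.toFun (g t) = (T true).toFun ((T false).toFun (y t)) :=
    fun t ht => by rw [H.map _ (hgΩ t ht), hg3' t ht]
  have hg4B : ∀ t ∈ Icc (0:ℝ) 1, h4.toFun (g t) ∈ HB G c d (φ b) := fun t ht => by
    rw [hg4 t ht]
    exact (HP.mem _ (hyΛ t ht)).2 (hyB t ht)
  have hgU : MapsTo g (Icc 0 1) ((phook M L φ F c d Zb b).U h4) := fun t ht =>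
    (H.mem_U b (hgΩ t ht)).2 (hg4B t ht)
  have hy0 : y 0 = f3.toFun x := funext fun l => z2 l
  have hg0 : g 0 = x := by
    show f3.invFun (y 0) = x
    rw [hy0, f3.left_inv hx]
  -- the path meets no drawn cell
  have hoff : ∀ t ∈ Icc (0:ℝ) 1, ∀ q, g t ∉ interior (((H.hookIn b).boxK hΩ).K.C q) := by
    intro t ht q hq
    rw [show ((H.hookIn b).boxK hΩ).K.C q = M.Q q.1 from H.hookIn_C b q] at hq
    obtain ⟨A, hA, e1, e2, e3⟩ := hcell t ht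
    have h6 : y t ∈ f3.toFun '' A := by
      rw [e1]
      refine ⟨hyΛ t ht, ?_⟩
      show κ₁ (κ₀ (y t)) ∈ h2.toFun '' A
      rw [κ_eq_kP H.P.inj H.q₀ H.q₁ H.hc H.hc2 H.hd (hyB t ht), hyk t ht]
      exact e2
    obtain ⟨a, ha, hae⟩ := h6
    have h7 : a = g t := by
      show a = f3.invFun (y t)
      rw [← hae, f3.left_inv (hA ha)]
    rw [h7] at ha
    exact disjoint_left.1 (e3 q.1 q.2) ha hq
  -- the old levels
  have hold : ∀ t ∈ Icc (0:ℝ) 1, ∀ j : PI L (φ b),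
      plev L F φ b 1 h4.toFun j (g t) = plev L F φ b 1 h4.toFun j (g 0) := by
    intro t ht j
    have e : ∀ t ∈ Icc (0:ℝ) 1, plev L F φ b 1 h4.toFun j (g t) =
        2 * (rho (L.loP (φ b) (tg (φ b) j.1)) (L.hiP (φ b) (tg (φ b) j.1)) (L.a (φ b) j.1 j.2)
          (z (tg (φ b) j.1) t) / (L.hiP (φ b) (tg (φ b) j.1) (L.a (φ b) j.1 j.2) -
          L.loP (φ b) (tg (φ b) j.1) (L.a (φ b) j.1 j.2))) - 1 := by
      intro t ht
      refine (H.P.wlev_eq H.map H.hc H.hc2 H.hd (hgΩ t ht) (hg4B t ht) j).trans ?_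
      show clp 1 ((h3.toFun (g t) (tg (φ b) j.1) - L.a (φ b) j.1 j.2) / L.c (φ b) j.1) = _
      rw [hg3' t ht]
      refine clp_eq_rho (L.lvs (φ b) j.1).c0 ?_ ?_ _
      · unfold PLev.loP
        rw [bt_tg]
        rfl
      · unfold PLev.hiP
        rw [bt_tg]
        rfl
    have hL : L.a (φ b) j.1 j.2 ∈ L.lv (φ b) (tg (φ b) j.1) := by
      rw [PLev.lv_tg]
      exact (L.lvs (φ b) j.1).mem_L.2 ⟨j.2, j.2.2, rfl⟩
    rw [e t ht, e 0 h01, z4 _ _ hL t ht]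
  have hcl : ∀ t ∈ Icc (0:ℝ) 1, ∀ j : PI L (φ b),
      plev L F φ b (r b) h4.toFun j (g t) = plev L F φ b (r b) h4.toFun j (g 0) := by
    intro t ht j
    have e : ∀ w, plev L F φ b (r b) h4.toFun j w =
        clp (r b) (plev L F φ b 1 h4.toFun j w) := fun w =>
      (clp_clp r0.le r1.le _).symm
    rw [e, e, hold t ht j]
  have hnew := (O.loc b r0 r1).const_of_path hgc hgU hoff (fun t ht j => hold t ht j) i
  -- at the wall
  obtain ⟨gg, hgg, e1, -⟩ := O.sw b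
  have hend' : h4.toFun (g 1) (K.nrm (φ b)) = p 1 (K.nrm (φ b)) := by
    rw [hg4 1 h11, ← hyk 1 h11]
    refine (HP.apply (hyB 1 h11) _).trans ((H.P.sgP_nrm b _).trans ?_)
    show y 1 (K.nrm (φ b)) = L.kP (φ b) (K.nrm (φ b)) (y 1 (K.nrm (φ b)))
    rw [PLev.kP_nrm]
    rfl
  have hbd : g 1 ∈ ((H.hookIn b).boxK hΩ).Bd := by
    rw [((H.hookIn b).boxK hΩ).mem_Bd (hgU h11)]
    refine ⟨subset_closure (hg4B 1 h11), fun hint => ?_⟩
    have h8 : h4.toFun (g 1) ∈ interior (Icc (hlo G c d (φ b)) (hhi G c d (φ b))) := hint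
    rw [← Set.pi_univ_Icc, interior_pi_set (toFinite _)] at h8
    have h9 : h4.toFun (g 1) (K.nrm (φ b)) ∈ interior (Icc (hlo G c d (φ b) (K.nrm (φ b)))
      (hhi G c d (φ b) (K.nrm (φ b)))) := h8 (K.nrm (φ b)) (mem_univ _)
    rw [interior_Icc, hend'] at h9
    rcases hend with h | h
    · rw [h] at h9; exact lt_irrefl _ h9.1
    · rw [h] at h9; exact lt_irrefl _ h9.2
  have h5e : h5.toFun (g 1) = h4.toFun (g 1) := (e1 (hgU h11)).trans (hgg.bd hbd)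
  rw [hg0] at hnew
  have h12 : plev L F φ b (r b) h5.toFun i (g 1) = plev L F φ b (r b) h4.toFun i (g 1) :=
    congrArg (fun y : V => cl (r b) (pcen L (φ b)) (pwid L (fun β => (F β).e b) (φ b)) i
      (y (tg (φ b) i.1))) h5e
  exact hnew.symm.trans (h12.trans ((hcl 1 h11 i).trans (by rw [hg0])))

end P073.H919
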