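import Vale.Agent.P073.H805.AccZ2
import Vale.Agent.P073.H919.OscLev

/-!
# P073, block H805: the faces above the Z-wall, positions

`S4.high_face`: let `h1 '' F k` be above the Z-wall `|n| = τ / 4` at a side which is not protected;
then at every point `x` of the face with `h4 x` in the box of the hook the tangential positions
after the second staircases are near those of `h1` at a point of the face.
-/

open Set Metric Topology Filter
open scoped ENNReal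

set_option linter.unusedSectionVars false

namespace Vale.Agent.P073.H267.K3

open _root_.P073 _root_.P073.Net _root_.P073.PA691 _root_.P073.H236 _root_.P073.H579
open _root_.P073.H936 _root_.P073.H936.K3
open _root_.P073.H142
open _root_.P073.H345 (PK tg tg_ne PLev PK_unique PB_sub_PK)
open _root_.P073.H880.RP
open _root_.P073.H919 (HkG HkGF HkGO ZbP sfam HB plev hlo hhi mem_HB HB_PB HB_sub κ_mem_iff
  not_interior_of_cell)
open Vale.Agent.P073.St (V)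
open Vale.Agent.P073.H471 Vale.Agent.P073.H267
open Vale.Agent.P073.H73 (Mesh)
open Vale.Agent.P073.H193 (Edges Cyc edges)
open Vale.Agent.P073.H304 (Nb In Zmax)
open Vale.Agent.P073.H926
open Vale.Agent.P073.H238.K3
open Vale.Agent.P073.H341 (Abv Mg)
open Vale.Agent.P073.H805 (lvs)
open Vale.Agent.P073.H190.Tvp (wP)

variable {c₀ n δ : ℝ} {j : ℕ} {Ω Λ : Set V} {v w : V} {ρ : V → ℝ} {M : Mesh Ω} {h : ConHomeo Ω Λ}
  {J₀ J : Set (ℕ × (Fin 3 → ℤ))} {P Z : Set M.ι} {K : BoxCx Λ w}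
  {D : KIn3 c₀ n j δ v w ρ M h J₀ J P Z} {C : Cells ρ w K} {C₀ μT : ℝ}
  {X : S1 D C C₀ μT} {Y₂ : S2 X} {Ys : Set M.κ} {sc : Sharp} {Y₃ : S3 Y₂ Ys sc}

/-- **above the Z-wall the exchange keeps the labels** -/
theorem S2.lab_of_Abv (Y₂ : S2 X) {s : K.S} (hs : s ∈ (D.dat C).S₀) {z : V} (hz : z ∈ Ω)
    (hB : Y₂.h2.toFun z ∈ PK (D.G C) s) {β : Bool} (hsd : ¬ (D.dat C).sd s β)
    (hA : Abv K s β ((D.B C).τ s / 4) (X.h1.toFun z)) {l : Fin 3} (hl : l ≠ K.nrm s) {t : ℝ}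
    (ht : t ∈ Y₂.L.lv s l) :
    (Y₂.h2.toFun z l = t ↔ X.h1.toFun z l = t) ∧ (Y₂.h2.toFun z l < t ↔ X.h1.toFun z l < t) ∧
      (t < Y₂.h2.toFun z l ↔ t < X.h1.toFun z l) := by
  have e1 : lvs Y₂.L.lv s l = Y₂.L.lv s l := if_neg hl
  refine Y₂.ex.exZ.lev s hs z hz (fun hi => Or.inl ?_) (fun s' hs' hne hi => ?_) l t
    (by rw [e1]; exact ht)
  · have h3 : (D.dat C).ht s β = (D.B C).τ s / 2 := D.dat_ht_not C hsd
    refine ⟨interior_subset hi, ?_⟩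
    unfold Abv at hA
    cases β with
    | true =>
      left
      rw [if_pos rfl] at hA
      exact ⟨hsd, by rw [h3]; linarith⟩
    | false =>
      right
      rw [if_neg (by simp)] at hA
      exact ⟨hsd, by rw [h3]; linarith⟩
  · have h1 : Y₂.h2.toFun z ∈ (D.dat C).PE (D.G C) s' :=
      (Y₂.ex.ex.box s' hs' z hz).2 (interior_subset hi)
    exact hne (PK_unique (HB_PK (pe_HB hs' h1)) hB)

/-- **the sets above the Z-wall**, positions -/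
theorem S4.high_set (Y₄ : S4 Y₃) {s : K.S} (hs : s ∈ (D.dat C).S₀) (hQ : ∀ β, Y₂.Q s β = ∅)
    {A : Set V} (hA : A ⊆ Ω)
    (himg : Y₃.h3.toFun '' A = Pre (Y₃.κ true ∘ Y₃.κ false) Λ Y₂.h2 A) {β : Bool}
    (hsd : ¬ (D.dat C).sd s β) (hhi : ∀ z ∈ A, Abv K s β ((D.B C).τ s / 4) (X.h1.toFun z))
    {x : V} (hx : x ∈ A) (hB : Y₃.h4.toFun x ∈ HB (D.G C) (29 / 32) (3 / 4) s) :
    ∃ z ∈ A, Y₂.h2.toFun z = Y₃.κ true (Y₃.κ false (Y₃.h3.toFun x)) ∧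
      ∀ β, |wP (D.G C) s β (Y₄.f5.toFun x (tg s β)) -
        wP (D.G C) s β (X.h1.toFun z (tg s β))| ≤ 3 * Y₂.muP s := by
  refine Vale.Agent.P073.H919.K3.high_pos Y₄ hs hQ hA himg hx hB
    (fun i => Y₄.accZ (s := ⟨s, hs⟩) hA himg hx hB hsd hhi i) fun z hz hzx β' t ht => ?_
  obtain ⟨h3B, -, -⟩ := Vale.Agent.P073.H919.K3.h3_of_HB Y₃ hs (hA hx) hB
  have h2B : Y₂.h2.toFun z ∈ HB (D.G C) (29 / 32) (3 / 4) s := by
    rw [hzx]
    exact (κ_mem_iff (φ := (Subtype.val : (D.dat C).S₀ → K.S)) (b := ⟨s, hs⟩) Y₄.H.P.inj Y₄.H.q₀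
      Y₄.H.q₁ Y₄.H.hc Y₄.H.hc2 Y₄.H.hd).2 h3B
  exact (Y₂.lab_of_Abv hs (hA hz) (HB_PK h2B) hsd (hhi z hz) (tg_ne s β') ht).2.1

/-- **the faces above the Z-wall**, positions -/
theorem S4.high_face (Y₄ : S4 Y₃) {s : K.S} (hs : s ∈ (D.dat C).S₀) (hQ : ∀ β, Y₂.Q s β = ∅)
    {k : M.κ} {β : Bool} (hsd : ¬ (D.dat C).sd s β)
    (hhi : ∀ z ∈ M.F k, Abv K s β ((D.B C).τ s / 4) (X.h1.toFun z))
    {x : V} (hx : x ∈ M.F k) (hB : Y₃.h4.toFun x ∈ HB (D.G C) (29 / 32) (3 / 4) s) :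
    ∃ z ∈ M.F k, Y₂.h2.toFun z = Y₃.κ true (Y₃.κ false (Y₃.h3.toFun x)) ∧
      ∀ β, |wP (D.G C) s β (Y₄.f5.toFun x (tg s β)) -
        wP (D.G C) s β (X.h1.toFun z (tg s β))| ≤ 3 * Y₂.muP s :=
  Y₄.high_set hs hQ (Vale.Agent.P073.H193.mesh_sub M k) (Y₃.ins.out.img_face k) hsd hhi hx hB

end Vale.Agent.P073.H267.K3
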