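import Vale.Agent.P073.H805.TCirc
import Vale.Agent.P073.H579.Safe

/-!
# P073, H805: **StepP from (GEO)**
-/

set_option linter.unusedSectionVars false

open Set Metric Topology Filter

namespace P073.H805

open P073 P073.TR P073.H936 P073.H579

variable {E : Type*} [NormedAddCommGroup E] [NormedSpace ℝ E] {ι J : Type*} {D : Data E ι}
  {F : J → Face D} {u v : E → ℝ}

theorem sq_one {s : ℝ} (h : s = 1 ∨ s = -1) : s * s = 1 := by
  rcases h with h | h <;> rw [h] <;> norm_num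

/-- **the step from (GEO), bigons** -/
theorem step_of_geoB [Finite ι] [FiniteDimensional ℝ E] [Fintype J] (hD : D.Ok)
    (hS : State D u v) {j : J} {s t k l : ℝ} {N O : Set E} {fh : E → ℝ} {L : E →L[ℝ] ℝ}
    {c κ : ℝ} {X α β : Set E} {p q : E}
    (h : H341.GeoB F u v j s t k l N O fh L c κ X α β p q) :
    ∃ u' v', State D u' v' ∧ Rel D u v u' v' ∧ Less F u' v' u v ∧
      ∀ x ∉ N, u' x = u x ∧ v' x = v x := by
  have ss := sq_one h.hs
  have tt := sq_one h.ht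
  have hαX : α ⊆ X := subset_union_left.trans h.disc.1
  have hpαβ : p ∈ α ∩ β := by rw [h.hαβ]; exact Or.inl rfl
  have hpX : p ∈ X := hαX hpαβ.1
  have hpN : p ∈ N := interior_subset (h.XN hpX)
  have hpu : u p = k := (h.hα p hpX).1 hpαβ.1
  have hpv : v p = l := (h.hβ p hpX).1 hpαβ.2
  obtain ⟨z, hz, hzp⟩ := h.XC hpX
  have hpM : p ∈ D.M (F j).i₀ := hzp ▸ (F j).ch_mem (interior_subset hz)
  have hG : Geo D F u v s t k l N fh (L : E →ₗ[ℝ] ℝ) (-c) κ :=
    { ss := ss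
      tt := tt
      ha := h.hk
      hb := h.hl
      ex := h.ex
      NU := h.NU
      NB := h.NB
      levu := h.lu
      levv := h.lv
      good := fun i => (h.mesh i).imp id fun h1 => ⟨p, h1 hpM, h.NU hpN, hpu, hpv⟩
      goodF := h.faces
      pt := ⟨j, z, interior_subset hz, by rw [hzp]; exact hpN, by rw [hzp]; exact hpu, by
        rw [hzp]; exact hpv⟩ }
  have hPl : PlIn D.W N O D.M (aff s k u) (aff t l v) fh (L : E →ₗ[ℝ] ℝ) (-c) κ X := by
    refine ⟨h.ex, h.oO, fun x hx => ?_, h.fN, h.nor, fun x hx => ⟨(F j).i₀, ?_⟩, h.XO, h.XN,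
      h.disc.isCompact, fun x hx => ?_⟩
    · rw [h.fO x hx, sub_eq_add_neg]; rfl
    · filter_upwards [h.face x hx] with y hy
      rw [hy]
      show L y = c ↔ L y + -c = 0
      constructor <;> intro h1 <;> linarith
    · rw [h.hX x hx]
      show _ ↔ 0 ≤ s * (u x - k) ∧ 0 ≤ t * (v x - l) ∧ L x + -c = 0
      refine and_congr_right fun _ => and_congr_right fun _ => ?_
      constructor <;> intro h1 <;> linarith
  have z1 : (0:ℝ) ∈ affL s k D.a := zero_mem_affL h.hk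
  have z2 : (0:ℝ) ∈ affL t l D.b := zero_mem_affL h.hl
  refine hG.exists_step hD hS (hPl.newBalls hD h.pair
    (fun x hx h0 => reg_aff_u hD hS ss hx (by rw [h0]; exact z1))
    (fun x hx h0 => reg_aff_v hD hS tt hx (by rw [h0]; exact z2))
    (fun x hx h0 h1 => reg_aff_uv hD hS ss tt hx (by rw [h0]; exact z1) (by rw [h1]; exact z2))
    h.NU h.NB h.disc h.arcα h.arcβ h.hαβ (fun x hx => ?_) fun x hx => ?_)
  · rw [h.hα x hx, aff_eq_zero_iff ss]
  · rw [h.hβ x hx, aff_eq_zero_iff tt]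

/-- **the step from (GEO), circles of the first family** -/
theorem step_of_geoC [Finite ι] [FiniteDimensional ℝ E] [Fintype J] (hD : D.Ok)
    (hS : State D u v) {j : J} {s k : ℝ} {N O : Set E} {fh : E → ℝ} {L : E →L[ℝ] ℝ}
    {c κ : ℝ} {X : Set E} {σ : Set P} (h : H341.GeoC F u v j s k N O fh L c κ X σ) :
    ∃ u' v', State D u' v' ∧ Rel D u v u' v' ∧ Less F u' v' u v ∧
      ∀ x ∉ N, u' x = u x ∧ v' x = v x := by
  have ss := sq_one h.hs
  have hσX : (F j).ch '' σ ⊆ X := h.disc.1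
  have hne : σ.Nonempty := by
    obtain ⟨φ⟩ := h.circ
    exact ⟨φ.toFun (1, 0), φ.mapsTo (by simp [Prod.norm_def])⟩
  have hG : GeoC D F u s k N fh (L : E →ₗ[ℝ] ℝ) (-c) κ :=
    { ss := ss
      ha := h.hk
      ex := h.ci
      NU := h.NU
      NB := h.NB
      levu := h.lu
      good := fun i => (h.mesh i).imp id fun h1 => ⟨(F j).ch '' σ, h.circ', by
        rintro _ ⟨z, hz, rfl⟩
        have hzM := (F j).ch_mem (interior_subset (h.hσ hz))
        exact ⟨h1 hzM, (F j).subU hzM, (h.hu _ (hσX ⟨z, hz, rfl⟩)).1 ⟨z, hz, rfl⟩⟩⟩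
      goodF := h.faces
      pt := ⟨j, σ, h.circ, fun z hz => interior_subset (h.hσ hz), fun z hz =>
        ⟨interior_subset (h.XN (hσX ⟨z, hz, rfl⟩)), (h.hu _ (hσX ⟨z, hz, rfl⟩)).1 ⟨z, hz, rfl⟩⟩⟩ }
  have hPl : PlIn D.W N O D.M (aff s k u) (fun _ => 1) fh (L : E →ₗ[ℝ] ℝ) (-c) κ X := by
    refine ⟨h.ci.exIn, h.oO, fun x hx => ?_, h.fN, h.nor, fun x hx => ⟨(F j).i₀, ?_⟩, h.XO, h.XN,
      h.disc.isCompact, fun x hx => ?_⟩
    · rw [h.fO x hx, sub_eq_add_neg]; rfl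
    · filter_upwards [h.face x hx] with y hy
      rw [hy]
      show L y = c ↔ L y + -c = 0
      constructor <;> intro h1 <;> linarith
    · rw [h.hX x hx]
      show _ ↔ 0 ≤ s * (u x - k) ∧ (0:ℝ) ≤ 1 ∧ L x + -c = 0
      constructor
      · rintro ⟨h1, h2⟩; exact ⟨h1, zero_le_one, by linarith⟩
      · rintro ⟨h1, -, h2⟩; exact ⟨h1, by linarith⟩
  obtain ⟨u', h1, h2, h3, h4⟩ := hG.exists_step hD hS h.lv (hPl.newBallC h.one h.NU h.NB h.disc
    ((hne.image _).mono hσX) fun x hx => by rw [h.hu x hx, aff_eq_zero_iff ss])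
  exact ⟨u', v, h1, h2, h3, fun x hx => ⟨h4 x hx, rfl⟩⟩

/-- the output of (GEO) for a clean disc; `Y` is a closed set which is not touched -/
def GeoOut {D : Data E ι} (F : J → Face D) (Y : Set E) (u v : E → ℝ) (j : J) : Prop :=
  (∃ s t k l N O fh, ∃ L : E →L[ℝ] ℝ, ∃ c κ X α β p q,
    H341.GeoB F u v j s t k l N O fh L c κ X α β p q ∧ Disjoint N Y) ∨
  (∃ s k N O fh, ∃ L : E →L[ℝ] ℝ, ∃ c κ X σ, H341.GeoC F u v j s k N O fh L c κ X σ ∧
    Disjoint N Y) ∨
  (∃ s k N O fh, ∃ L : E →L[ℝ] ℝ, ∃ c κ X σ,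
    H341.GeoC (fun j => swapF (F j)) v u j s k N O fh L c κ X σ ∧ Disjoint N Y)

/-- **one step from (GEO)** -/
theorem step_of_geo [Finite ι] [FiniteDimensional ℝ E] [Fintype J] (hD : D.Ok)
    (hS : State D u v) {Y : Set E} {j : J} (h : GeoOut F Y u v j) :
    ∃ u' v', State D u' v' ∧ Rel D u v u' v' ∧ Less F u' v' u v ∧ EqOn u' u Y ∧ EqOn v' v Y := by
  rcases h with ⟨s, t, k, l, N, O, fh, L, c, κ, X, α, β, p, q, h, hN⟩ |
    ⟨s, k, N, O, fh, L, c, κ, X, σ, h, hN⟩ | ⟨s, k, N, O, fh, L, c, κ, X, σ, h, hN⟩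
  · obtain ⟨u', v', h1, h2, h3, h4⟩ := step_of_geoB hD hS h
    exact ⟨u', v', h1, h2, h3, fun x hx => (h4 x fun hxN => Set.disjoint_left.1 hN hxN hx).1,
      fun x hx => (h4 x fun hxN => Set.disjoint_left.1 hN hxN hx).2⟩
  · obtain ⟨u', v', h1, h2, h3, h4⟩ := step_of_geoC hD hS h
    exact ⟨u', v', h1, h2, h3, fun x hx => (h4 x fun hxN => Set.disjoint_left.1 hN hxN hx).1,
      fun x hx => (h4 x fun hxN => Set.disjoint_left.1 hN hxN hx).2⟩
  · obtain ⟨u', v', h1, h2, h3, h4⟩ :=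
      step_unswap hD (step_of_geoC (ok_swap hD) (state_swap hD hS) h)
    exact ⟨u', v', h1, h2, h3, fun x hx => (h4 x fun hxN => Set.disjoint_left.1 hN hxN hx).1,
      fun x hx => (h4 x fun hxN => Set.disjoint_left.1 hN hxN hx).2⟩

/-- **StepY from (GEO)** -/
theorem stepY_of_geo [Finite ι] [FiniteDimensional ℝ E] [Fintype J] (hD : D.Ok) {Y : Set E}
    (hgeo : ∀ u v, State D u v → Safe D u v Y → ∀ j K, CleanDisc (F j).C ((F j).tr u v) K →
      Disjoint (D.M (F j).i₀) Y → GeoOut F Y u v j) : StepY F Y :=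
  fun u v hS hY j K hK hd => step_of_geo hD hS (hgeo u v hS hY j K hK hd)

/-- **StepP from (GEO)** (with `Y = ∅`) -/
theorem stepP_of_geo [Finite ι] [FiniteDimensional ℝ E] [Fintype J] (hD : D.Ok)
    (hgeo : ∀ u v, State D u v → ∀ j K, CleanDisc (F j).C ((F j).tr u v) K →
      GeoOut F ∅ u v j) : StepP F := by
  intro u v hS j K hK
  obtain ⟨u', v', h1, h2, h3, -, -⟩ := step_of_geo hD hS (hgeo u v hS j K hK)
  exact ⟨u', v', h1, h2, h3⟩

end P073.H805
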