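import Vale.Agent.P073.H579.Safe
import Vale.Agent.P073.H579.StatePat
import Vale.Agent.P073.H579.BoxState
import Vale.Agent.P073.H212.Repl
import Vale.Agent.P073.H341.StepMain

/-!
# P073, H805: **[E3BOX]** (A14.13), the exchange process in the boxes of the plates

One box: `exists_e3`. A locally finite family of boxes with disjoint interiors: `exists_e3_all`.
-/

set_option linter.unusedSectionVars false

open Set Metric Topology Filter

namespace P073.H805

open P073 P073.TR P073.H579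

variable {E : Type*} [NormedAddCommGroup E] [NormedSpace ℝ E] {ι J : Type*} {Ω : Set E}
  {Λ : Set (Fin 3 → ℝ)}

/-- the same levels `A` and the same sides on `Y` -/
def SameLev (A : Finset ℝ) (Y : Set E) (w w' : E → ℝ) : Prop :=
  ∀ k ∈ A, ∀ x ∈ Y, (w x = k ↔ w' x = k) ∧ (w x < k ↔ w' x < k) ∧ (k < w x ↔ k < w' x)

theorem SameLev.symm {A : Finset ℝ} {Y : Set E} {w w' : E → ℝ} (h : SameLev A Y w w') :
    SameLev A Y w' w := fun k hk x hx =>
  ⟨(h k hk x hx).1.symm, (h k hk x hx).2.1.symm, (h k hk x hx).2.2.symm⟩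

theorem SameLev.trans {A : Finset ℝ} {Y : Set E} {w w' w'' : E → ℝ} (h : SameLev A Y w w')
    (h' : SameLev A Y w' w'') : SameLev A Y w w'' := fun k hk x hx =>
  ⟨(h k hk x hx).1.trans (h' k hk x hx).1, (h k hk x hx).2.1.trans (h' k hk x hx).2.1,
    (h k hk x hx).2.2.trans (h' k hk x hx).2.2⟩

theorem SameLev.mono {A : Finset ℝ} {Y Y' : Set E} {w w' : E → ℝ} (h : SameLev A Y w w')
    (hY : Y' ⊆ Y) : SameLev A Y' w w' := fun k hk x hx => h k hk x (hY hx)

theorem SameLev.of_eqOn {A : Finset ℝ} {Y : Set E} {w w' : E → ℝ} (h : EqOn w w' Y) :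
    SameLev A Y w w' := fun k _ x hx => by rw [h hx]; exact ⟨Iff.rfl, Iff.rfl, Iff.rfl⟩

theorem SameLev.mem {A : Finset ℝ} {Y : Set E} {w w' : E → ℝ} (h : SameLev A Y w w') {x : E}
    (hx : x ∈ Y) : w x ∈ A ↔ w' x ∈ A := by
  constructor
  · intro h1
    have := (h _ h1 x hx).1.1 rfl
    rw [this]; exact h1
  · intro h1
    have := (h _ h1 x hx).1.2 rfl
    rw [this]; exact h1

section rel

variable {D : Data E ι} {u v u' v' u'' v'' : E → ℝ}

theorem tu_congr (h : SameLev D.a D.U u'' u') (m : ι) : Tu D m u'' = Tu D m u' := by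
  ext x
  exact and_congr_right fun hx => h.mem hx.2

theorem tv_congr (h : SameLev D.b D.U v'' v') (m : ι) : Tv D m v'' = Tv D m v' := by
  ext x
  exact and_congr_right fun hx => h.mem hx.2

/-- `Rel` depends on the levels only -/
theorem rel_congr (h : Rel D u v u' v') (hu : SameLev D.a D.U u'' u')
    (hv : SameLev D.b D.U v'' v') : Rel D u v u'' v'' := by
  refine ⟨fun i => ?_, fun i => ?_, fun i => ?_⟩
  · unfold Off
    rw [tu_congr hu, tv_congr hv]
    exact h.off i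
  · rw [tu_congr hu, tv_congr hv]
    exact h.cnt i
  · unfold NoCirc
    rw [tu_congr hu, tv_congr hv]
    exact h.circ i

end rel

/-- the set `A` contains points on both sides of the level of `w`, arbitrarily near `x` -/
def Crosses (A : Set E) (w : E → ℝ) (x : E) : Prop :=
  x ∈ closure {y | y ∈ A ∧ w x < w y} ∧ x ∈ closure {y | y ∈ A ∧ w y < w x}

/-- crossing at a regular point, inside the ball -/
theorem crosses_of_box {w : E → ℝ} {M : ι → Set E} {x : E} {σ : ℝ →ₗ[ℝ] E} {r : ℝ}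
    (hb : FlowBox w M x σ r) {m n : ι} (hm : x ∈ M m) (hn : x ∈ M n) :
    Crosses (M m ∩ M n) w x := by
  constructor
  · obtain ⟨h1, h2⟩ := FlowBox.tendsto hb (1:ℝ)
    apply mem_closure_of_tendsto h1
    filter_upwards [h2, self_mem_nhdsWithin] with t ht ht0
    refine ⟨⟨(ht.2 m).2 hm, (ht.2 n).2 hn⟩, ?_⟩
    rw [ht.1, smul_eq_mul, mul_one]
    have : (0:ℝ) < t := ht0
    linarith
  · obtain ⟨h1, h2⟩ := FlowBox.tendsto hb (-1:ℝ)
    apply mem_closure_of_tendsto h1
    filter_upwards [h2, self_mem_nhdsWithin] with t ht ht0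
    refine ⟨⟨(ht.2 m).2 hm, (ht.2 n).2 hn⟩, ?_⟩
    rw [ht.1, smul_eq_mul, mul_neg_one]
    have : (0:ℝ) < t := ht0
    linarith

theorem Crosses.congr {A : Set E} {w w' : E → ℝ} {x : E} (h : Crosses A w x)
    (h1 : ∀ y ∈ A, w x < w y → w' x < w' y) (h2 : ∀ y ∈ A, w y < w x → w' y < w' x) :
    Crosses A w' x :=
  ⟨closure_mono (fun y (hy : y ∈ A ∧ w x < w y) => (⟨hy.1, h1 y hy.1 hy.2⟩ : _ ∧ _)) h.1,
    closure_mono (fun y (hy : y ∈ A ∧ w y < w x) => (⟨hy.1, h2 y hy.1 hy.2⟩ : _ ∧ _)) h.2⟩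

theorem Crosses.mono {A A' : Set E} {w : E → ℝ} {x : E} (h : Crosses A w x) (hA : A ⊆ A') :
    Crosses A' w x :=
  ⟨closure_mono (fun y (hy : y ∈ A ∧ w x < w y) => (⟨hA hy.1, hy.2⟩ : _ ∧ _)) h.1,
    closure_mono (fun y (hy : y ∈ A ∧ w y < w x) => (⟨hA hy.1, hy.2⟩ : _ ∧ _)) h.2⟩

/-- **regular functions with the levels of the new map** `g` (the final state) -/
structure StateOut (h : ConHomeo Ω Λ) (M : ι → Set E) (lo hi : Fin 3 → ℝ) (i j : Fin 3)
    (a b : Finset ℝ) (g : E → Fin 3 → ℝ) (u v : E → ℝ) : Prop where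
  conu : ConicalOn u Ω
  contu : ContinuousOn u Ω
  conv : ConicalOn v Ω
  contv : ContinuousOn v Ω
  su : SameLev a (h.invFun '' Icc lo hi) (fun x => g x i) u
  sv : SameLev b (h.invFun '' Icc lo hi) (fun x => g x j) v
  off : ∃ K, IsCompact K ∧ K ⊆ h.invFun '' Icc lo hi \ h.invFun '' frontier (Icc lo hi) ∧
    ∀ x ∉ K, u x = h.toFun x i ∧ v x = h.toFun x j
  regu : ∀ x ∈ h.invFun '' Icc lo hi, u x ∈ a → ∃ (σ : ℝ →ₗ[ℝ] E) (r : ℝ), FlowBox u M x σ r
  regv : ∀ x ∈ h.invFun '' Icc lo hi, v x ∈ b → ∃ (σ : ℝ →ₗ[ℝ] E) (r : ℝ), FlowBox v M x σ r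
  reguv : ∀ x ∈ h.invFun '' Icc lo hi, u x ∈ a → v x ∈ b →
    ∃ (σ : ℝ × ℝ →ₗ[ℝ] E) (r : ℝ), FlowBox (fun y => (u y, v y)) M x σ r

/-- **output of the exchange process in one box**: `g` is the new map on `h⁻¹ (Icc lo hi)`; `F` are
the faces inside the box, `Y` is the untouched set -/
structure E3Out (h : ConHomeo Ω Λ) (M : ι → Set E) (lo hi : Fin 3 → ℝ) (i j : Fin 3)
    (a b : Finset ℝ) (F : J → Face (boxData h M lo hi i j a b)) (Y : Set E)
    (g : E → Fin 3 → ℝ) : Prop where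
  rel : Rel (boxData h M lo hi i j a b) (fun x => h.toFun x i) (fun x => h.toFun x j)
    (fun x => g x i) (fun x => g x j)
  pat : ∀ k, ∃ (A : Type) (_ : Finite A) (S : A → Set E) (cd : A → Bool) (lev : A → ℝ),
    FacePat (M (F k).i₀) (F k).bd (pr2 (fun x => g x i) (fun x => g x j))
      (lv2 (boxData h M lo hi i j a b)) S cd lev cd
  levi : SameLev a Y (fun x => g x i) (fun x => h.toFun x i)
  levj : SameLev b Y (fun x => g x j) (fun x => h.toFun x j)
  crossi : ∀ m, ∀ x ∈ M m, x ∈ h.invFun '' Icc lo hi → g x i ∈ a →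
    Crosses (M m ∩ h.invFun '' Icc lo hi) (fun y => g y i) x
  crossj : ∀ m, ∀ x ∈ M m, x ∈ h.invFun '' Icc lo hi → g x j ∈ b →
    Crosses (M m ∩ h.invFun '' Icc lo hi) (fun y => g y j) x
  state : ∃ u v : E → ℝ, StateOut h M lo hi i j a b g u v

theorem E3Out.congr {h : ConHomeo Ω Λ} {M : ι → Set E} {lo hi : Fin 3 → ℝ} {i j : Fin 3}
    {a b : Finset ℝ} {F : J → Face (boxData h M lo hi i j a b)} {Y : Set E}
    {g g' : E → Fin 3 → ℝ} (H : E3Out h M lo hi i j a b F Y g)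
    (hY : Y ⊆ h.invFun '' Icc lo hi) (hg : EqOn g' g (h.invFun '' Icc lo hi)) :
    E3Out h M lo hi i j a b F Y g' where
  rel := rel_congr H.rel (SameLev.of_eqOn fun x hx => by simp only [hg hx])
    (SameLev.of_eqOn fun x hx => by simp only [hg hx])
  pat := fun k => by
    obtain ⟨A, hA, S, cd, lev, hP⟩ := H.pat k
    refine ⟨A, hA, S, cd, lev, hP.congr fun β l hl x hx => ?_⟩
    have hx' : x ∈ h.invFun '' Icc lo hi := (F k).subU hx
    cases β
    · show (g' x i = l ↔ g x i = l) ∧ (g' x i < l ↔ g x i < l) ∧ (l < g' x i ↔ l < g x i)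
      rw [hg hx']; exact ⟨Iff.rfl, Iff.rfl, Iff.rfl⟩
    · show (g' x j = l ↔ g x j = l) ∧ (g' x j < l ↔ g x j < l) ∧ (l < g' x j ↔ l < g x j)
      rw [hg hx']; exact ⟨Iff.rfl, Iff.rfl, Iff.rfl⟩
  levi := (SameLev.of_eqOn fun x hx => by simp only [hg (hY hx)]).trans H.levi
  levj := (SameLev.of_eqOn fun x hx => by simp only [hg (hY hx)]).trans H.levj
  crossi := fun m x hx hxU hxa => by
    rw [hg hxU] at hxa
    refine (H.crossi m x hx hxU hxa).congr (fun y hy h1 => ?_) (fun y hy h1 => ?_)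
    · simp only [hg hxU, hg hy.2]; exact h1
    · simp only [hg hxU, hg hy.2]; exact h1
  crossj := fun m x hx hxU hxa => by
    rw [hg hxU] at hxa
    refine (H.crossj m x hx hxU hxa).congr (fun y hy h1 => ?_) (fun y hy h1 => ?_)
    · simp only [hg hxU, hg hy.2]; exact h1
    · simp only [hg hxU, hg hy.2]; exact h1
  state := by
    obtain ⟨u, v, Q⟩ := H.state
    exact ⟨u, v, Q.conu, Q.contu, Q.conv, Q.contv,
      (SameLev.of_eqOn fun x hx => by simp only [hg hx]).trans Q.su,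
      (SameLev.of_eqOn fun x hx => by simp only [hg hx]).trans Q.sv, Q.off, Q.regu, Q.regv,
      Q.reguv⟩

/-- **[E3BOX], one box** -/
theorem exists_e3 [Fintype J] {h : ConHomeo Ω Λ} {M : ι → Set E} {lo hi : Fin 3 → ℝ}
    {i j : Fin 3} {a b : Finset ℝ} (H : BoxOk h M lo hi i j a b)
    (F : J → Face (boxData h M lo hi i j a b))
    (hball : ∀ k, ConBall 2 (M (F k).i₀) (F k).bd) {Y : Set E}
    (hstep : StepY F Y)
    (hY : Safe (boxData h M lo hi i j a b) (fun x => h.toFun x i) (fun x => h.toFun x j) Y)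
    (hF : ∀ k, ¬ Disjoint (M (F k).i₀) Y →
      Off (boxData h M lo hi i j a b) (F k).i₀ (fun x => h.toFun x i) (fun x => h.toFun x j) ∧
      NoCirc (boxData h M lo hi i j a b) (F k).i₀ (fun x => h.toFun x i)
        (fun x => h.toFun x j)) :
    ∃ g : ConHomeo (h.invFun '' Icc lo hi) (Icc lo hi),
      EqOn g.toFun h.toFun (h.invFun '' frontier (Icc lo hi)) ∧
      E3Out h M lo hi i j a b F Y g.toFun := by
  obtain ⟨u, v, hs, hr, hgood, hu, hv⟩ := exists_good_safe H.ok F hstep H.init hY hF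
  obtain ⟨g, hgB, hgu, hgv⟩ := H.final hs
  have su : SameLev a (h.invFun '' Icc lo hi) (fun x => g.toFun x i) u := fun k hk x hx =>
    hgu k hk x hx
  have sv : SameLev b (h.invFun '' Icc lo hi) (fun x => g.toFun x j) v := fun k hk x hx =>
    hgv k hk x hx
  obtain ⟨n, hn⟩ := H.iU
  refine ⟨g, hgB, rel_congr hr su sv, fun k => ?_, ?_, ?_, fun m x hx hxU hxa => ?_,
    fun m x hx hxU hxa => ?_, u, v, hs.conu, hs.contu, hs.conv, hs.contv, su, sv, hs.off, hs.regu,
    hs.regv, hs.reguv⟩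
  · obtain ⟨A, hA, S, cd, lev, hP⟩ := hs.facePat H.ok (F k) (hgood k) (hball k)
    refine ⟨A, hA, S, cd, lev, hP.congr fun β l hl x hx => ?_⟩
    have hx' : x ∈ h.invFun '' Icc lo hi := (F k).subU hx
    cases β
    · exact su l hl x hx'
    · exact sv l hl x hx'
  · exact (su.mono hY.sub).trans (SameLev.of_eqOn hu)
  · exact (sv.mono hY.sub).trans (SameLev.of_eqOn hv)
  · have e1 := (su _ hxa x hxU).1.1 rfl
    obtain ⟨σ, r, hb⟩ := hs.regu x hxU (by rw [e1]; exact hxa)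
    have h1 := crosses_of_box hb (m := m) (n := n) hx (by rw [show (boxData h M lo hi i j a b).M n = _ from hn]; exact hxU)
    have h2 : (boxData h M lo hi i j a b).M n = h.invFun '' Icc lo hi := hn
    rw [h2] at h1
    refine h1.congr (fun y hy h3 => ?_) (fun y hy h3 => ?_)
    · rw [e1] at h3
      exact (su _ hxa y hy.2).2.2.2 h3
    · rw [e1] at h3
      exact (su _ hxa y hy.2).2.1.2 h3
  · have e1 := (sv _ hxa x hxU).1.1 rfl
    obtain ⟨σ, r, hb⟩ := hs.regv x hxU (by rw [e1]; exact hxa)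
    have h1 := crosses_of_box hb (m := m) (n := n) hx (by rw [show (boxData h M lo hi i j a b).M n = _ from hn]; exact hxU)
    have h2 : (boxData h M lo hi i j a b).M n = h.invFun '' Icc lo hi := hn
    rw [h2] at h1
    refine h1.congr (fun y hy h3 => ?_) (fun y hy h3 => ?_)
    · rw [e1] at h3
      exact (sv _ hxa y hy.2).2.2.2 h3
    · rw [e1] at h3
      exact (sv _ hxa y hy.2).2.1.2 h3

/-- the data of one box of the family -/
structure EBox (h : ConHomeo Ω Λ) where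
  ι : Type
  J : Type
  [fin : Finite ι]
  [fint : Fintype J]
  M : ι → Set E
  lo : Fin 3 → ℝ
  hi : Fin 3 → ℝ
  i : Fin 3
  j : Fin 3
  a : Finset ℝ
  b : Finset ℝ
  F : J → Face (boxData h M lo hi i j a b)
  Y : Set E

attribute [instance] EBox.fin EBox.fint

namespace EBox

variable {h : ConHomeo Ω Λ} (X : EBox (E := E) h)

/-- the ball of the box -/
def U : Set E := h.invFun '' Icc X.lo X.hi

/-- the data of the exchange process -/
def D : Data E X.ι := boxData h X.M X.lo X.hi X.i X.j X.a X.b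

/-- the hypotheses for one box -/
structure Ok : Prop where
  ok : BoxOk h X.M X.lo X.hi X.i X.j X.a X.b
  ball : ∀ k, ConBall 2 (X.M (X.F k).i₀) (X.F k).bd
  mesh : H341.MeshOk X.F
  safe : Safe X.D (fun x => h.toFun x X.i) (fun x => h.toFun x X.j) X.Y
  touch : ∀ k, ¬ Disjoint (X.M (X.F k).i₀) X.Y →
    Off X.D (X.F k).i₀ (fun x => h.toFun x X.i) (fun x => h.toFun x X.j) ∧
    NoCirc X.D (X.F k).i₀ (fun x => h.toFun x X.i) (fun x => h.toFun x X.j)

/-- the output for one box -/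
def Out (g : E → Fin 3 → ℝ) : Prop := E3Out h X.M X.lo X.hi X.i X.j X.a X.b X.F X.Y g

end EBox

/-- **[E3BOX], all boxes at once** -/
theorem exists_e3_all [FiniteDimensional ℝ E] (h3 : Module.finrank ℝ E = 3) (hΩ : IsOpen Ω) (hΛ : IsOpen Λ) (h : ConHomeo Ω Λ) {γ : Type*}
    (X : γ → EBox (E := E) h) (hX : ∀ c, (X c).Ok)
    (hfin : ∀ y ∈ Λ, ∃ O ∈ 𝓝 y, {c | (Icc (X c).lo (X c).hi ∩ O).Nonempty}.Finite)
    (hdis : ∀ c d, c ≠ d → Disjoint (interior (Icc (X c).lo (X c).hi)) (Icc (X d).lo (X d).hi)) :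
    ∃ h' : ConHomeo Ω Λ, (∀ c, (X c).Out h'.toFun) ∧
      (∀ c, h'.toFun '' (X c).U = Icc (X c).lo (X c).hi) ∧
      (∀ c, ∀ x ∈ Ω, h'.toFun x ∈ Icc (X c).lo (X c).hi ↔ h.toFun x ∈ Icc (X c).lo (X c).hi) ∧
      (∀ x ∈ Ω, (∀ c, h.toFun x ∉ interior (Icc (X c).lo (X c).hi)) → h'.toFun x = h.toFun x) := by
  choose g hgB hgO using fun c => exists_e3 (hX c).ok (X c).F (hX c).ball
    (H341.stepY h3 (hX c).ok.ok (X c).F (hX c).mesh (X c).Y) (hX c).safe (hX c).touch
  have himg : ∀ c, h.toFun '' (X c).U = Icc (X c).lo (X c).hi := by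
    intro c
    apply Subset.antisymm
    · rintro _ ⟨x, hx, rfl⟩
      exact ((hX c).ok.mem_U hx).2
    · intro y hy
      exact ⟨h.invFun y, ⟨y, hy, rfl⟩, h.right_inv ((hX c).ok.sub hy)⟩
  have hUΩ : ∀ c, (X c).U ⊆ Ω := fun c x hx => ((hX c).ok.mem_U hx).1
  have memU : ∀ c, ∀ x ∈ Ω, (x ∈ (X c).U ↔ h.toFun x ∈ Icc (X c).lo (X c).hi) := by
    intro c x hx
    constructor
    · exact fun h1 => ((hX c).ok.mem_U h1).2
    · exact fun h1 => ⟨h.toFun x, h1, h.left_inv hx⟩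
  have hint : ∀ c, ∀ x ∈ (X c).U, (x ∈ interior (X c).U ↔
      h.toFun x ∈ interior (Icc (X c).lo (X c).hi)) := by
    intro c x hx
    have hxΩ := hUΩ c hx
    rw [mem_interior_iff_mem_nhds, mem_interior_iff_mem_nhds]
    constructor
    · intro h1
      -- the inverse is continuous
      have h2 : ContinuousAt h.invFun (h.toFun x) :=
        h.cont_inv.continuousAt (hΛ.mem_nhds (h.mapsTo hxΩ))
      have h3 : h.invFun ⁻¹' (X c).U ∈ 𝓝 (h.toFun x) := by
        apply h2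
        rw [h.left_inv hxΩ]; exact h1
      filter_upwards [h3, hΛ.mem_nhds (h.mapsTo hxΩ)] with y hy hyΛ
      have := (memU c _ (h.mapsTo_inv hyΛ)).1 hy
      rwa [h.right_inv hyΛ] at this
    · intro h1
      have h2 : ContinuousAt h.toFun x := h.cont.continuousAt (hΩ.mem_nhds hxΩ)
      filter_upwards [h2 h1, hΩ.mem_nhds hxΩ] with y hy hyΩ
      exact (memU c y hyΩ).2 hy
  obtain ⟨h', h1, h2, h3, h4⟩ := H212.exists_replace hΩ hΛ h (U := fun c => (X c).U)
    (fun c => (hX c).ok.ok.ball.isCompact) hUΩ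
    (fun c => by
      intro x
      by_cases hx : x ∈ Ω
      · obtain ⟨m, hm⟩ := (hX c).ok.iU
        have := (hX c).ok.cone m x hx
        rw [hm] at this; exact this
      · exact locConeAt_of_compl_mem_nhds
          ((hX c).ok.ok.ball.isClosed.isOpen_compl.mem_nhds fun h1 => hx (hUΩ c h1)))
    (fun z hz => by
      obtain ⟨O, hO, hf⟩ := hfin (h.toFun z) (h.mapsTo hz)
      have h2 : ContinuousAt h.toFun z := h.cont.continuousAt (hΩ.mem_nhds hz)
      refine ⟨h.toFun ⁻¹' O ∩ Ω, inter_mem (h2 hO) (hΩ.mem_nhds hz), hf.subset ?_⟩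
      rintro c ⟨x, hx, hxO, hxΩ⟩
      exact ⟨h.toFun x, (memU c x hxΩ).1 hx, hxO⟩)
    (fun c d hcd => by
      rw [Set.disjoint_left]
      intro x hx hxd
      have hxU := interior_subset hx
      exact Set.disjoint_left.1 (hdis c d hcd) ((hint c x hxU).1 hx)
        ((memU d x (hUΩ c hxU)).1 hxd))
    (fun c => (g c).cast (X' := (X c).U) rfl (himg c).symm)
    (fun c x hx => by
      show (g c).toFun x = h.toFun x
      have hxU : x ∈ (X c).U := (hX c).ok.ok.ball.isClosed.frontier_subset hx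
      refine hgB c ⟨h.toFun x, ?_, h.left_inv (hUΩ c hxU)⟩
      rw [isClosed_Icc.frontier_eq]
      refine ⟨(memU c x (hUΩ c hxU)).1 hxU, fun h1 => ?_⟩
      exact hx.2 ((hint c x hxU).2 h1))
  have hEq : ∀ c, EqOn h'.toFun (g c).toFun (X c).U := h1
  have hU' : ∀ c, h'.toFun '' (X c).U = Icc (X c).lo (X c).hi := by
    intro c
    rw [(hEq c).image_eq]
    exact (g c).image_eq
  refine ⟨h', fun c => (hgO c).congr (hX c).safe.sub (hEq c), hU', fun c x hx => ?_,
    fun x hx hxc => ?_⟩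
  · rw [← memU c x hx, ← hU' c]
    constructor
    · rintro ⟨z, hz, hzx⟩
      rwa [← h'.injOn (hUΩ c hz) hx hzx]
    · exact fun h1 => ⟨x, h1, rfl⟩
  · refine h3 ⟨hx, ?_⟩
    rw [mem_iUnion]
    rintro ⟨c, hc⟩
    exact hxc c ((hint c x (interior_subset hc)).1 hc)

end P073.H805
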