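import Vale.Agent.P073.H805.ExchB

/-!
# P073, H805: removal of a clean circle, regularity of the new function
-/

set_option linter.unusedSectionVars false

open Set Metric Topology Filter

namespace P073.H805

open P073 P073.TR

variable {E : Type*} [NormedAddCommGroup E] [NormedSpace ℝ E] {ι : Type*}

/-- input of the removal of a circle: only the function `u`; `w` is the function of the other
family, which has no level on `N` -/
structure CiIn (W N : Set E) (F : ι → Set E) (u fh : E → ℝ) (L : E →ₗ[ℝ] ℝ) (c₀ c : ℝ) :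
    Prop where
  oW : IsOpen W
  cN : IsCompact N
  NW : N ⊆ W
  ucon : ConicalOn u W
  ucont : ContinuousOn u W
  fcon : ConicalOn fh (interior N)
  fcont : ContinuousOn fh N
  cpos : 0 < c
  floc : ∀ x ∈ interior N, fh x < c → fh =ᶠ[𝓝 x] fun y => L y + c₀
  hZ : ∀ x ∈ N, 0 ≤ u x → 0 ≤ fh x → x ∈ interior N
  hF : ∀ i, ∀ x ∈ W, LocConeAt (F i) x
  ru : ∀ x ∈ N, u x = 0 → Reg u F x

theorem CiIn.exIn {W N : Set E} {F : ι → Set E} {u fh : E → ℝ} {L : E →ₗ[ℝ] ℝ} {c₀ c : ℝ}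
    (h : CiIn W N F u fh L c₀ c) : ExIn W N F u (fun _ => 1) fh L c₀ c where
  oW := h.oW
  cN := h.cN
  NW := h.NW
  ucon := h.ucon
  ucont := h.ucont
  vcon := conicalOn_const 1 h.ucon.conicalSet
  vcont := continuousOn_const
  fcon := h.fcon
  fcont := h.fcont
  cpos := h.cpos
  floc := h.floc
  hZ := fun x hx h1 _ h3 => h.hZ x hx h1 h3
  hF := h.hF
  ru := h.ru
  rv := fun x _ h1 => absurd h1 one_ne_zero
  ruv := fun x _ _ h1 => absurd h1 one_ne_zero

/-- the function for the removal of a circle -/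
noncomputable def ciU (N : Set E) (η M δ : ℝ) (u f : E → ℝ) : E → ℝ :=
  exU N η η 0 M δ u (fun _ => 1) f

theorem ciU_of_mem {N : Set E} {η M δ : ℝ} {u f : E → ℝ} {x : E} (hx : x ∈ N) :
    ciU N η M δ u f x = min (u x) (max (-η) (-(M * (f x + δ)))) := by
  unfold ciU
  rw [exU_of_mem hx]
  unfold xf
  rw [← max_assoc]
  congr 2
  apply max_eq_left
  linarith

theorem ciU_of_notMem {N : Set E} {η M δ : ℝ} {u f : E → ℝ} {x : E} (hx : x ∉ N) :
    ciU N η M δ u f x = u x := exU_of_notMem hx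

/-- the value does not depend on the dummy parameters -/
theorem exU_const_eq {N : Set E} {η K ε M δ : ℝ} {u f : E → ℝ} (h : η ≤ K * (1 + ε)) :
    exU N η K ε M δ u (fun _ => 1) f = ciU N η M δ u f := by
  funext x
  by_cases hx : x ∈ N
  · rw [exU_of_mem hx, ciU_of_mem hx]
    unfold xf
    rw [← max_assoc]
    congr 2
    apply max_eq_left
    linarith
  · rw [exU_of_notMem hx, ciU_of_notMem hx]

/-- the zeros of the new function -/
theorem ciU_eq_zero_iff {η M δ a c : ℝ} (hη : 0 < η) (hM : 0 < M) :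
    min a (max (-η) (-(M * (c + δ)))) = 0 ↔ (a = 0 ∧ c ≤ -δ) ∨ (0 ≤ a ∧ c = -δ) := by
  have h := xf_eq_zero_iff (η := η) (K := η) (ε := 0) (M := M) (δ := δ) (a := a) (b := 1) (c := c)
    hη hη hM
  have he : xf η η 0 M δ a 1 c = min a (max (-η) (-(M * (c + δ)))) := by
    unfold xf
    rw [← max_assoc]
    congr 2
    apply max_eq_left
    linarith
  rw [he] at h
  rw [h]
  constructor
  · rintro (⟨h1, h2 | h2⟩ | ⟨h1, h2, h3⟩ | ⟨h1, h2, h3⟩)
    · norm_num at h2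
    · exact Or.inl ⟨h1, h2⟩
    · norm_num at h2
    · exact Or.inr ⟨h1, h3⟩
  · rintro (⟨h1, h2⟩ | ⟨h1, h2⟩)
    · exact Or.inl ⟨h1, Or.inr h2⟩
    · exact Or.inr (Or.inr ⟨h1, by norm_num, h2⟩)

namespace CiIn

variable {W N : Set E} {F : ι → Set E} {u fh : E → ℝ} {L : E →ₗ[ℝ] ℝ} {c₀ c : ℝ}

/-- the core for circles -/
theorem mem_core_iff {θ : ℝ} (hθ : 0 < θ) {x : E} :
    x ∈ core N u (fun _ => 1) fh θ ↔ x ∈ N ∧ -θ ≤ u x ∧ -θ ≤ fh x := by
  simp only [core, mem_ofPred_eq]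
  constructor
  · rintro ⟨h1, h2, -, h3⟩; exact ⟨h1, h2, h3⟩
  · rintro ⟨h1, h2, h3⟩; exact ⟨h1, h2, by linarith, h3⟩

/-- **(R), removal of a circle**: `w` is the function of the other family (levels `A'`), without
levels on `N` -/
theorem exists_remove [Finite ι] [FiniteDimensional ℝ E] (h : CiIn W N F u fh L c₀ c) :
    ∃ θ > 0, θ < c ∧ core N u (fun _ => 1) fh θ ⊆ interior N ∧ ∃ B > 0, (∀ x ∈ N, u x ≤ B) ∧
    ∃ D : Set ℝ, D.Countable ∧ ∀ δ, 0 < δ → 4 * δ ≤ θ → δ ∉ D →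
      ∀ η M, 0 < η → η ≤ θ → 0 < M → 2 * B / θ ≤ M →
      ∀ u' : E → ℝ, u' = ciU N η M δ u fh →
      (ConicalOn u' W ∧ ContinuousOn u' W) ∧
      (∀ x, x ∉ core N u (fun _ => 1) fh θ → u' =ᶠ[𝓝 x] u) ∧
      (∀ x ∈ core N u (fun _ => 1) fh θ, u' x = 0 → Reg u' F x) ∧
      (∀ (w : E → ℝ) (V : Set E) (A A' : Set ℝ),
        (∀ x ∈ N, ∀ a ∈ A, (0 < a → u x < a) ∧ (a < 0 → a < u x)) → (∀ x ∈ N, w x ∉ A') →
        (∀ a ∈ A, a < 0 → η < -a) → (∀ x ∈ V, u x ∈ A → Reg u F x) →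
        (∀ x ∈ V, u x ∈ A → w x ∈ A' → Reg (fun y => (u y, w y)) F x) →
        (∀ x ∈ V, u' x ∈ A → Reg u' F x) ∧
        (∀ x ∈ V, u' x ∈ A → w x ∈ A' → Reg (fun y => (u' y, w y)) F x)) := by
  obtain ⟨θ, hθ, hθc, hcore, B, hB, hBN, D, hD, ε₁, hε₁, H⟩ := h.exIn.exists_exchange
  refine ⟨θ, hθ, hθc, hcore, B, hB, fun x hx => (hBN x hx).1, D, hD,
    fun δ hδ hδθ hδD η M hη hηθ hM hMB u' hu' => ?_⟩
  obtain ⟨ε₀, hε₀, H⟩ := H δ hδ hδθ hδD
  -- dummy parameters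
  set ε := min (min ε₀ ε₁) (θ / 2) with hε
  have hε0 : 0 < ε := lt_min (lt_min hε₀ hε₁) (by linarith)
  set K := max (2 * B / θ) η with hK
  have hK0 : 0 < K := lt_of_lt_of_le hη (le_max_right _ _)
  have hb : B / (2 * B / θ) = θ / 2 := by field_simp
  have hdiv : ∀ {t : ℝ}, 2 * B / θ ≤ t → B / t ≤ θ / 2 := fun {t} ht => by
    rw [← hb]
    exact div_le_div_of_nonneg_left hB.le (by positivity) ht
  have hp : Pars θ B η K ε M δ := ⟨hη, hηθ, hK0, hM, hε0, hδ, by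
    have := hdiv (le_max_left (2 * B / θ) η)
    have h2 : ε ≤ θ / 2 := min_le_right _ _
    linarith, by
    have := hdiv hMB
    linarith⟩
  have hηK : η ≤ K * (1 + ε) := by
    have h1 : η ≤ K := le_max_right _ _
    nlinarith
  obtain ⟨⟨a1, a2, -, -⟩, a3, a4, a5⟩ := H ε hε0 ((min_le_left _ _).trans (min_le_left _ _))
    ((min_le_left _ _).trans (min_le_right _ _)) η K M hp u' _
    (by rw [hu', exU_const_eq hηK]) rfl
  have a3' : ∀ x, x ∉ core N u (fun _ => 1) fh θ → u' =ᶠ[𝓝 x] u := fun x hx => (a3 x hx).1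
  refine ⟨⟨a1, a2⟩, a3', fun x hx => (a4 x hx).1, ?_⟩
  intro w V A A' hA hw hη hru hruw
  obtain ⟨b1, -, -⟩ := a5 V A ∅ hA (fun _ _ a ha => absurd ha (notMem_empty a))
    (fun a ha => by
      rcases ha with ha | ha
      · exact hη a ha
      · exact absurd ha (notMem_empty a)) hru (fun x _ hx => absurd hx (notMem_empty _))
    (fun x _ _ hx => absurd hx (notMem_empty _))
  refine ⟨b1, fun x hx hxa hxw => ?_⟩
  have hxc : x ∉ core N u (fun _ => 1) fh θ := fun hc => hw x hc.1 hxw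
  have e1 := a3' x hxc
  refine (hruw x hx (by rw [← e1.self_of_nhds]; exact hxa) hxw).congr_fun ?_
  filter_upwards [e1] with y hy
  rw [hy]

end CiIn

end P073.H805
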