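import Vale.Agent.P073.H805.ParStep

/-!
# P073, H805: **(PAR)**, a bigon in a plane persists in the parallel planes
-/

set_option linter.unusedSectionVars false

open Set Metric Topology Filter

namespace P073.H805

open P073 P073.TR P073.H936

variable {E : Type*} [NormedAddCommGroup E] [NormedSpace ℝ E] {ι : Type*}

/-- the region in the plane at depth `c₃` -/
def parE (N : Set E) (u v : E → ℝ) (L : E →ₗ[ℝ] ℝ) (c₀ c₁ c₂ c₃ : ℝ) : Set E :=
  {x | x ∈ N ∧ L x + c₀ = -c₃ ∧ -c₁ ≤ u x ∧ -c₂ ≤ v x}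

/-- **(PAR)** -/
theorem ParIn.exists_par [FiniteDimensional ℝ E] {O N : Set E} {M : ι → Set E} {u v : E → ℝ}
    {L : E →ₗ[ℝ] ℝ} {c₀ : ℝ} {n : E} (h : ParIn O N M u v L c₀ n) :
    ∃ d > 0, ∀ c₁ ∈ Icc 0 d, ∀ c₂ ∈ Icc 0 d, ∀ c₃ ∈ Icc 0 d,
      parE N u v L c₀ c₁ c₂ c₃ ⊆ interior N ∧
      ∃ Φ : ConHomeo (parE N u v L c₀ c₁ c₂ c₃) (parE N u v L c₀ 0 0 0),
        ∀ x ∈ parE N u v L c₀ c₁ c₂ c₃, (u (Φ.toFun x) = 0 ↔ u x = -c₁) ∧
          (v (Φ.toFun x) = 0 ↔ v x = -c₂) := by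
  obtain ⟨θ, hθ, hC, hθ2⟩ := h.exists_theta
  obtain ⟨d1, hd1, hint, H1⟩ := h.exists_one_step hθ hC hθ2
  have hC' : plC N v u L c₀ θ ⊆ interior N := by rw [← plC_swap]; exact hC
  have hθ2' : ∀ x ∈ N, |v x| ≤ θ → |u x| ≤ θ → Reg (fun y => (v y, u y)) M x :=
    fun x hx h1 h2 => (hθ2 x hx h2 h1).swap
      (h.ucont.continuousAt (h.oO.mem_nhds (h.NO hx)))
      (h.vcont.continuousAt (h.oO.mem_nhds (h.NO hx)))
  obtain ⟨d2, hd2, -, H2⟩ := h.swap.exists_one_step hθ hC' hθ2'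
  have hCc := h.isCompact_plC θ
  have hCcon := h.conicalSet_plC hC
  set C := plC N u v L c₀ θ with hCdef
  have hCsw : plC N v u L c₀ θ = C := by rw [← plC_swap]
  rw [hCsw] at H2
  have hCN : C ⊆ N := hC.trans interior_subset
  -- E₀ and its neighbourhood
  have cu := h.ucont.mono h.NO
  have cv := h.vcont.mono h.NO
  have cL : Continuous fun x => L x + c₀ := L.continuous_of_finiteDimensional.add continuous_const
  obtain ⟨ρ₁, hρ₁, Hρ1⟩ := exists_unif_cont hCc hC cu (half_pos hθ)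
  obtain ⟨ρ₂, hρ₂, Hρ2⟩ := exists_unif_cont hCc hC cv (half_pos hθ)
  set ρ := min ρ₁ ρ₂ with hρdef
  have hρ : 0 < ρ := lt_min hρ₁ hρ₂
  set E₀ := parE N u v L c₀ 0 0 0 with hE₀
  have hE₀C : E₀ ⊆ C := by
    rintro x ⟨h1, h2, h3, h4⟩
    exact ⟨h1, by rw [h2]; simp, by linarith, by linarith⟩
  set V := ⋃ e ∈ E₀, ball e (ρ / 2) with hV
  have hVo : IsOpen V := isOpen_biUnion fun e _ => isOpen_ball
  have hK : IsCompact (N \ V) := h.cN.diff hVo
  -- a positive lower bound off V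
  obtain ⟨m, hm, Hm⟩ : ∃ m > 0, ∀ x ∈ N \ V, |L x + c₀| ≤ m → -m ≤ u x → -m ≤ v x → False := by
    by_cases hne : (N \ V).Nonempty
    swap
    · exact ⟨1, one_pos, fun x hx => absurd ⟨x, hx⟩ hne⟩
    have hcont : ContinuousOn (fun x => min (-|L x + c₀|) (min (u x) (v x))) (N \ V) :=
      ((cL.abs.neg.continuousOn).inf (cu.inf cv)).mono sdiff_subset
    obtain ⟨x₀, hx₀, hmax⟩ := hK.exists_isMaxOn hne hcont
    have hneg : min (-|L x₀ + c₀|) (min (u x₀) (v x₀)) < 0 := by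
      by_contra hc0
      push Not at hc0
      have a1 : 0 ≤ -|L x₀ + c₀| := hc0.trans (min_le_left _ _)
      have hx₀E : x₀ ∈ E₀ := ⟨hx₀.1, by
        rw [neg_zero]; exact abs_nonpos_iff.1 (by linarith), by
        rw [neg_zero]; exact hc0.trans ((min_le_right _ _).trans (min_le_left _ _)), by
        rw [neg_zero]; exact hc0.trans ((min_le_right _ _).trans (min_le_right _ _))⟩
      exact hx₀.2 (mem_biUnion hx₀E (mem_ball_self (half_pos hρ)))
    set m' := min (-|L x₀ + c₀|) (min (u x₀) (v x₀)) with hm'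
    refine ⟨-m' / 2, by linarith, fun x hx h1 h2 h3 => ?_⟩
    have h4 : min (-|L x + c₀|) (min (u x) (v x)) ≤ m' := hmax hx
    have h5 : -(-m' / 2) ≤ min (-|L x + c₀|) (min (u x) (v x)) :=
      le_min (by linarith) (le_min h2 h3)
    linarith
  have hn0 : 0 ≤ ‖n‖ := norm_nonneg n
  set d := min (min d1 d2) (min (min m (θ / 2)) (ρ / (4 * (‖n‖ + 1)))) with hd
  have hd0 : 0 < d :=
    lt_min (lt_min hd1 hd2) (lt_min (lt_min hm (by linarith)) (by positivity))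
  have dd1 : d ≤ d1 := (min_le_left _ _).trans (min_le_left _ _)
  have dd2 : d ≤ d2 := (min_le_left _ _).trans (min_le_right _ _)
  have ddm : d ≤ m := (min_le_right _ _).trans ((min_le_left _ _).trans (min_le_left _ _))
  have ddρ : d ≤ ρ / (4 * (‖n‖ + 1)) := (min_le_right _ _).trans (min_le_right _ _)
  have htn : ∀ t ∈ Icc 0 d, ‖t • n‖ ≤ ρ / 4 := by
    intro t ht
    rw [norm_smul, Real.norm_of_nonneg ht.1]
    calc t * ‖n‖ ≤ ρ / (4 * (‖n‖ + 1)) * (‖n‖ + 1) := by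
          apply mul_le_mul (ht.2.trans ddρ) (by linarith) hn0 (by positivity)
      _ = ρ / 4 := by field_simp
  refine ⟨d, hd0, fun c₁ hc₁ c₂ hc₂ c₃ hc₃ => ?_⟩
  -- points of E_c are near E₀
  have hnear : ∀ x ∈ parE N u v L c₀ c₁ c₂ c₃, x ∈ interior N ∧ x + c₃ • n ∈ C := by
    rintro x ⟨h1, h2, h3, h4⟩
    have hxV : x ∈ V := by
      by_contra hxV
      refine Hm x ⟨h1, hxV⟩ ?_ ?_ ?_
      · rw [h2, abs_neg, abs_of_nonneg hc₃.1]; exact hc₃.2.trans ddm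
      · have := hc₁.2.trans ddm; linarith
      · have := hc₂.2.trans ddm; linarith
    simp only [hV, mem_iUnion, exists_prop] at hxV
    obtain ⟨e, he, hxe⟩ := hxV
    rw [mem_ball, dist_eq_norm] at hxe
    have heC := hE₀C he
    have hlt : ‖x - e‖ < ρ := by linarith
    refine ⟨(Hρ1 e heC x (hlt.trans_le (min_le_left _ _))).1, ?_⟩
    have h5 : ‖x + c₃ • n - e‖ < ρ := by
      have e1 : x + c₃ • n - e = (x - e) + c₃ • n := by abel
      rw [e1]
      exact (norm_add_le _ _).trans_lt (by have := htn c₃ hc₃; linarith)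
    have h6 := Hρ1 e heC _ (h5.trans_le (min_le_left _ _))
    have h7 := Hρ2 e heC _ (h5.trans_le (min_le_right _ _))
    refine ⟨interior_subset h6.1, ?_, ?_, ?_⟩
    · rw [map_add, map_smul, h.hn, smul_eq_mul, mul_one]; linarith
    · have a1 := (abs_lt.1 h6.2).1
      have a2 : -0 ≤ u e := he.2.2.1
      linarith
    · have a1 := (abs_lt.1 h7.2).1
      have a2 : -0 ≤ v e := he.2.2.2
      linarith
  refine ⟨fun x hx => (hnear x hx).1, ?_⟩
  -- the two steps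
  obtain ⟨ρu, a1, a2⟩ := H1 c₃ ⟨hc₃.1, hc₃.2.trans dd1⟩ c₁ ⟨hc₁.1, hc₁.2.trans dd1⟩
  obtain ⟨ρv, b1, b2⟩ := H2 c₃ ⟨hc₃.1, hc₃.2.trans dd2⟩ c₂ ⟨hc₂.1, hc₂.2.trans dd2⟩
  -- E_c shifted to the plane
  set Ec := parE N u v L c₀ c₁ c₂ c₃ with hEc
  have hEcon : ConicalSet Ec := by
    have hIO : interior N ⊆ O := interior_subset.trans h.NO
    have hH : ConicalSet {x : E | L x + c₀ = -c₃} := by
      apply Convex.conicalSet
      intro x hx y hy a b _ _ hab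
      simp only [mem_ofPred_eq] at hx hy ⊢
      rw [map_add, map_smul, map_smul, smul_eq_mul, smul_eq_mul]
      have e1 : L x = -c₃ - c₀ := by linarith
      have e2 : L y = -c₃ - c₀ := by linarith
      rw [e1, e2]
      have : a * (-c₃ - c₀) + b * (-c₃ - c₀) = (a + b) * (-c₃ - c₀) := by ring
      rw [this, hab]; ring
    have k1 : ConicalSet (interior N ∩ {x : E | L x + c₀ = -c₃}) :=
      isOpen_interior.conicalSet.inter hH
    have hu1 : ConicalOn u (interior N ∩ {x : E | L x + c₀ = -c₃}) :=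
      h.ucon.mono k1 (inter_subset_left.trans hIO)
    have k2 := conicalSet_le hu1 (-c₁)
    have hv1 : ConicalOn v {x | x ∈ interior N ∩ {x : E | L x + c₀ = -c₃} ∧ -c₁ ≤ u x} :=
      h.vcon.mono k2 (fun x hx => hIO hx.1.1)
    have k3 := conicalSet_le hv1 (-c₂)
    have he : Ec =
        {x | x ∈ {x | x ∈ interior N ∩ {x : E | L x + c₀ = -c₃} ∧ -c₁ ≤ u x} ∧ -c₂ ≤ v x} := by
      ext x
      constructor
      · intro hx
        exact ⟨⟨⟨(hnear x hx).1, hx.2.1⟩, hx.2.2.1⟩, hx.2.2.2⟩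
      · rintro ⟨⟨⟨h1, h2⟩, h3⟩, h4⟩
        exact ⟨interior_subset h1, h2, h3, h4⟩
    rw [he]
    exact k3
  set τ := ConHomeo.translate (c₃ • n) hEcon with hτ
  have hτC : (fun x => x + c₃ • n) '' Ec ⊆ C := by
    rintro _ ⟨x, hx, rfl⟩
    exact (hnear x hx).2
  have hτcon : ConicalSet ((fun x => x + c₃ • n) '' Ec) := τ.conicalSet_right
  set Ψ : ConHomeo C C := ρu.trans ρv with hΨ
  have hΨf : ∀ x, Ψ.toFun x = ρv.toFun (ρu.toFun x) := fun x => rfl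
  -- the properties of the composition
  have key : ∀ x ∈ C, (0 ≤ u (Ψ.toFun x) ↔ -c₁ ≤ u (x - c₃ • n)) ∧
      (u (Ψ.toFun x) = 0 ↔ u (x - c₃ • n) = -c₁) ∧
      (0 ≤ v (Ψ.toFun x) ↔ -c₂ ≤ v (x - c₃ • n)) ∧
      (v (Ψ.toFun x) = 0 ↔ v (x - c₃ • n) = -c₂) := by
    intro x hx
    have hy : ρu.toFun x ∈ C := ρu.mapsTo hx
    obtain ⟨p1, p2⟩ := a1 x hx
    obtain ⟨q1, q2⟩ := b1 _ hy
    have hc2 : |(-c₂)| ≤ d1 := by rw [abs_neg, abs_of_nonneg hc₂.1]; exact hc₂.2.trans dd1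
    obtain ⟨r1, r2⟩ := a2 c₃ ⟨hc₃.1, hc₃.2.trans dd1⟩ (-c₂) hc2 x hx
    have h0 : (0:ℝ) ∈ Icc 0 d2 := ⟨le_rfl, hd2.le⟩
    obtain ⟨s1, s2⟩ := b2 0 h0 0 (by rw [abs_zero]; exact hd2.le) _ hy
    simp only [zero_smul, sub_zero] at s1 s2
    rw [hΨf]
    exact ⟨s1.trans p1, s2.trans p2, q1.trans r1, q2.trans r2⟩
  have himg : Ψ.toFun '' ((fun x => x + c₃ • n) '' Ec) = E₀ := by
    ext z
    constructor
    · rintro ⟨_, ⟨x, hx, rfl⟩, rfl⟩
      have hy := (hnear x hx).2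
      have hz := Ψ.mapsTo hy
      obtain ⟨k1, -, k3, -⟩ := key _ hy
      rw [add_sub_cancel_right] at k1 k3
      refine ⟨hCN hz, ?_, ?_, ?_⟩
      · rw [neg_zero]; exact hz.2.1
      · rw [neg_zero]; exact k1.2 hx.2.2.1
      · rw [neg_zero]; exact k3.2 hx.2.2.2
    · intro hz
      have hzC := hE₀C hz
      have hy := Ψ.mapsTo_inv hzC
      have hyz : Ψ.toFun (Ψ.invFun z) = z := Ψ.right_inv hzC
      obtain ⟨k1, -, k3, -⟩ := key _ hy
      rw [hyz] at k1 k3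
      refine ⟨Ψ.invFun z, ⟨Ψ.invFun z - c₃ • n, ⟨?_, ?_, ?_, ?_⟩, by simp⟩, hyz⟩
      · exact interior_subset (hint _ hy c₃ ⟨hc₃.1, hc₃.2.trans dd1⟩)
      · rw [map_sub, map_smul, h.hn, smul_eq_mul, mul_one]
        have := hy.2.1
        linarith
      · exact k1.1 (by have := hz.2.2.1; rwa [neg_zero] at this)
      · exact k3.1 (by have := hz.2.2.2; rwa [neg_zero] at this)
  refine ⟨(τ.trans (Ψ.restr hτcon hτC)).cast rfl himg, fun x hx => ?_⟩
  have hy := (hnear x hx).2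
  obtain ⟨-, k2, -, k4⟩ := key _ hy
  rw [add_sub_cancel_right] at k2 k4
  exact ⟨k2, k4⟩

end P073.H805
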