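import Vale.Agent.P073.H238.FatFace
import Vale.Agent.P073.H579.FaceSide
import Vale.Agent.P073.SCH.LocConeImage

/-!
# P073, H805: **[GENPAT]** (A14.16), patterns on flat faces from local regularity

No ambient ball is needed: `A` is a flat face (`H238.PFace`), the two families of levels are regular
at the points of `A`, there are no circles, and arcs of different families meet at most once.

* `exists_facePat`: the general form, `Bool` families;
* `exists_facePat_off`: the traces of the two families are disjoint (for instance one family);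
* `exists_facePat_plane`: the face is mapped injectively into a coordinate plane.
-/

set_option linter.unusedSectionVars false

open Set Metric Topology Filter

namespace P073.H805

open P073 P073.TR P073.SCH P073.H339 P073.H579

open Vale.Agent.P073.H238 (PFace)

open Vale.Agent.P073.St (V)

/-- the levels `L` of the two functions `w b` are regular at the points of `A` -/
structure LevReg {ι : Type*} (M : ι → Set V) (A : Set V) (w : V → Bool → ℝ)
    (L : Bool → Finset ℝ) : Prop where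
  cont : ∀ x ∈ A, ∀ b, ContinuousAt (fun y => w y b) x
  con : ∀ x ∈ A, ∀ b, ConicalAt (fun y => w y b) x
  one : ∀ x ∈ A, ∀ b, w x b ∈ L b → ∃ (σ : ℝ →ₗ[ℝ] V) (r : ℝ), FlowBox (fun y => w y b) M x σ r
  two : ∀ x ∈ A, w x false ∈ L false → w x true ∈ L true →
    ∃ (σ : ℝ × ℝ →ₗ[ℝ] V) (r : ℝ), FlowBox (fun y => (w y false, w y true)) M x σ r

namespace LevReg

variable {ι : Type*} {M : ι → Set V} {A : Set V} {w : V → Bool → ℝ} {L : Bool → Finset ℝ}

theorem reg1 (H : LevReg M A w L) (F : PFace A) {i₀ : ι} (hi : M i₀ = A) (b : Bool) :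
    Reg1 F.C ((fun y => w y b) ∘ F.ch) (L b : Set ℝ) := by
  refine ⟨fun z hz => ?_, fun z hz => ?_, (L b).finite_toSet, fun z hz hzL => ?_⟩
  · exact ContinuousAt.comp (H.cont _ (F.ch_mem hz) b) F.continuous_ch.continuousAt
  · exact ConicalAt.comp_chart (H.con _ (F.ch_mem hz) b)
  · obtain ⟨σ, r, h⟩ := H.one _ (F.ch_mem hz) b hzL
    obtain ⟨σ', r', -, h'⟩ := FlowBox.pull (i₀ := i₀) F.inj (hi.trans F.eq) hz h
    have h2 := FlowBox.single h' i₀
    have h3 : (fun w => F.o + F.L w) ⁻¹' M i₀ = F.C := by rw [hi]; exact F.ch_preimage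
    rw [h3] at h2
    exact ⟨σ', r', h2⟩

/-- the traces form a web -/
theorem web (H : LevReg M A w L) (F : PFace A) {i₀ : ι} (hi : M i₀ = A) :
    Web F.C (traces F.C (fun b => (fun y => w y b) ∘ F.ch) fun b => (L b : Set ℝ)) := by
  refine web_traces F.convex F.int F.compact F.cone (fun b => H.reg1 F hi b) ?_
  intro z hz h1 h2
  obtain ⟨σ, r, h3⟩ := H.two _ (F.ch_mem hz) h1 h2
  obtain ⟨σ', r', -, h'⟩ := FlowBox.pull (i₀ := i₀) F.inj (hi.trans F.eq) hz h3
  have h4 := FlowBox.single h' i₀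
  have h5 : (fun w => F.o + F.L w) ⁻¹' M i₀ = F.C := by rw [hi]; exact F.ch_preimage
  rw [h5] at h4
  exact ⟨σ', r', h4⟩

/-- crossing points are not on the relative boundary of the face -/
theorem notMem_bd (H : LevReg M A w L) (F : PFace A) {i₀ : ι} (hi : M i₀ = A) {x : V}
    (hu : w x false ∈ L false) (hv : w x true ∈ L true) : x ∉ F.ch '' frontier F.C := by
  rintro ⟨z, hz, rfl⟩
  have hzC : z ∈ F.C := F.compact.isClosed.frontier_subset hz
  have hw := H.web F hi
  exact hw.notMem_frontier false (x := z) ⟨hzC, hu⟩ ⟨hzC, hv⟩ hz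

/-- the arcs of a level -/
theorem arcs (H : LevReg M A w L) (F : PFace A) {i₀ : ι} (hi : M i₀ = A)
    (hno : ∀ b, ∀ k ∈ L b, ∀ σ : Set V, IsCircle σ → ¬ σ ⊆ {x | x ∈ A ∧ w x b = k}) {b : Bool}
    {k : ℝ} (hk : k ∈ L b) :
    ∃ (J : Type) (_ : Finite J) (S : J → Set V), (⋃ j, S j) = {x | x ∈ A ∧ w x b = k} ∧
      (∀ j j', j ≠ j' → Disjoint (S j) (S j')) ∧
      ∀ j, ConBall 1 (S j) (S j ∩ F.ch '' frontier F.C) := by
  have h1 : Reg1 F.C ((fun y => w y b) ∘ F.ch) (L b : Set ℝ) := H.reg1 F hi b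
  have h2 : ({k} : Set ℝ) ⊆ (L b : Set ℝ) := singleton_subset_iff.2 hk
  have htr : F.ch '' trace F.C ((fun y => w y b) ∘ F.ch) {k} = {x | x ∈ A ∧ w x b = k} := by
    ext x
    constructor
    · rintro ⟨z, ⟨hz, hw⟩, rfl⟩
      exact ⟨F.ch_mem hz, hw⟩
    · rintro ⟨hx, hw⟩
      obtain ⟨z, hz, rfl⟩ := F.exists_ch hx
      exact ⟨z, ⟨hz, hw⟩, rfl⟩
  obtain ⟨J, hJ, S, hU, hd, hb⟩ := (h1.mono h2).arcs F.convex F.int F.compact F.cone
    (fun σ hσ hs => by
      have hσ' : IsCircle (F.ch '' σ) := by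
        have h3 := IsCircle.image hσ F.hom (hs.trans fun z hz => hz.1)
        rwa [F.hom_toFun] at h3
      exact hno b k hk _ hσ' (by rw [← htr]; exact image_mono hs))
  refine ⟨J, hJ, fun j => F.ch '' S j, ?_, fun j j' hj => ?_, fun j => ?_⟩
  · rw [← image_iUnion, hU, htr]
  · exact (disjoint_image_iff F.ch_inj).2 (hd j j' hj)
  · have h3 := (hb j).image_affine F.aff F.ch_inj F.continuous_ch
    have h4 : F.ch '' S j ∩ F.ch '' frontier F.C = F.ch '' (S j ∩ frontier F.C) :=
      (image_inter F.ch_inj).symm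
    rw [h4]
    exact h3

end LevReg

/-- **[GENPAT]** -/
theorem exists_facePat {ι : Type*} {M : ι → Set V} {A : Set V} {w : V → Bool → ℝ}
    {L : Bool → Finset ℝ} (H : LevReg M A w L) (F : PFace A) {i₀ : ι} (hi : M i₀ = A)
    (hball : ConBall 2 A (F.ch '' frontier F.C))
    (hno : ∀ b, ∀ k ∈ L b, ∀ σ : Set V, IsCircle σ → ¬ σ ⊆ {x | x ∈ A ∧ w x b = k})
    (hcross : ∀ k ∈ L false, ∀ l ∈ L true, ∀ (S T : Set V) (p q p' q' : V), IsArc S p q →
      IsArc T p' q' → (∀ x ∈ S, x ∈ A ∧ w x false = k) → (∀ x ∈ T, x ∈ A ∧ w x true = l) →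
      (S ∩ T).Subsingleton) :
    ∃ (K : Type) (_ : Finite K) (S : K → Set V) (cd : K → Bool) (lev : K → ℝ),
      FacePat A (F.ch '' frontier F.C) w (fun b => (L b : Set ℝ)) S cd lev cd := by
  classical
  have hA := fun k : L false => H.arcs F hi hno k.2
  have hB := fun k : L true => H.arcs F hi hno k.2
  choose J hJ S hSU hSd hSb using hA
  choose J' hJ' T hTU hTd hTb using hB
  let K := (Σ k : L false, J k) ⊕ (Σ l : L true, J' l)
  let SS : K → Set V := Sum.elim (fun z => S z.1 z.2) (fun z => T z.1 z.2)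
  let cd : K → Bool := Sum.elim (fun _ => false) (fun _ => true)
  let lev : K → ℝ := Sum.elim (fun z => (z.1 : ℝ)) (fun z => (z.1 : ℝ))
  have hSmem : ∀ (k : L false) (j : J k) (x : V), x ∈ S k j → x ∈ A ∧ w x false = k := by
    intro k j x hx
    have : x ∈ ⋃ j, S k j := mem_iUnion.2 ⟨j, hx⟩
    rw [hSU k] at this
    exact this
  have hTmem : ∀ (k : L true) (j : J' k) (x : V), x ∈ T k j → x ∈ A ∧ w x true = k := by
    intro k j x hx
    have : x ∈ ⋃ j, T k j := mem_iUnion.2 ⟨j, hx⟩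
    rw [hTU k] at this
    exact this
  have nearS : ∀ (k : L false) (j : J k) (x : V), x ∈ S k j →
      ∀ᶠ y in 𝓝 x, y ∈ A → (y ∈ S k j ↔ w y false = k) := by
    intro k j x hx
    filter_upwards [near_component (fun j => (hSb k j).isClosed) (hSd k) (hSU k) hx] with y hy hyM
    rw [hy]
    exact ⟨fun h1 => h1.2, fun h1 => ⟨hyM, h1⟩⟩
  have nearT : ∀ (k : L true) (j : J' k) (x : V), x ∈ T k j →
      ∀ᶠ y in 𝓝 x, y ∈ A → (y ∈ T k j ↔ w y true = k) := by
    intro k j x hx
    filter_upwards [near_component (fun j => (hTb k j).isClosed) (hTd k) (hTU k) hx] with y hy hyM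
    rw [hy]
    exact ⟨fun h1 => h1.2, fun h1 => ⟨hyM, h1⟩⟩
  have hcone : ∀ x ∈ A, LocConeAt (M i₀) x := fun x hx => hi ▸ hball.locCone x
  have hcu : ∀ x ∈ A, ConicalAt (fun y => w y false) x := fun x hx => H.con x hx false
  have hcv : ∀ x ∈ A, ConicalAt (fun y => w y true) x := fun x hx => H.con x hx true
  have hku : ∀ x ∈ A, ContinuousAt (fun y => w y false) x := fun x hx => H.cont x hx false
  have hkv : ∀ x ∈ A, ContinuousAt (fun y => w y true) x := fun x hx => H.cont x hx true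
  have key : ∀ {s t : Set V} {x : V}, x ∈ closure s → (∀ᶠ y in 𝓝 x, y ∈ s → y ∈ t) →
      x ∈ closure t := by
    intro s t x hs hev
    rw [mem_closure_iff_nhds] at hs ⊢
    intro U hU
    obtain ⟨y, hy, hys⟩ := hs _ (Filter.inter_mem hU hev)
    exact ⟨y, hy.1, hy.2 hys⟩
  -- crossings
  have crossST : ∀ (k : L false) (j : J k) (l : L true) (m : J' l) (x : V), x ∈ S k j → x ∈ T l m →
      XAt A (F.ch '' frontier F.C) (S k j) (T l m) x ∧
        XAt A (F.ch '' frontier F.C) (T l m) (S k j) x := by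
    intro k j l m x hxS hxT
    obtain ⟨hxM, hux⟩ := hSmem k j x hxS
    obtain ⟨-, hvx⟩ := hTmem l m x hxT
    have hua : w x false ∈ L false := by rw [hux]; exact k.2
    have hvb : w x true ∈ L true := by rw [hvx]; exact l.2
    obtain ⟨σ, r, hb⟩ := H.two x hxM hua hvb
    obtain ⟨σ₁, r₁, hb₁⟩ := H.one x hxM false hua
    obtain ⟨σ₂, r₂, hb₂⟩ := H.one x hxM true hvb
    have hxM' : x ∈ M i₀ := hi.symm ▸ hxM
    have c1 := FlowBox.cross_gt (i := i₀) hb hxM'
    have c2 := FlowBox.cross_lt (i := i₀) hb hxM'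
    have hb' : FlowBox (fun y => (w y true, w y false)) M x (σ.comp
        (LinearEquiv.prodComm ℝ ℝ ℝ).toLinearMap) r := by
      refine ⟨hb.pos, fun w s hw hs => ?_, fun i w s hw hs => ?_⟩
      · have hs' : ‖(LinearEquiv.prodComm ℝ ℝ ℝ) s‖ < r := by
          have : ‖(LinearEquiv.prodComm ℝ ℝ ℝ) s‖ = ‖s‖ := by
            show ‖(s.2, s.1)‖ = ‖s‖
            rw [Prod.norm_def, Prod.norm_def, max_comm]
          rwa [this]
        have h1 := hb.add w _ hw hs'
        have e1 := congrArg Prod.fst h1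
        have e2 := congrArg Prod.snd h1
        exact Prod.ext e2 e1
      · have hs' : ‖(LinearEquiv.prodComm ℝ ℝ ℝ) s‖ < r := by
          have : ‖(LinearEquiv.prodComm ℝ ℝ ℝ) s‖ = ‖s‖ := by
            show ‖(s.2, s.1)‖ = ‖s‖
            rw [Prod.norm_def, Prod.norm_def, max_comm]
          rwa [this]
        exact hb.iff i w _ hw hs'
    have c3 := FlowBox.cross_gt (i := i₀) hb' hxM'
    have c4 := FlowBox.cross_lt (i := i₀) hb' hxM'
    constructor
    · refine xAt_of_box (i := i₀) hb₁ hi hxS (hcone x hxM) (hcu x hxM) (hku x hxM) ?_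
        (fun y hy => (hTmem l m y hy).1) ?_ ?_
      · rw [hux]; exact nearS k j x hxS
      · refine key c1 ?_
        filter_upwards [nearT l m x hxT] with y hy hy2
        exact ⟨(hy (hi ▸ hy2.1)).2 (hy2.2.1.trans hvx), hy2.2.2⟩
      · refine key c2 ?_
        filter_upwards [nearT l m x hxT] with y hy hy2
        exact ⟨(hy (hi ▸ hy2.1)).2 (hy2.2.1.trans hvx), hy2.2.2⟩
    · refine xAt_of_box (i := i₀) hb₂ hi hxT (hcone x hxM) (hcv x hxM) (hkv x hxM) ?_
        (fun y hy => (hSmem k j y hy).1) ?_ ?_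
      · rw [hvx]; exact nearT l m x hxT
      · refine key c3 ?_
        filter_upwards [nearS k j x hxS] with y hy hy2
        exact ⟨(hy (hi ▸ hy2.1)).2 (hy2.2.1.trans hux), hy2.2.2⟩
      · refine key c4 ?_
        filter_upwards [nearS k j x hxS] with y hy hy2
        exact ⟨(hy (hi ▸ hy2.1)).2 (hy2.2.1.trans hux), hy2.2.2⟩
  have offST : ∀ (k : L false) (j : J k) (l : L true) (m : J' l),
      Disjoint (S k j ∩ T l m) (F.ch '' frontier F.C) := by
    intro k j l m
    rw [Set.disjoint_left]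
    rintro x ⟨hxS, hxT⟩
    obtain ⟨hxM, hux⟩ := hSmem k j x hxS
    obtain ⟨-, hvx⟩ := hTmem l m x hxT
    exact H.notMem_bd F hi (by rw [hux]; exact k.2) (by rw [hvx]; exact l.2)
  have subST : ∀ (k : L false) (j : J k) (l : L true) (m : J' l), (S k j ∩ T l m).Subsingleton := by
    intro k j l m
    obtain ⟨p, q, hpq, -⟩ := exists_ends (hSb k j)
    obtain ⟨p', q', hpq', -⟩ := exists_ends (hTb l m)
    exact hcross k k.2 l l.2 _ _ p q p' q' hpq hpq' (fun x hx => hSmem k j x hx)
      (fun x hx => hTmem l m x hx)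
  have disS : ∀ (k k' : L false) (j : J k) (j' : J k'), (⟨k, j⟩ : Σ k : L false, J k) ≠ ⟨k', j'⟩ →
      Disjoint (S k j) (S k' j') := by
    intro k k' j j' hne
    rw [Set.disjoint_left]
    intro x hx hx'
    have h1 := (hSmem k j x hx).2
    have h2 := (hSmem k' j' x hx').2
    have hkk : k = k' := Subtype.ext (h1.symm.trans h2)
    subst hkk
    refine Set.disjoint_left.1 (hSd k j j' fun hj => hne (by rw [hj])) hx hx'
  have disT : ∀ (k k' : L true) (j : J' k) (j' : J' k'), (⟨k, j⟩ : Σ k : L true, J' k) ≠ ⟨k', j'⟩ →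
      Disjoint (T k j) (T k' j') := by
    intro k k' j j' hne
    rw [Set.disjoint_left]
    intro x hx hx'
    have h1 := (hTmem k j x hx).2
    have h2 := (hTmem k' j' x hx').2
    have hkk : k = k' := Subtype.ext (h1.symm.trans h2)
    subst hkk
    refine Set.disjoint_left.1 (hTd k j j' fun hj => hne (by rw [hj])) hx hx'
  refine ⟨K, inferInstance, SS, cd, lev, ⟨hball, ?_, ?_, ?_, ?_, ?_, ?_⟩, ?_, ?_, ?_⟩
  · rintro (⟨k, j⟩ | ⟨k, j⟩)
    · exact hSb k j
    · exact hTb k j
  · rintro (⟨k, j⟩ | ⟨k, j⟩) x hx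
    · exact (hSmem k j x hx).1
    · exact (hTmem k j x hx).1
  · rintro (⟨k, j⟩ | ⟨k, j⟩) (⟨k', j'⟩ | ⟨k', j'⟩) hne hcol
    · exact disS k k' j j' fun h' => hne (congrArg Sum.inl h')
    · exact absurd hcol (by simp [cd])
    · exact absurd hcol (by simp [cd])
    · exact disT k k' j j' fun h' => hne (congrArg Sum.inr h')
  · rintro (⟨k, j⟩ | ⟨k, j⟩) (⟨k', j'⟩ | ⟨k', j'⟩) hne
    · have := (disS k k' j j' fun h' => hne (congrArg Sum.inl h')).inter_eq
      show (S k j ∩ S k' j').Subsingleton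
      rw [this]; exact subsingleton_empty
    · exact subST k j k' j'
    · show (T k j ∩ S k' j').Subsingleton
      rw [inter_comm]; exact subST k' j' k j
    · have := (disT k k' j j' fun h' => hne (congrArg Sum.inr h')).inter_eq
      show (T k j ∩ T k' j').Subsingleton
      rw [this]; exact subsingleton_empty
  · rintro (⟨k, j⟩ | ⟨k, j⟩) (⟨k', j'⟩ | ⟨k', j'⟩) hne
    · have := (disS k k' j j' fun h' => hne (congrArg Sum.inl h')).inter_eq
      show Disjoint (S k j ∩ S k' j') (F.ch '' frontier F.C)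
      rw [this]; exact empty_disjoint _
    · exact offST k j k' j'
    · show Disjoint (T k j ∩ S k' j') (F.ch '' frontier F.C)
      rw [inter_comm]; exact offST k' j' k j
    · have := (disT k k' j j' fun h' => hne (congrArg Sum.inr h')).inter_eq
      show Disjoint (T k j ∩ T k' j') (F.ch '' frontier F.C)
      rw [this]; exact empty_disjoint _
  · rintro (⟨k, j⟩ | ⟨k, j⟩) (⟨k', j'⟩ | ⟨k', j'⟩) hne x ⟨hx, hx'⟩
    · exact absurd hx' (Set.disjoint_left.1
        (disS k k' j j' fun h' => hne (congrArg Sum.inl h')) hx)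
    · exact (crossST k j k' j' x hx hx').1
    · exact (crossST k' j' k j x hx' hx).2
    · exact absurd hx' (Set.disjoint_left.1
        (disT k k' j j' fun h' => hne (congrArg Sum.inr h')) hx)
  · rintro (⟨k, j⟩ | ⟨k, j⟩)
    · exact k.2
    · exact k.2
  · intro b k hk
    cases b with
    | false =>
      have hk' : k ∈ L false := hk
      ext x
      simp only [mem_iUnion, exists_prop]
      constructor
      · rintro ⟨⟨k', j⟩ | ⟨k', j⟩, ⟨h1, h2⟩, hx⟩
        · have h2' : (k' : ℝ) = k := h2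
          have := hSmem k' j x hx
          exact ⟨this.1, this.2.trans h2'⟩
        · exact absurd h1 (by simp [cd])
      · rintro ⟨hx, hux⟩
        have hux' : w x false = k := hux
        have : x ∈ ⋃ j, S ⟨k, hk'⟩ j := by
          rw [hSU ⟨k, hk'⟩]; exact ⟨hx, hux'⟩
        obtain ⟨j, hj⟩ := mem_iUnion.1 this
        exact ⟨Sum.inl ⟨⟨k, hk'⟩, j⟩, ⟨rfl, rfl⟩, hj⟩
    | true =>
      have hk' : k ∈ L true := hk
      ext x
      simp only [mem_iUnion, exists_prop]
      constructor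
      · rintro ⟨⟨k', j⟩ | ⟨k', j⟩, ⟨h1, h2⟩, hx⟩
        · exact absurd h1 (by simp [cd])
        · have h2' : (k' : ℝ) = k := h2
          have := hTmem k' j x hx
          exact ⟨this.1, this.2.trans h2'⟩
      · rintro ⟨hx, hux⟩
        have hux' : w x true = k := hux
        have : x ∈ ⋃ j, T ⟨k, hk'⟩ j := by
          rw [hTU ⟨k, hk'⟩]; exact ⟨hx, hux'⟩
        obtain ⟨j, hj⟩ := mem_iUnion.1 this
        exact ⟨Sum.inr ⟨⟨k, hk'⟩, j⟩, ⟨rfl, rfl⟩, hj⟩
  · rintro (⟨k, j⟩ | ⟨k, j⟩)
    · have hm := hSmem k j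
      exact twoSided_of_box (M := M) (i := i₀) hi (ConBall.isPreconnected' (hSb k j))
        (fun x hx => (hm x hx).2) (fun x hx => (hm x hx).1)
        (fun x hx => H.one x (hm x hx).1 false (by rw [(hm x hx).2]; exact k.2))
        (fun x hx => hcone x (hm x hx).1) (fun x hx => hcu x (hm x hx).1)
        (fun x hx => hku x (hm x hx).1) (fun x hx => nearS k j x hx)
    · have hm := hTmem k j
      exact twoSided_of_box (M := M) (i := i₀) hi (ConBall.isPreconnected' (hTb k j))
        (fun x hx => (hm x hx).2) (fun x hx => (hm x hx).1)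
        (fun x hx => H.one x (hm x hx).1 true (by rw [(hm x hx).2]; exact k.2))
        (fun x hx => hcone x (hm x hx).1) (fun x hx => hcv x (hm x hx).1)
        (fun x hx => hkv x (hm x hx).1) (fun x hx => nearT k j x hx)

/-- a continuous function is not injective on a circle -/
theorem not_injOn_circle {E : Type*} [NormedAddCommGroup E] [NormedSpace ℝ E] {σ : Set E}
    (h : IsCircle σ) {f : E → ℝ} (hf : ContinuousOn f σ) : ¬ InjOn f σ := by
  intro hinj
  obtain ⟨A, B, p, q, hA, hB, hAB, rfl⟩ := h.exists_arcs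
  have hne : p ≠ q := by
    rintro rfl
    obtain ⟨φ, h0, h1⟩ := hA
    have := φ.injOn (left_mem_Icc.2 zero_le_one) (right_mem_Icc.2 zero_le_one) (h0.trans h1.symm)
    norm_num at this
  have hfne : f p ≠ f q := fun h1 => hne (hinj (Or.inl hA.left_mem) (Or.inl hA.right_mem) h1)
  -- the middle value
  have key : ∀ S : Set E, S ⊆ A ∪ B → IsArc S p q → ∃ x ∈ S, f x = (f p + f q) / 2 := by
    intro S hS hSa
    have hc : IsPreconnected (f '' S) := by
      obtain ⟨φ, h0, h1⟩ := hSa
      have h2 : S = φ.toFun '' Icc 0 1 := φ.image_eq.symm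
      rw [h2] at hS ⊢
      exact (isPreconnected_Icc.image _ φ.cont).image _ (hf.mono hS)
    have h1 : f p ∈ f '' S := mem_image_of_mem _ hSa.left_mem
    have h2 : f q ∈ f '' S := mem_image_of_mem _ hSa.right_mem
    have h3 : uIcc (f p) (f q) ⊆ f '' S := hc.ordConnected.uIcc_subset h1 h2
    have h4 : (f p + f q) / 2 ∈ uIcc (f p) (f q) := by
      rcases le_total (f p) (f q) with h5 | h5
      · rw [uIcc_of_le h5]; constructor <;> linarith
      · rw [uIcc_of_ge h5]; constructor <;> linarith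
    obtain ⟨x, hx, hx'⟩ := h3 h4
    exact ⟨x, hx, hx'⟩
  obtain ⟨x, hxA, hx⟩ := key A subset_union_left hA
  obtain ⟨y, hyB, hy⟩ := key B subset_union_right hB
  have hxy : x = y := hinj (Or.inl hxA) (Or.inr hyB) (hx.trans hy.symm)
  subst hxy
  rcases hAB ⟨hxA, hyB⟩ with h1 | h1
  · rw [h1] at hx
    exact hfne (by linarith)
  · rw [mem_singleton_iff.1 h1] at hx
    exact hfne (by linarith)

/-- **[GENPAT]**, no crossing points -/
theorem exists_facePat_off {ι : Type*} {M : ι → Set V} {A : Set V} {w : V → Bool → ℝ}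
    {L : Bool → Finset ℝ} (H : LevReg M A w L) (F : PFace A) {i₀ : ι} (hi : M i₀ = A)
    (hball : ConBall 2 A (F.ch '' frontier F.C))
    (hno : ∀ b, ∀ k ∈ L b, ∀ σ : Set V, IsCircle σ → ¬ σ ⊆ {x | x ∈ A ∧ w x b = k})
    (hoff : ∀ x ∈ A, w x false ∈ L false → w x true ∉ L true) :
    ∃ (K : Type) (_ : Finite K) (S : K → Set V) (cd : K → Bool) (lev : K → ℝ),
      FacePat A (F.ch '' frontier F.C) w (fun b => (L b : Set ℝ)) S cd lev cd := by
  refine exists_facePat H F hi hball hno ?_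
  intro k hk l hl S T p q p' q' _ _ hS hT x hx
  obtain ⟨hxS, hxT⟩ := hx
  have h1 := hS x hxS
  have h2 := hT x hxT
  exact absurd (h2.2.symm ▸ hl) (hoff x h1.1 (h1.2.symm ▸ hk))

/-- **[GENPAT]**, the face is mapped injectively by the pair (faces in the walls) -/
theorem exists_facePat_inj {ι : Type*} {M : ι → Set V} {A : Set V} {w : V → Bool → ℝ}
    {L : Bool → Finset ℝ} (H : LevReg M A w L) (F : PFace A) {i₀ : ι} (hi : M i₀ = A)
    (hball : ConBall 2 A (F.ch '' frontier F.C))
    (hinj : ∀ x ∈ A, ∀ y ∈ A, w x false = w y false → w x true = w y true → x = y) :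
    ∃ (K : Type) (_ : Finite K) (S : K → Set V) (cd : K → Bool) (lev : K → ℝ),
      FacePat A (F.ch '' frontier F.C) w (fun b => (L b : Set ℝ)) S cd lev cd := by
  refine exists_facePat H F hi hball ?_ ?_
  · intro b k hk σ hσ hs
    refine not_injOn_circle hσ (f := fun x => w x (!b)) (fun x hx =>
      (H.cont x (hs hx).1 (!b)).continuousWithinAt) ?_
    intro x hx y hy hxy
    have h1 : w x b = w y b := (hs hx).2.trans (hs hy).2.symm
    have h2 : w x (!b) = w y (!b) := hxy
    cases b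
    · exact hinj x (hs hx).1 y (hs hy).1 h1 h2
    · exact hinj x (hs hx).1 y (hs hy).1 h2 h1
  · intro k hk l hl S T p q p' q' _ _ hS hT x hx y hy
    exact hinj x (hS x hx.1).1 y (hS y hy.1).1 ((hS x hx.1).2.trans (hS y hy.1).2.symm)
      ((hT x hx.2).2.trans (hT y hy.2).2.symm)

/-- regularity from a homeomorphism -/
theorem LevReg.of_homeo {ι : Type*} {M : ι → Set V} {Ω Λ : Set V} (hΩ : IsOpen Ω)
    (h : ConHomeo Ω Λ) {A : Set V} (hA : A ⊆ Ω) {i j : Fin 3} {a b : Finset ℝ}
    (ha : ∀ x ∈ A, h.toFun x i ∈ a → Reg (fun y => h.toFun y i) M x)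
    (hb : ∀ x ∈ A, h.toFun x j ∈ b → Reg (fun y => h.toFun y j) M x)
    (hab : ∀ x ∈ A, h.toFun x i ∈ a → h.toFun x j ∈ b →
      Reg (fun y => (h.toFun y i, h.toFun y j)) M x) :
    LevReg M A (pr2 (fun x => h.toFun x i) fun x => h.toFun x j) (fun c => bif c then b else a) := by
  have hcont : ∀ x ∈ A, ∀ l : Fin 3, ContinuousAt (fun y => h.toFun y l) x := fun x hx l =>
    (continuous_apply l).continuousAt.comp (h.cont.continuousAt (hΩ.mem_nhds (hA hx)))
  have hcon : ∀ x ∈ A, ∀ l : Fin 3, ConicalAt (fun y => h.toFun y l) x := fun x hx l =>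
    (h.conical.linear_comp (LinearMap.proj l : (Fin 3 → ℝ) →ₗ[ℝ] ℝ)).conicalAt hΩ (hA hx)
  refine ⟨fun x hx c => ?_, fun x hx c => ?_, fun x hx c hc => ?_, fun x hx h1 h2 => ?_⟩
  · cases c
    · exact hcont x hx i
    · exact hcont x hx j
  · cases c
    · exact hcon x hx i
    · exact hcon x hx j
  · cases c
    · exact ha x hx hc
    · exact hb x hx hc
  · exact hab x hx h1 h2

/-- the pattern for the coordinates of a homeomorphism -/
theorem FacePat.coords {A B : Set V} {g : V → V} {i j : Fin 3} (hij : i ≠ j) {a b : Finset ℝ}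
    {K : Type*} {S : K → Set V} {cd col : K → Bool} {lev : K → ℝ}
    (H : FacePat A B (pr2 (fun x => g x i) fun x => g x j)
      (fun c => ((bif c then b else a : Finset ℝ) : Set ℝ)) S cd lev col) :
    FacePat A B g (lvF i j a b) S (fun α => bif cd α then j else i) lev col := by
  let D : Data V Unit :=
    { M := fun _ => ∅, W := ∅, U := ∅, B := ∅, a := a, b := b, u₀ := fun _ => 0, v₀ := fun _ => 0 }
  have h1 : (fun c => ((bif c then b else a : Finset ℝ) : Set ℝ)) = lv2 D := by
    funext c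
    cases c <;> rfl
  rw [h1] at H
  exact FacePat.toFin H hij (fun k _ x _ => ⟨Iff.rfl, Iff.rfl, Iff.rfl⟩)
    (fun k _ x _ => ⟨Iff.rfl, Iff.rfl, Iff.rfl⟩)

end P073.H805
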