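import Vale.Agent.P073.H805.E3Box
import Vale.Agent.P073.H805.GenPat
import Vale.Agent.P073.H244.CxMesh

/-!
# P073, H805: **[PLATE-MESH]** (A14.17), boxes with levels in two directions

`Plate`: a box, two tangential directions, the levels, the width `s` of the margin along the side
walls. `Plate.Y` is the preimage of the margin; it is a safe set (`Plate.safe`).
-/

set_option linter.unusedSectionVars false

open Set Metric Topology Filter

namespace P073.H805

open P073 P073.TR P073.H579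

open Vale.Agent.P073.H238 (PFace)

open Vale.Agent.P073.St (V)

/-- a box with levels in two directions, and the width of the margin -/
structure Plate where
  lo : V
  hi : V
  i : Fin 3
  j : Fin 3
  a : Finset ℝ
  b : Finset ℝ
  s : ℝ

namespace Plate

variable {Ω Λ : Set V} (P : Plate) (h : ConHomeo Ω Λ)

/-- the box -/
def box : Set V := Icc P.lo P.hi

/-- its preimage -/
def U : Set V := h.invFun '' Icc P.lo P.hi

/-- the preimage of the boundary of the box -/
def B : Set V := h.invFun '' frontier (Icc P.lo P.hi)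

/-- the margin along the side walls -/
def marg : Set V := {y | y ∈ Icc P.lo P.hi ∧ (y P.i ≤ P.lo P.i + P.s ∨ P.hi P.i - P.s ≤ y P.i ∨
  y P.j ≤ P.lo P.j + P.s ∨ P.hi P.j - P.s ≤ y P.j)}

/-- the preimage of the margin -/
def Y : Set V := h.invFun '' P.marg

/-- the conditions on the numbers -/
structure Ok (P : Plate) (Λ : Set V) : Prop where
  lt : ∀ l, P.lo l < P.hi l
  sub : Icc P.lo P.hi ⊆ Λ
  ij : P.i ≠ P.j
  s0 : 0 ≤ P.s
  a_mem : ∀ k ∈ P.a, P.lo P.i + P.s < k ∧ k < P.hi P.i - P.s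
  b_mem : ∀ k ∈ P.b, P.lo P.j + P.s < k ∧ k < P.hi P.j - P.s

variable {P h}

theorem Ok.mem_U (H : P.Ok Λ) {x : V} : x ∈ P.U h ↔ x ∈ Ω ∧ h.toFun x ∈ Icc P.lo P.hi := by
  constructor
  · rintro ⟨y, hy, rfl⟩
    refine ⟨h.mapsTo_inv (H.sub hy), ?_⟩
    rw [h.right_inv (H.sub hy)]; exact hy
  · rintro ⟨hx, hxU⟩
    exact ⟨_, hxU, h.left_inv hx⟩

theorem Ok.mem_B (H : P.Ok Λ) {x : V} :
    x ∈ P.B h ↔ x ∈ Ω ∧ h.toFun x ∈ frontier (Icc P.lo P.hi) := by
  constructor
  · rintro ⟨y, hy, rfl⟩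
    have hyΛ := H.sub (isClosed_Icc.frontier_subset hy)
    refine ⟨h.mapsTo_inv hyΛ, ?_⟩
    rw [h.right_inv hyΛ]; exact hy
  · rintro ⟨hx, hxU⟩
    exact ⟨_, hxU, h.left_inv hx⟩

theorem Ok.mem_Y (H : P.Ok Λ) {x : V} : x ∈ P.Y h ↔ x ∈ Ω ∧ h.toFun x ∈ P.marg := by
  constructor
  · rintro ⟨y, hy, rfl⟩
    refine ⟨h.mapsTo_inv (H.sub hy.1), ?_⟩
    rw [h.right_inv (H.sub hy.1)]; exact hy
  · rintro ⟨hx, hxU⟩
    exact ⟨_, hxU, h.left_inv hx⟩

theorem marg_closed : IsClosed P.marg := by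
  have c := fun l : Fin 3 => (continuous_apply l : Continuous fun y : V => y l)
  refine isClosed_Icc.inter (IsClosed.union (_root_.isClosed_le (c _) continuous_const)
    (IsClosed.union (_root_.isClosed_le continuous_const (c _))
      (IsClosed.union (_root_.isClosed_le (c _) continuous_const)
        (_root_.isClosed_le continuous_const (c _)))))

theorem Ok.isCompact_U (H : P.Ok Λ) : IsCompact (P.U h) :=
  isCompact_Icc.image_of_continuousOn (h.cont_inv.mono H.sub)

theorem Ok.isCompact_B (H : P.Ok Λ) : IsCompact (P.B h) :=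
  (isCompact_Icc.of_isClosed_subset isClosed_frontier isClosed_Icc.frontier_subset
    ).image_of_continuousOn (h.cont_inv.mono (isClosed_Icc.frontier_subset.trans H.sub))

theorem Ok.isClosed_Y (H : P.Ok Λ) : IsClosed (P.Y h) :=
  ((isCompact_Icc.of_isClosed_subset P.marg_closed fun _ h => h.1
    ).image_of_continuousOn (h.cont_inv.mono fun _ hy => H.sub hy.1)).isClosed

theorem B_sub : P.B h ⊆ P.U h := image_mono isClosed_Icc.frontier_subset

theorem Y_sub : P.Y h ⊆ P.U h := image_mono fun _ h => h.1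

/-- a point is joined to a wall by moving one coordinate -/
theorem joined (H : P.Ok Λ) {T : Set V} {x : V} (hx : x ∈ P.U h) {l : Fin 3} {c : ℝ}
    (hc : c = P.lo l ∨ c = P.hi l)
    (hT : ∀ t ∈ uIcc (h.toFun x l) c, h.invFun (Function.update (h.toFun x) l t) ∈ T) :
    ∃ C ⊆ T, IsPreconnected C ∧ x ∈ C ∧ (C ∩ P.B h).Nonempty := by
  obtain ⟨hxΩ, hxb⟩ := H.mem_U.1 hx
  have hmem : ∀ t ∈ uIcc (h.toFun x l) c, Function.update (h.toFun x) l t ∈ Icc P.lo P.hi := by
    intro t ht
    have h1 := hxb.1 l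
    have h2 := hxb.2 l
    have h3 := (H.lt l).le
    have ht' : P.lo l ≤ t ∧ t ≤ P.hi l := by
      rw [mem_uIcc] at ht
      rcases hc with rfl | rfl <;> rcases ht with ht | ht <;> constructor <;> linarith
    constructor
    · intro k
      by_cases hk : k = l
      · subst hk; rw [Function.update_self]; exact ht'.1
      · rw [Function.update_of_ne hk]; exact hxb.1 k
    · intro k
      by_cases hk : k = l
      · subst hk; rw [Function.update_self]; exact ht'.2
      · rw [Function.update_of_ne hk]; exact hxb.2 k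
  refine ⟨(fun t => h.invFun (Function.update (h.toFun x) l t)) '' uIcc (h.toFun x l) c, ?_, ?_,
    ?_, ?_⟩
  · rintro _ ⟨t, ht, rfl⟩
    exact hT t ht
  · refine isPreconnected_uIcc.image _ (h.cont_inv.comp ?_ fun t ht => H.sub (hmem t ht))
    exact ((continuous_const (y := h.toFun x)).update l continuous_id).continuousOn
  · refine ⟨h.toFun x l, left_mem_uIcc, ?_⟩
    show h.invFun (Function.update (h.toFun x) l (h.toFun x l)) = x
    rw [Function.update_eq_self]; exact h.left_inv hxΩ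
  · refine ⟨_, mem_image_of_mem _ right_mem_uIcc, ?_⟩
    refine ⟨_, mem_frontier_box.2 ⟨hmem c right_mem_uIcc, l, ?_⟩, rfl⟩
    rw [Function.update_self]; exact hc

/-- points of the margin are joined to a side wall in the margin, by a segment in one of the
two directions -/
theorem marg_move {y : V} (hy : y ∈ P.marg) (H : P.Ok Λ) : ∃ l, (l = P.i ∨ l = P.j) ∧ ∃ c,
    (c = P.lo l ∨ c = P.hi l) ∧ (∀ t ∈ uIcc (y l) c, Function.update y l t ∈ P.marg) ∧
    (y l ≤ P.lo l + P.s ∨ P.hi l - P.s ≤ y l) := by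
  have key : ∀ l, (l = P.i ∨ l = P.j) → (y l ≤ P.lo l + P.s ∨ P.hi l - P.s ≤ y l) →
      ∃ l, (l = P.i ∨ l = P.j) ∧ ∃ c,
    (c = P.lo l ∨ c = P.hi l) ∧ (∀ t ∈ uIcc (y l) c, Function.update y l t ∈ P.marg) ∧
    (y l ≤ P.lo l + P.s ∨ P.hi l - P.s ≤ y l) := by
    intro l hl hyl
    have hlb := hy.1.1 l
    have hub := hy.1.2 l
    have hl0 := (H.lt l).le
    have hin : ∀ t, P.lo l ≤ t → t ≤ P.hi l → (t ≤ P.lo l + P.s ∨ P.hi l - P.s ≤ t) →
        Function.update y l t ∈ P.marg := by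
      intro t h1 h2 h3
      refine ⟨⟨fun k => ?_, fun k => ?_⟩, ?_⟩
      · by_cases hk : k = l
        · subst hk; rw [Function.update_self]; exact h1
        · rw [Function.update_of_ne hk]; exact hy.1.1 k
      · by_cases hk : k = l
        · subst hk; rw [Function.update_self]; exact h2
        · rw [Function.update_of_ne hk]; exact hy.1.2 k
      · rcases hl with rfl | rfl
        · rw [Function.update_self]; tauto
        · rw [Function.update_self]; tauto
    refine ⟨l, hl, ?_⟩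
    rcases hyl with h1 | h1
    · refine ⟨P.lo l, Or.inl rfl, fun t ht => ?_, Or.inl h1⟩
      rw [uIcc_of_ge hlb] at ht
      exact hin t ht.1 (ht.2.trans hub) (Or.inl (ht.2.trans h1))
    · refine ⟨P.hi l, Or.inr rfl, fun t ht => ?_, Or.inr h1⟩
      rw [uIcc_of_le hub] at ht
      exact hin t (hlb.trans ht.1) ht.2 (Or.inr (h1.trans ht.1))
  rcases hy.2 with h1 | h1 | h1 | h1
  · exact key P.i (Or.inl rfl) (Or.inl h1)
  · exact key P.i (Or.inl rfl) (Or.inr h1)
  · exact key P.j (Or.inr rfl) (Or.inl h1)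
  · exact key P.j (Or.inr rfl) (Or.inr h1)

/-- **the margin is safe** -/
theorem safe {ι : Type*} (H : P.Ok Λ) (M : ι → Set V) :
    Safe (boxData h M P.lo P.hi P.i P.j P.a P.b) (fun x => h.toFun x P.i)
      (fun x => h.toFun x P.j) (P.Y h) where
  closed := H.isClosed_Y
  sub := Y_sub
  all := by
    intro x hx
    obtain ⟨hxΩ, hxm⟩ := H.mem_Y.1 hx
    obtain ⟨l, -, c, hc, hT, -⟩ := marg_move hxm H
    exact joined H (Y_sub hx) hc fun t ht => ⟨_, hT t ht, rfl⟩
  ju := by
    rintro k hk x ⟨hx, hxk⟩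
    obtain ⟨hxΩ, hxm⟩ := H.mem_Y.1 hx
    obtain ⟨l, hl, c, hc, hT, h1⟩ := marg_move hxm H
    have hk' := H.a_mem k hk
    have hxk' : h.toFun x P.i = k := hxk
    rcases hl with rfl | rfl
    · rw [hxk'] at h1
      rcases h1 with h1 | h1
      · linarith [hk'.1]
      · linarith [hk'.2]
    · refine joined H (Y_sub hx) hc fun t ht => ⟨⟨_, hT t ht, rfl⟩, ?_⟩
      show h.toFun (h.invFun _) P.i = k
      rw [h.right_inv (H.sub (hT t ht).1), Function.update_of_ne H.ij]
      exact hxk'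
  jv := by
    rintro k hk x ⟨hx, hxk⟩
    obtain ⟨hxΩ, hxm⟩ := H.mem_Y.1 hx
    obtain ⟨l, hl, c, hc, hT, h1⟩ := marg_move hxm H
    have hk' := H.b_mem k hk
    have hxk' : h.toFun x P.j = k := hxk
    rcases hl with rfl | rfl
    · refine joined H (Y_sub hx) hc fun t ht => ⟨⟨_, hT t ht, rfl⟩, ?_⟩
      show h.toFun (h.invFun _) P.j = k
      rw [h.right_inv (H.sub (hT t ht).1), Function.update_of_ne H.ij.symm]
      exact hxk'
    · rw [hxk'] at h1
      rcases h1 with h1 | h1
      · linarith [hk'.1]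
      · linarith [hk'.2]
  juv := by
    rintro k hk l' hl' x ⟨hx, hxk, hxl⟩
    exfalso
    obtain ⟨hxΩ, hxm⟩ := H.mem_Y.1 hx
    have hk1 := H.a_mem k hk
    have hk2 := H.b_mem l' hl'
    have hxk' : h.toFun x P.i = k := hxk
    have hxl' : h.toFun x P.j = l' := hxl
    rcases hxm.2 with h1 | h1 | h1 | h1
    · rw [hxk'] at h1; linarith [hk1.1]
    · rw [hxk'] at h1; linarith [hk1.2]
    · rw [hxl'] at h1; linarith [hk2.1]
    · rw [hxl'] at h1; linarith [hk2.2]

end Plate

end P073.H805
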