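import Vale.Agent.P073.H919.HookG

/-!
# P073, block H805: [ACC-HOOK], the points above all drawn cells

`BoxK`: a straight column in the direction which is not an axis of the bands, from a point to the
wall of the box, which meets no open cell: the new clipped levels at the point are the old ones.
`HkGO.acc`: the hook of the plates, columns in the normal direction.
-/

open Set Metric Topology Filter
open scoped ENNReal

set_option linter.unusedSectionVars false

namespace P073.H142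

open P073 P073.H936 P073.TR P073.H267 P073.H880 P073.H936.K3

variable {ι : Type*} {E : Type} [NormedAddCommGroup E] [NormedSpace ℝ E] [Fintype ι]
  {side : ι → Bool} {ax : Bool → Fin 3} {lo hi : Fin 3 → ℝ} {c w : ι → ℝ} {U : Set E} {Q : Type}
  {D : BoxK side ax lo hi c w U Q}

/-- along a path outside of the open cells on which the old levels are constant, the new levels are
constant -/
theorem Loc.const_of_path {κ : Type*} [Fintype κ] {u : κ → E → ℝ} (hu : Loc D u) {γ : ℝ → E}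
    (hγ : ContinuousOn γ (Icc 0 1)) (hU : MapsTo γ (Icc 0 1) U)
    (hV : ∀ t ∈ Icc (0:ℝ) 1, ∀ q, γ t ∉ interior (D.K.C q))
    (ho : ∀ t ∈ Icc (0:ℝ) 1, ∀ i, old D i (γ t) = old D i (γ 0)) (i : κ) :
    u i (γ 1) = u i (γ 0) := by
  have h0 : cvar (fun s t => ENNReal.ofReal (dsum (old D) (γ s) (γ t))) 0 1 ≤ 0 := by
    refine cvar_le_iff.2 fun n v hv hv' => ?_
    refine le_of_eq (Finset.sum_eq_zero fun k _ => ?_)
    have h1 : dsum (old D) (γ (v k)) (γ (v (k + 1))) = 0 := by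
      refine Finset.sum_eq_zero fun i _ => ?_
      rw [ho _ (hv' _) i, ho _ (hv' _) i, sub_self, abs_zero]
    rw [h1, ENNReal.ofReal_zero]
  have h1 := (le_cvar (c := fun s t => ENNReal.ofReal (dsum u (γ s) (γ t))) zero_le_one).trans
    ((hu.rest_cvar hγ hU hV).trans h0)
  have h2 : dsum u (γ 0) (γ 1) = 0 :=
    le_antisymm (ENNReal.ofReal_eq_zero.1 (le_antisymm h1 zero_le)) (dsum_nonneg _ _ _)
  have h3 := (Finset.sum_eq_zero_iff_of_nonneg (fun i _ => abs_nonneg _)).1 h2 i (Finset.mem_univ i)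
  linarith [abs_eq_zero.1 h3]

/-- **a free column**: the levels do not change -/
theorem Switched.acc {r : ℝ} {g : ConHomeo U (Icc lo hi)} (T : D.Switched r g) (h0 : 0 < r)
    (h1 : r < 1) {l₀ : Fin 3} (hl : ∀ X, ax X ≠ l₀) {x : E} (hx : x ∈ U) {t₁ : ℝ}
    (ht₁ : t₁ = lo l₀ ∨ t₁ = hi l₀)
    (hcol : ∀ z ∈ U, (∀ l, l ≠ l₀ → D.h.toFun z l = D.h.toFun x l) →
      D.h.toFun z l₀ ∈ uIcc (D.h.toFun x l₀) t₁ → ∀ q, z ∉ interior (D.K.C q)) (i : ι) :
    wlev side ax r c w g.toFun i x = wlev side ax r c w D.h.toFun i x := by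
  have hy := D.h.mapsTo hx
  set y := D.h.toFun x with hyd
  have hlt := D.H.lohi
  have ht₁I : t₁ ∈ Icc (lo l₀) (hi l₀) := by
    rcases ht₁ with e | e <;> rw [e]
    · exact ⟨le_rfl, (hlt l₀).le⟩
    · exact ⟨(hlt l₀).le, le_rfl⟩
  have hyI : y l₀ ∈ Icc (lo l₀) (hi l₀) := ⟨hy.1 l₀, hy.2 l₀⟩
  have hpt : ∀ t ∈ Icc (lo l₀) (hi l₀), Function.update y l₀ t ∈ Icc lo hi := by
    intro t ht
    constructor
    · intro k
      by_cases hk : k = l₀
      · subst hk; rw [Function.update_self]; exact ht.1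
      · rw [Function.update_of_ne hk]; exact hy.1 k
    · intro k
      by_cases hk : k = l₀
      · subst hk; rw [Function.update_self]; exact ht.2
      · rw [Function.update_of_ne hk]; exact hy.2 k
  set τ : ℝ → ℝ := fun s => y l₀ + s * (t₁ - y l₀) with hτ
  have hτu : ∀ s ∈ Icc (0:ℝ) 1, τ s ∈ uIcc (y l₀) t₁ := by
    intro s hs
    have h2 : τ s ∈ segment ℝ (y l₀) t₁ := by
      rw [segment_eq_image']
      exact ⟨s, hs, rfl⟩
    rwa [segment_eq_uIcc] at h2
  have hτI : ∀ s ∈ Icc (0:ℝ) 1, τ s ∈ Icc (lo l₀) (hi l₀) := fun s hs =>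
    uIcc_subset_Icc hyI ht₁I (hτu s hs)
  set δ : ℝ → Fin 3 → ℝ := fun s => Function.update y l₀ (τ s) with hδ
  set γ : ℝ → E := fun s => D.h.invFun (δ s) with hγd
  have hδI : ∀ s ∈ Icc (0:ℝ) 1, δ s ∈ Icc lo hi := fun s hs => hpt _ (hτI s hs)
  have hδc : Continuous δ := by
    refine continuous_pi fun k => ?_
    by_cases hk : k = l₀
    · subst hk
      simp only [hδ, Function.update_self, hτ]
      fun_prop
    · simp only [hδ, Function.update_of_ne hk]
      exact continuous_const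
  have hγc : ContinuousOn γ (Icc 0 1) := D.h.cont_inv.comp hδc.continuousOn fun s hs => hδI s hs
  have hγU : MapsTo γ (Icc 0 1) U := fun s hs => D.h.mapsTo_inv (hδI s hs)
  have hγe : ∀ s ∈ Icc (0:ℝ) 1, D.h.toFun (γ s) = δ s := fun s hs => D.h.right_inv (hδI s hs)
  have hne : ∀ s, ∀ l, l ≠ l₀ → δ s l = y l := fun s l hl' => Function.update_of_ne hl' _ _
  have hδ0 : δ 0 = y := by
    show Function.update y l₀ (y l₀ + 0 * (t₁ - y l₀)) = y
    rw [zero_mul, add_zero, Function.update_eq_self]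
  have hγ0 : γ 0 = x := by
    show D.h.invFun (δ 0) = x
    rw [hδ0]
    exact D.h.left_inv hx
  have h01 : (1:ℝ) ∈ Icc (0:ℝ) 1 := ⟨zero_le_one, le_rfl⟩
  have key := (Loc.of_switched T h0 h1).const_of_path hγc hγU
    (fun s hs q => hcol (γ s) (hγU hs) (fun l hl' => by rw [hγe s hs]; exact hne s l hl')
      (by
        rw [hγe s hs]
        show Function.update y l₀ (τ s) l₀ ∈ _
        rw [Function.update_self]
        exact hτu s hs) q)
    (fun s hs i => by
      show cl 1 c w i (D.h.toFun (γ s) (ax (side i))) = cl 1 c w i (D.h.toFun (γ 0) (ax (side i)))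
      rw [hγe s hs, hγ0, hne s _ (hl _)]) i
  rw [hγ0] at key
  rw [← key]
  have hbd : γ 1 ∈ D.Bd := by
    rw [D.mem_Bd (hγU h01), hγe 1 h01]
    refine ⟨subset_closure (hδI 1 h01), fun hint => ?_⟩
    rw [← Set.pi_univ_Icc, interior_pi_set (toFinite _)] at hint
    have h2 : δ 1 l₀ ∈ interior (Icc (lo l₀) (hi l₀)) := hint l₀ (mem_univ l₀)
    have h3 : δ 1 l₀ = t₁ := by
      show Function.update y l₀ (y l₀ + 1 * (t₁ - y l₀)) l₀ = t₁
      rw [Function.update_self]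
      ring
    rw [interior_Icc, h3] at h2
    rcases ht₁ with h | h
    · rw [h] at h2; exact lt_irrefl _ h2.1
    · rw [h] at h2; exact lt_irrefl _ h2.2
  show cl r c w i (g.toFun (γ 1) (ax (side i))) = cl r c w i (D.h.toFun x (ax (side i)))
  rw [T.bd hbd, hγe 1 h01, hne 1 _ (hl _)]

end P073.H142

namespace P073.H919

open P073 P073.H936 P073.H936.K3 P073.H142 P073.H880 P073.H345 P073.H236 P073.H579
open Vale.Agent.P073.St (V)
open Vale.Agent.P073.AB (Idx)
open Vale.Agent.P073.H73 (Mesh)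
open Vale.Agent.P073.H471 Vale.Agent.P073.H267
open P073.Net P073.PA691

variable {Ω Λ : Set V} {v : V} {K : BoxCx Λ v} {S : Rad K} {W : Wid K S} {B : Boxes W}
  {G : Geo B} {L : PLev G} {γ : Type*} {φ : γ → K.S} {F : Bool → BFam 3 γ Λ}
  {T : Bool → ConHomeo Λ Λ} {M : Mesh Ω} {κ₀ κ₁ : V → V} {c d : ℝ} {Zb : γ → Set M.ι}
  {h2 h3 h4 h5 : ConHomeo Ω Λ} {u : V} {H : HkG M L φ F T κ₀ κ₁ c d Zb h2 h3 h4 u}
  {hΩ : IsOpen Ω} {r : γ → ℝ}

/-- the clipped levels of the plate `φ b` -/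
noncomputable abbrev plev (L : PLev G) (F : Bool → BFam 3 γ Λ) (φ : γ → K.S) (b : γ) (ρ : ℝ)
    (f : V → V) : PI L (φ b) → V → ℝ :=
  wlev (ι := PI L (φ b)) Sigma.fst (tg (φ b)) ρ (pcen L (φ b))
    (pwid L (fun β => (F β).e b) (φ b)) f

/-- **a free column up**: the levels of both families do not change -/
theorem HkGO.acc_up (O : HkGO H hΩ r h5) (b : γ) (r0 : 0 < r b) (r1 : r b < 1) {x : V}
    (hx : x ∈ Ω) (hB : h4.toFun x ∈ HB G c d (φ b))
    (hcol : ∀ z ∈ Ω, h4.toFun z ∈ HB G c d (φ b) →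
      (∀ l, l ≠ K.nrm (φ b) → h4.toFun z l = h4.toFun x l) →
      h4.toFun x (K.nrm (φ b)) ≤ h4.toFun z (K.nrm (φ b)) → ∀ i ∈ Zb b, z ∉ interior (M.Q i))
    (i : PI L (φ b)) : plev L F φ b (r b) h5.toFun i x = plev L F φ b (r b) h4.toFun i x := by
  obtain ⟨g, hg, e1, -⟩ := O.sw b
  have hxU : x ∈ (phook M L φ F c d Zb b).U h4 := (H.mem_U b hx).2 hB
  have key := Switched.acc hg r0 r1 (l₀ := K.nrm (φ b)) (fun X => tg_ne (φ b) X) hxU
    (t₁ := hhi G c d (φ b) (K.nrm (φ b))) (Or.inr rfl) (fun z hz hzl hzn q => by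
      rw [show ((H.hookIn b).boxK hΩ).K.C q = M.Q q.1 from H.hookIn_C b q]
      have hzΩ := H.U_sub b hz
      have hzB := (H.mem_U b hzΩ).1 hz
      refine hcol z hzΩ hzB hzl ?_ q.1 q.2
      have h2 : h4.toFun x (K.nrm (φ b)) ≤ hhi G c d (φ b) (K.nrm (φ b)) := hB.2 _
      have h3 : h4.toFun z (K.nrm (φ b)) ∈ uIcc (h4.toFun x (K.nrm (φ b)))
        (hhi G c d (φ b) (K.nrm (φ b))) := hzn
      rw [uIcc_of_le h2] at h3
      exact h3.1) i
  exact (congrArg (fun y : V => cl (r b) (pcen L (φ b)) (pwid L (fun β => (F β).e b) (φ b)) i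
    (y (tg (φ b) i.1))) (e1 hxU)).trans key

/-- **a free column down** -/
theorem HkGO.acc_down (O : HkGO H hΩ r h5) (b : γ) (r0 : 0 < r b) (r1 : r b < 1) {x : V}
    (hx : x ∈ Ω) (hB : h4.toFun x ∈ HB G c d (φ b))
    (hcol : ∀ z ∈ Ω, h4.toFun z ∈ HB G c d (φ b) →
      (∀ l, l ≠ K.nrm (φ b) → h4.toFun z l = h4.toFun x l) →
      h4.toFun z (K.nrm (φ b)) ≤ h4.toFun x (K.nrm (φ b)) → ∀ i ∈ Zb b, z ∉ interior (M.Q i))
    (i : PI L (φ b)) : plev L F φ b (r b) h5.toFun i x = plev L F φ b (r b) h4.toFun i x := by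
  obtain ⟨g, hg, e1, -⟩ := O.sw b
  have hxU : x ∈ (phook M L φ F c d Zb b).U h4 := (H.mem_U b hx).2 hB
  have key := Switched.acc hg r0 r1 (l₀ := K.nrm (φ b)) (fun X => tg_ne (φ b) X) hxU
    (t₁ := hlo G c d (φ b) (K.nrm (φ b))) (Or.inl rfl) (fun z hz hzl hzn q => by
      rw [show ((H.hookIn b).boxK hΩ).K.C q = M.Q q.1 from H.hookIn_C b q]
      have hzΩ := H.U_sub b hz
      have hzB := (H.mem_U b hzΩ).1 hz
      refine hcol z hzΩ hzB hzl ?_ q.1 q.2
      have h2 : hlo G c d (φ b) (K.nrm (φ b)) ≤ h4.toFun x (K.nrm (φ b)) := hB.1 _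
      have h3 : h4.toFun z (K.nrm (φ b)) ∈ uIcc (h4.toFun x (K.nrm (φ b)))
        (hlo G c d (φ b) (K.nrm (φ b))) := hzn
      rw [uIcc_of_ge h2] at h3
      exact h3.2) i
  exact (congrArg (fun y : V => cl (r b) (pcen L (φ b)) (pwid L (fun β => (F β).e b) (φ b)) i
    (y (tg (φ b) i.1))) (e1 hxU)).trans key

/-- **[ACC-HOOK]** the points of the box which are higher than all drawn cells -/
theorem HkGO.acc (O : HkGO H hΩ r h5) (b : γ) (r0 : 0 < r b) (r1 : r b < 1) {t : ℝ}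
    (hcell : ∀ i ∈ Zb b, ∀ z ∈ M.Q i, |h4.toFun z (K.nrm (φ b)) - K.slo (φ b) (K.nrm (φ b))| < t)
    {x : V} (hx : x ∈ Ω) (hB : h4.toFun x ∈ HB G c d (φ b))
    (ht : t ≤ |h4.toFun x (K.nrm (φ b)) - K.slo (φ b) (K.nrm (φ b))|) (i : PI L (φ b)) :
    plev L F φ b (r b) h5.toFun i x = plev L F φ b (r b) h4.toFun i x := by
  rcases le_total 0 (h4.toFun x (K.nrm (φ b)) - K.slo (φ b) (K.nrm (φ b))) with h | h
  · rw [abs_of_nonneg h] at ht
    refine O.acc_up b r0 r1 hx hB (fun z hz _ _ hzn i hi hzi => ?_) i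
    have h1 := (abs_lt.1 (hcell i hi z (interior_subset hzi))).2
    linarith
  · rw [abs_of_nonpos h] at ht
    refine O.acc_down b r0 r1 hx hB (fun z hz _ _ hzn i hi hzi => ?_) i
    have h1 := (abs_lt.1 (hcell i hi z (interior_subset hzi))).1
    linarith

end P073.H919
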