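import Vale.Agent.P073.H267.K3T2
import Vale.Agent.P073.H805.AccZ

/-!
# P073, block H805: [ACC-HOOK], part Z, over the stages of `K3C`

`S4.accZ_pt`: let `h2 z = κ (h3 x)` and let `h1 z` be above the Z-wall `|n| = τ / 4` at a side which
is not protected; then the clipped levels of `h5` at `x` are those of `h4`.
`S4.accZ`: the same for the points of a face or cell whose `h1`-image is above the Z-wall.
-/

open Set Metric Topology Filter
open scoped ENNReal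

set_option linter.unusedSectionVars false

namespace Vale.Agent.P073.H267.K3

open _root_.P073 _root_.P073.Net _root_.P073.PA691 _root_.P073.H236 _root_.P073.H579
open _root_.P073.H936 _root_.P073.H936.K3
open _root_.P073.H142
open _root_.P073.H345 (PK tg tg_ne PLev PK_unique PB_sub_PK)
open _root_.P073.H880.RP
open _root_.P073.H919 (HkG HkGF HkGO ZbP sfam HB plev hlo hhi mem_HB HB_PB HB_sub κ_mem_iff
  not_interior_of_cell)
open Vale.Agent.P073.St (V)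
open Vale.Agent.P073.H471 Vale.Agent.P073.H267
open Vale.Agent.P073.H73 (Mesh)
open Vale.Agent.P073.H193 (Edges Cyc edges)
open Vale.Agent.P073.H304 (Nb In Zmax)
open Vale.Agent.P073.H926
open Vale.Agent.P073.H238.K3
open Vale.Agent.P073.H341 (Abv Mg)
open Vale.Agent.P073.H805 (lvs)

variable {c₀ n δ : ℝ} {j : ℕ} {Ω Λ : Set V} {v w : V} {ρ : V → ℝ} {M : Mesh Ω} {h : ConHomeo Ω Λ}
  {J₀ J : Set (ℕ × (Fin 3 → ℤ))} {P Z : Set M.ι} {K : BoxCx Λ w}
  {D : KIn3 c₀ n j δ v w ρ M h J₀ J P Z} {C : Cells ρ w K} {C₀ μT : ℝ}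
  {X : S1 D C C₀ μT} {Y₂ : S2 X} {Ys : Set M.κ} {sc : Sharp} {Y₃ : S3 Y₂ Ys sc}

/-- the box of the exchange is in the box of the hook -/
theorem pe_HB {s : K.S} (hs : s ∈ (D.dat C).S₀) :
    (D.dat C).PE (D.G C) s ⊆ HB (D.G C) (29 / 32) (3 / 4) s := by
  rintro y ⟨h1, h2, h3⟩
  have hp := Geo.p_pos (G := D.G C) s
  have hτ := (D.B C).τ_pos s
  have ht := fun β => (Vale.Agent.P073.H341.htOk_dat D C).le s hs β
  have h4 := ht true
  have h5 := ht false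
  refine mem_HB.2 ⟨fun k hk => ?_, abs_le.2 ⟨by linarith, by linarith⟩⟩
  have h6 := h1 k hk
  constructor <;> linarith [h6.1, h6.2]

/-- height of the box of the exchange -/
theorem pe_PB_abs {s : K.S} (hs : s ∈ (D.dat C).S₀) {y : V}
    (hy : y ∈ (D.dat C).PE (D.G C) s) :
    |y (K.nrm s) - K.slo s (K.nrm s)| ≤ (D.B C).τ s / 2 := by
  obtain ⟨h1, h2, h3⟩ := hy
  have ht := fun β => (Vale.Agent.P073.H341.htOk_dat D C).le s hs β
  have h4 := ht true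
  have h5 := ht false
  exact abs_le.2 ⟨by linarith, by linarith⟩

/-- cells which meet the part of the box above the Z-wall are not drawn -/
theorem not_drawn_of_Abv (X : S1 D C C₀ μT) {i : M.ι} {x : V} (hx : x ∈ M.Q i) {s : K.S}
    (hxs : X.h1.toFun x ∈ PK (D.G C) s) {β : Bool} {t : ℝ} (ht : (D.B C).τ s / 5 < t)
    (hA : Abv K s β t (X.h1.toFun x)) : i ∉ (D.dat C).Zd := by
  intro hi
  have hT : ∀ k, ∀ x ∈ M.F k, ∀ q, h.toFun x ∈ K.cube q →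
      ‖X.h1.toFun x - h.toFun x‖ ≤ (D.G C).om q := fun k x hx q hq =>
    X.out.near3 x (Vale.Agent.P073.H193.mesh_sub M k hx) q hq
  have h2 := abs_le.1 (D.drawn_PK C hi (D.nearC_drawn C hT hi) hx hxs).2
  unfold Abv at hA
  cases β with
  | true =>
    simp only [if_true] at hA
    linarith [h2.2]
  | false =>
    simp only [Bool.false_eq_true, if_false] at hA
    linarith [h2.1]

/-- off the boxes of the exchange nothing changes -/
theorem S2.off_of_HB (Y₂ : S2 X) {s : K.S} {z : V} (hz : z ∈ Ω)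
    (hzs : X.h1.toFun z ∈ PK (D.G C) s)
    (hno : X.h1.toFun z ∉ interior ((D.dat C).PE (D.G C) s)) :
    Y₂.h2.toFun z = X.h1.toFun z := by
  refine Y₂.ex.ex.off z hz fun s' hs' hi => ?_
  have h1 : X.h1.toFun z ∈ PK (D.G C) s' :=
    PB_sub_PK (by norm_num) s' (Y₂.ex.ht.pe_PB hs' (interior_subset hi))
  have e := PK_unique h1 hzs
  subst e
  exact hno hi

theorem HB_PK {G : Geo (D.B C)} {s : K.S} {y : V} (h : y ∈ HB G (29 / 32) (3 / 4) s) :
    y ∈ PK G s := PB_sub_PK (by norm_num) s (HB_PB le_rfl (by norm_num) s h)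

/-- **the levels at a point above the Z-wall are not changed by the hook of the plates** -/
theorem S4.accZ_pt (Y₄ : S4 Y₃) {s : (D.dat C).S₀} {x z : V} (hx : x ∈ Ω)
    (hB : Y₃.h4.toFun x ∈ HB (D.G C) (29 / 32) (3 / 4) s.1) (hz : z ∈ Ω)
    (hzx : Y₂.h2.toFun z = Y₃.κ true (Y₃.κ false (Y₃.h3.toFun x))) {β : Bool}
    (hsd : ¬ (D.dat C).sd s.1 β) (hA : Abv K s.1 β ((D.B C).τ s.1 / 4) (X.h1.toFun z))
    (i : _root_.P073.H919.PI Y₃.Lt s.1) :
    plev Y₃.Lt Y₃.F Subtype.val s (Y₄.r s) Y₄.h5.toFun i x =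
      plev Y₃.Lt Y₃.F Subtype.val s (Y₄.r s) Y₃.h4.toFun i x := by
  have hτ := (D.B C).τ_pos s.1
  have h01 : (0:ℝ) ∈ Icc (0:ℝ) 1 := ⟨le_rfl, zero_le_one⟩
  have h11 : (1:ℝ) ∈ Icc (0:ℝ) 1 := ⟨zero_le_one, le_rfl⟩
  have h33 : ∀ z ∈ Ω, Y₃.h3.toFun z ∈ HB (D.G C) (29 / 32) (3 / 4) s.1 →
      Y₃.h3p.toFun z = Y₃.h3.toFun z := fun z hz hzB =>
    (Y₃.map4B s.2 hz (HB_PB (by norm_num) (by norm_num) s.1 hzB)).2
  have HP := Y₄.H.P.prodOn s Y₄.H.hc Y₄.H.hc2 Y₄.H.hd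
  have hB3 : Y₃.h3.toFun x ∈ HB (D.G C) (29 / 32) (3 / 4) s.1 := by
    rw [← Y₃.eqHB s.1 s.2 x hx hB]
    refine (HP.mem _ (Y₃.h3p.mapsTo hx)).1 ?_
    show (Y₃.T3 true).toFun ((Y₃.T3 false).toFun (Y₃.h3p.toFun x)) ∈ _
    rw [← Y₄.H.map x hx]
    exact hB
  have hB2 : Y₂.h2.toFun z ∈ HB (D.G C) (29 / 32) (3 / 4) s.1 := by
    rw [hzx]
    exact (κ_mem_iff Y₄.H.P.inj Y₄.H.q₀ Y₄.H.q₁ Y₄.H.hc Y₄.H.hc2 Y₄.H.hd).2 hB3
  -- the position of `h1 z`
  set y₀ := X.h1.toFun z with hy₀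
  have hy₀B : y₀ ∈ HB (D.G C) (29 / 32) (3 / 4) s.1 := by
    by_cases hpe : ∃ s' ∈ (D.dat C).S₀, y₀ ∈ interior ((D.dat C).PE (D.G C) s')
    · obtain ⟨s', hs', hi⟩ := hpe
      have h1 : Y₂.h2.toFun z ∈ (D.dat C).PE (D.G C) s' :=
        (Y₂.ex.ex.box s' hs' z hz).2 (interior_subset hi)
      have e := PK_unique (HB_PK (pe_HB hs' h1)) (HB_PK hB2)
      rw [← e]
      exact pe_HB hs' (interior_subset hi)
    · push Not at hpe
      rw [hy₀, ← Y₂.ex.ex.off z hz hpe]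
      exact hB2
  have hnB := (mem_HB.1 hy₀B).2
  -- the wall
  obtain ⟨W, hW, hWB, hWA⟩ : ∃ W : ℝ, (W = hlo (D.G C) (29 / 32) (3 / 4) s.1 (K.nrm s.1) ∨
      W = hhi (D.G C) (29 / 32) (3 / 4) s.1 (K.nrm s.1)) ∧
      |W - K.slo s.1 (K.nrm s.1)| = 3 / 4 * (D.B C).τ s.1 ∧
      ∀ y : V, (∃ t ∈ Icc (0:ℝ) 1, y (K.nrm s.1) =
        y₀ (K.nrm s.1) + t * (W - y₀ (K.nrm s.1))) → Abv K s.1 β ((D.B C).τ s.1 / 4) y := by
    have hn := abs_le.1 hnB
    cases β with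
    | true =>
      have hA' : K.slo s.1 (K.nrm s.1) + (D.B C).τ s.1 / 4 ≤ y₀ (K.nrm s.1) := by
        unfold Abv at hA; simpa using hA
      refine ⟨K.slo s.1 (K.nrm s.1) + 3 / 4 * (D.B C).τ s.1, Or.inr ?_, ?_, ?_⟩
      · unfold hhi; rw [if_pos rfl]
      · rw [add_sub_cancel_left, abs_of_pos (by positivity)]
      · rintro y ⟨t, ht, hy⟩
        unfold Abv
        rw [if_pos rfl, hy]
        nlinarith [ht.1, mul_nonneg ht.1 (show (0:ℝ) ≤ K.slo s.1 (K.nrm s.1) +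
          3 / 4 * (D.B C).τ s.1 - y₀ (K.nrm s.1) by linarith [hn.2])]
    | false =>
      have hA' : y₀ (K.nrm s.1) ≤ K.slo s.1 (K.nrm s.1) - (D.B C).τ s.1 / 4 := by
        unfold Abv at hA; simpa using hA
      refine ⟨K.slo s.1 (K.nrm s.1) - 3 / 4 * (D.B C).τ s.1, Or.inl ?_, ?_, ?_⟩
      · unfold hlo; rw [if_pos rfl]
      · rw [sub_sub_cancel_left, abs_neg, abs_of_pos (by positivity)]
      · rintro y ⟨t, ht, hy⟩
        unfold Abv
        rw [if_neg (by simp), hy]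
        nlinarith [ht.1, mul_nonneg ht.1 (show (0:ℝ) ≤ y₀ (K.nrm s.1) -
          (K.slo s.1 (K.nrm s.1) - 3 / 4 * (D.B C).τ s.1) by linarith [hn.1])]
  -- the column
  set N := K.nrm s.1 with hN
  set wt : ℝ → V := fun t => Function.update y₀ N (y₀ N + t * (W - y₀ N)) with hwt
  have hwN : ∀ t, wt t N = y₀ N + t * (W - y₀ N) := fun t => Function.update_self _ _ _
  have hwl : ∀ t, ∀ l, l ≠ N → wt t l = y₀ l := fun t l hl => Function.update_of_ne hl _ _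
  have hwc : Continuous wt := by
    refine continuous_pi fun l => ?_
    by_cases hl : l = N
    · subst hl
      simp only [hwN]
      fun_prop
    · simp only [hwl _ l hl]
      exact continuous_const
  have hwB : ∀ t ∈ Icc (0:ℝ) 1, wt t ∈ HB (D.G C) (29 / 32) (3 / 4) s.1 := by
    intro t ht
    refine mem_HB.2 ⟨fun k hk => ?_, ?_⟩
    · rw [hwl t k hk]
      exact (mem_HB.1 hy₀B).1 k hk
    · rw [← hN, hwN]
      have e : y₀ N + t * (W - y₀ N) - K.slo s.1 N =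
          (1 - t) * (y₀ N - K.slo s.1 N) + t * (W - K.slo s.1 N) := by ring
      rw [e]
      refine (abs_add_le _ _).trans ?_
      rw [abs_mul, abs_mul, abs_of_nonneg (by linarith [ht.2] : 0 ≤ 1 - t),
        abs_of_nonneg ht.1, hWB]
      have := mul_le_mul_of_nonneg_left hnB (by linarith [ht.2] : 0 ≤ 1 - t)
      linarith
  have hwA : ∀ t ∈ Icc (0:ℝ) 1, Abv K s.1 β ((D.B C).τ s.1 / 4) (wt t) := fun t ht =>
    hWA _ ⟨t, ht, hwN t⟩
  have hwΛ : ∀ t ∈ Icc (0:ℝ) 1, wt t ∈ Λ := fun t ht => HB_sub (by norm_num) (by norm_num) _ (hwB t ht)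
  set c : ℝ → V := fun t => X.h1.invFun (wt t) with hc
  have hcΩ : ∀ t ∈ Icc (0:ℝ) 1, c t ∈ Ω := fun t ht => X.h1.mapsTo_inv (hwΛ t ht)
  have hc1 : ∀ t ∈ Icc (0:ℝ) 1, X.h1.toFun (c t) = wt t := fun t ht => X.h1.right_inv (hwΛ t ht)
  have hcc : ContinuousOn c (Icc 0 1) := X.h1.cont_inv.comp hwc.continuousOn (fun t ht => hwΛ t ht)
  have hw0 : wt 0 = y₀ := by
    show Function.update y₀ N (y₀ N + 0 * (W - y₀ N)) = y₀
    rw [zero_mul, add_zero, Function.update_eq_self]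
  have hc0 : c 0 = z := by
    show X.h1.invFun (wt 0) = z
    rw [hw0]
    exact X.h1.left_inv hz
  -- other boxes
  have hoth : ∀ t ∈ Icc (0:ℝ) 1, ∀ s' ∈ (D.dat C).S₀, s' ≠ s.1 →
      X.h1.toFun (c t) ∉ interior ((D.dat C).PE (D.G C) s') := by
    intro t ht s' hs' hne hi
    rw [hc1 t ht] at hi
    exact hne (PK_unique (HB_PK (pe_HB hs' (interior_subset hi))) (HB_PK (hwB t ht)))
  -- the path
  set p : ℝ → V := fun t => Y₂.h2.toFun (c t) with hp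
  have hpc : ContinuousOn p (Icc 0 1) := Y₂.h2.cont.comp hcc (fun t ht => hcΩ t ht)
  have hoff : ∀ t ∈ Icc (0:ℝ) 1, wt t ∉ interior ((D.dat C).PE (D.G C) s.1) → p t = wt t := by
    intro t ht hi
    have h1 := Y₂.off_of_HB (hcΩ t ht) (s := s.1) (by rw [hc1 t ht]; exact HB_PK (hwB t ht))
      (by rw [hc1 t ht]; exact hi)
    rw [hc1 t ht] at h1
    exact h1
  have hpB : MapsTo p (Icc 0 1) (HB (D.G C) (29 / 32) (3 / 4) s.1) := by
    intro t ht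
    by_cases hi : wt t ∈ interior ((D.dat C).PE (D.G C) s.1)
    · exact pe_HB s.2 ((Y₂.ex.ex.box s.1 s.2 (c t) (hcΩ t ht)).2
        (by rw [hc1 t ht]; exact interior_subset hi))
    · rw [hoff t ht hi]
      exact hwB t ht
  have hlev : ∀ t ∈ Icc (0:ℝ) 1, ∀ l, ∀ a ∈ lvs Y₂.L.lv s.1 l, (p t l = a ↔ wt t l = a) := by
    intro t ht l a ha
    have h1 := (Y₂.ex.exZ.lev s.1 s.2 (c t) (hcΩ t ht) (fun hi => Or.inl ?_) (hoth t ht) l a ha).1
    · rwa [hc1 t ht] at h1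
    · have h2 := hwA t ht
      have h3 : (D.dat C).ht s.1 β = (D.B C).τ s.1 / 2 := D.dat_ht_not C hsd
      refine ⟨interior_subset hi, ?_⟩
      rw [hc1 t ht]
      unfold Abv at h2
      cases β with
      | true =>
        left
        rw [if_pos rfl] at h2
        exact ⟨hsd, by rw [h3]; linarith⟩
      | false =>
        right
        rw [if_neg (by simp)] at h2
        exact ⟨hsd, by rw [h3]; linarith⟩
  have hpl : ∀ l, (∀ t ∈ Icc (0:ℝ) 1, p t l = p 0 l) ∨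
      ∀ t ∈ Icc (0:ℝ) 1, p t l ∉ Y₃.Lt.lv s.1 l := by
    intro l
    by_cases hl : l = N
    · right
      intro t _ hmem
      rw [hl, hN, PLev.lv_nrm] at hmem
      exact Finset.notMem_empty _ hmem
    · have e1 : lvs Y₂.L.lv s.1 l = Y₂.L.lv s.1 l := if_neg hl
      have e2 : Y₃.Lt.lv s.1 l = Y₂.L.lv s.1 l := thinL_lv s.1 l
      by_cases hm : y₀ l ∈ Y₂.L.lv s.1 l
      · left
        intro t ht
        have h1 := (hlev t ht l (y₀ l) (by rw [e1]; exact hm)).2 (hwl t l hl)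
        have h2 := (hlev 0 h01 l (y₀ l) (by rw [e1]; exact hm)).2 (hwl 0 l hl)
        rw [h1, h2]
      · right
        intro t ht hmem
        rw [e2] at hmem
        have h1 := (hlev t ht l (p t l) (by rw [e1]; exact hmem)).1 rfl
        rw [hwl t l hl] at h1
        rw [h1] at hm
        exact hm hmem
  have hend : p 1 N = hlo (D.G C) (29 / 32) (3 / 4) s.1 N ∨
      p 1 N = hhi (D.G C) (29 / 32) (3 / 4) s.1 N := by
    have h1 : wt 1 N = W := by rw [hwN]; ring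
    have h2 : p 1 = wt 1 := by
      refine hoff 1 h11 fun hi => ?_
      have h3 := pe_PB_abs s.2 (interior_subset hi)
      rw [← hN, h1, hWB] at h3
      linarith
    rw [h2, h1]
    exact hW
  refine Y₄.hko.acc_path s (Y₄.r0 s) (Y₄.r1 s) h33 hx hB3 hpc hpB ?_ hpl hend ?_ i
  · rw [← hzx]
    show Y₂.h2.toFun z = Y₂.h2.toFun (c 0)
    rw [hc0]
  · intro t ht
    obtain ⟨i', hi'⟩ := M.cover (c t) (hcΩ t ht)
    refine ⟨M.Q i', M.sub i', Y₃.ins.out.img_cell i', ⟨c t, hi', rfl⟩, fun i hi => ?_⟩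
    refine disjoint_left.2 fun y hy hyi => not_interior_of_cell M (i := i) (i' := i') ?_ hy hyi
    rintro rfl
    exact not_drawn_of_Abv X hi' (s := s.1) (by rw [hc1 t ht]; exact HB_PK (hwB t ht))
      (t := (D.B C).τ s.1 / 4) (by linarith) (by rw [hc1 t ht]; exact hwA t ht) hi.1.1

/-- the same for the points of a face or of a cell whose `h1`-image is above the Z-wall -/
theorem S4.accZ (Y₄ : S4 Y₃) {s : (D.dat C).S₀} {A : Set V} (hA : A ⊆ Ω)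
    (himg : Y₃.h3.toFun '' A = Pre (Y₃.κ true ∘ Y₃.κ false) Λ Y₂.h2 A) {x : V} (hx : x ∈ A)
    (hB : Y₃.h4.toFun x ∈ HB (D.G C) (29 / 32) (3 / 4) s.1) {β : Bool}
    (hsd : ¬ (D.dat C).sd s.1 β)
    (hhi : ∀ z ∈ A, Abv K s.1 β ((D.B C).τ s.1 / 4) (X.h1.toFun z))
    (i : _root_.P073.H919.PI Y₃.Lt s.1) :
    plev Y₃.Lt Y₃.F Subtype.val s (Y₄.r s) Y₄.h5.toFun i x =
      plev Y₃.Lt Y₃.F Subtype.val s (Y₄.r s) Y₃.h4.toFun i x := by
  have h1 : Y₃.h3.toFun x ∈ Pre (Y₃.κ true ∘ Y₃.κ false) Λ Y₂.h2 A := by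
    rw [← himg]; exact mem_image_of_mem _ hx
  obtain ⟨z, hz, hzx⟩ := h1.2
  exact Y₄.accZ_pt (hA hx) hB (hA hz) hzx hsd (hhi z hz) i

theorem S4.accZ_face (Y₄ : S4 Y₃) {s : (D.dat C).S₀} {k : M.κ} {x : V} (hx : x ∈ M.F k)
    (hB : Y₃.h4.toFun x ∈ HB (D.G C) (29 / 32) (3 / 4) s.1) {β : Bool}
    (hsd : ¬ (D.dat C).sd s.1 β)
    (hhi : ∀ z ∈ M.F k, Abv K s.1 β ((D.B C).τ s.1 / 4) (X.h1.toFun z))
    (i : _root_.P073.H919.PI Y₃.Lt s.1) :
    plev Y₃.Lt Y₃.F Subtype.val s (Y₄.r s) Y₄.h5.toFun i x =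
      plev Y₃.Lt Y₃.F Subtype.val s (Y₄.r s) Y₃.h4.toFun i x :=
  Y₄.accZ (Vale.Agent.P073.H193.mesh_sub M k) (Y₃.ins.out.img_face k) hx hB hsd hhi i

theorem S4.accZ_cell (Y₄ : S4 Y₃) {s : (D.dat C).S₀} {k : M.ι} {x : V} (hx : x ∈ M.Q k)
    (hB : Y₃.h4.toFun x ∈ HB (D.G C) (29 / 32) (3 / 4) s.1) {β : Bool}
    (hsd : ¬ (D.dat C).sd s.1 β)
    (hhi : ∀ z ∈ M.Q k, Abv K s.1 β ((D.B C).τ s.1 / 4) (X.h1.toFun z))
    (i : _root_.P073.H919.PI Y₃.Lt s.1) :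
    plev Y₃.Lt Y₃.F Subtype.val s (Y₄.r s) Y₄.h5.toFun i x =
      plev Y₃.Lt Y₃.F Subtype.val s (Y₄.r s) Y₃.h4.toFun i x :=
  Y₄.accZ (M.sub k) (Y₃.ins.out.img_cell k) hx hB hsd hhi i

end Vale.Agent.P073.H267.K3
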