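import Vale.Agent.P073.H581.OutCl2
import Vale.Agent.P073.H407.InW0

/-!
# P073, H805, branch B: the clauses `off` and `close` of `K3C`

`CellNear C ρ M h g`: every value of `g` on a cell is comparable with a value of `h` on the same
cell. This is stable under all steps of the construction: maps of the target which preserve the
tiles, insertions (`g₀ '' Q i = Pre κ Λ g (Q i)`), and moves inside of boxes.
`close_of_cellNear`: the clause `close` of `H304.Out`.  `OffAt`: the clause `off`.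
-/

open Set Metric Topology Filter

namespace Vale.Agent.P073.H805

open Vale.Agent.P073.St (V)
open _root_.P073 (ConHomeo)
open _root_.P073.Net (dyc dyo IsTile SizeFn)
open _root_.P073.H579 (Pre)
open Vale.Agent.P073.H73 (Mesh ctr)
open Vale.Agent.P073.H304 (Nb InW mid)
open Vale.Agent.P073.H581

variable {Ω Λ : Set V} {ρ : V → ℝ} {w : V} {M : Mesh Ω} {C C' : ℝ}

/-- every value of `g` on a cell is comparable with a value of `h` on the same cell -/
def CellNear (C : ℝ) (ρ : V → ℝ) (M : Mesh Ω) (h g : V → V) : Prop :=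
  ∀ i, ∀ x ∈ M.Q i, ∃ x' ∈ M.Q i, Near C ρ (h x') (g x)

theorem near_refl {y : V} (h : 0 ≤ ρ y) : Near 1 ρ y y :=
  ⟨by rw [sub_self, norm_zero, one_mul]; exact h, by rw [one_mul], by rw [one_mul]⟩

theorem CellNear.refl (hρ : SizeFn Λ ρ) (h : ConHomeo Ω Λ) :
    CellNear 1 ρ M h.toFun h.toFun := fun i x hx =>
  ⟨x, hx, near_refl (hρ.pos _ (h.mapsTo (M.sub i hx))).le⟩

theorem CellNear.mono {h g : V → V} (hρ : SizeFn Λ ρ) (hh : MapsTo h Ω Λ) (hg : MapsTo g Ω Λ)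
    (H : CellNear C ρ M h g) (hC : C ≤ C') : CellNear C' ρ M h g := fun i x hx => by
  obtain ⟨x', hx', h1⟩ := H i x hx
  exact ⟨x', hx', h1.mono hC (hρ.pos _ (hh (M.sub i hx'))).le (hρ.pos _ (hg (M.sub i hx))).le⟩

/-- moves of the points by a comparable amount -/
theorem CellNear.move {h g g' : V → V} (hρ : SizeFn Λ ρ) (hh : MapsTo h Ω Λ)
    (hg' : MapsTo g' Ω Λ) (H : CellNear C ρ M h g) (hC : 1 ≤ C) (hC' : 1 ≤ C')
    (h1 : ∀ x ∈ Ω, Near C' ρ (g x) (g' x)) : CellNear (2 * (C * C')) ρ M h g' := by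
  intro i x hx
  obtain ⟨x', hx', h2⟩ := H i x hx
  exact ⟨x', hx', h2.trans (h1 x (M.sub i hx)) hC hC' (hρ.pos _ (hh (M.sub i hx'))).le
    (hρ.pos _ (hg' (M.sub i hx))).le⟩

/-- composition with a map of the target which preserves the tiles -/
theorem CellNear.target {h g : V → V} (hρ : SizeFn Λ ρ) (hh : MapsTo h Ω Λ) (hg : MapsTo g Ω Λ)
    (H : CellNear C ρ M h g) (hC : 1 ≤ C) {Φ : V → V} (hΦ : TileIff Λ ρ w Φ) :
    CellNear (32 * C) ρ M h (fun x => Φ (g x)) := by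
  have h1 := H.move (g' := fun x => Φ (g x)) (C' := 16) hρ hh
    (fun x hx => hΦ.maps (hg hx)) hC (by norm_num)
    fun x hx => Near.of_tileIff hρ hΦ (hg hx)
  have e : 2 * (C * 16) = 32 * C := by ring
  rwa [e] at h1

/-- insertion -/
theorem CellNear.insert {h : V → V} {g g₀ : ConHomeo Ω Λ} (hρ : SizeFn Λ ρ) (hh : MapsTo h Ω Λ)
    (H : CellNear C ρ M h g.toFun) (hC : 1 ≤ C) {κ : V → V} (hκ : TileIff Λ ρ w κ)
    (hQ : ∀ i, g₀.toFun '' M.Q i = Pre κ Λ g (M.Q i)) : CellNear (32 * C) ρ M h g₀.toFun := by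
  intro i x hx
  have h1 : g₀.toFun x ∈ Pre κ Λ g (M.Q i) := by rw [← hQ]; exact ⟨x, hx, rfl⟩
  obtain ⟨hyΛ, x₁, hx₁, he⟩ := h1
  obtain ⟨x', hx', h2⟩ := H i x₁ hx₁
  refine ⟨x', hx', ?_⟩
  have h3 : Near 16 ρ (g.toFun x₁) (g₀.toFun x) := by
    rw [he]; exact Near.of_tileIff' hρ hκ hyΛ
  have h4 := h2.trans h3 hC (by norm_num) (hρ.pos _ (hh (M.sub i hx'))).le (hρ.pos _ hyΛ).le
  have e : 2 * (C * 16) = 32 * C := by ring
  rwa [e] at h4

/-- composition of two estimates -/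
theorem CellNear.trans {h g g' : V → V} (hρ : SizeFn Λ ρ) (hh : MapsTo h Ω Λ)
    (hg' : MapsTo g' Ω Λ) (H : CellNear C ρ M h g) (H' : CellNear C' ρ M g g') (hC : 1 ≤ C)
    (hC' : 1 ≤ C') : CellNear (2 * (C * C')) ρ M h g' := by
  intro i x hx
  obtain ⟨x₁, hx₁, h1⟩ := H' i x hx
  obtain ⟨x₂, hx₂, h2⟩ := H i x₁ hx₁
  exact ⟨x₂, hx₂, h2.trans h1 hC hC' (hρ.pos _ (hh (M.sub i hx₂))).le
    (hρ.pos _ (hg' (M.sub i hx))).le⟩

/-! ### The clause `close` -/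

section Close

variable {h : ConHomeo Ω Λ} {η δ c₀ : ℝ} {v : V} {J₀ J : Set (ℕ × (Fin 3 → ℤ))} {P Z : Set M.ι}

theorem norm_sub_of_dyc {m : ℕ} {z : Fin 3 → ℤ} {x y : V} (hx : x ∈ dyc w m z)
    (hy : y ∈ dyc w m z) : ‖x - y‖ ≤ 1 / 2 ^ m := by
  rw [pi_norm_le_iff_of_nonneg (by positivity)]
  intro k
  have a := hx k
  have b := hy k
  have e : ((z k : ℝ) + 1) / 2 ^ m = z k / 2 ^ m + 1 / 2 ^ m := by rw [add_div]
  rw [e] at a b
  rw [Real.norm_eq_abs, Pi.sub_apply, abs_le]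
  constructor <;> linarith [a.1, a.2, b.1, b.2]

/-- the middle cube is contained in the tile -/
theorem mid_sub_dyc (hη : 0 ≤ η) (t : ℕ × (Fin 3 → ℤ)) : mid w η t ⊆ dyc w t.1 t.2 := by
  intro y hy k
  rw [mid, mem_closedBall, dist_pi_le_iff'] at hy
  have h1 := hy k
  have hm : (0:ℝ) < 1 / 2 ^ t.1 := by positivity
  rw [Real.dist_eq, abs_le] at h1
  have e1 : ctr w t.1 t.2 k = w k + t.2 k / 2 ^ t.1 + 1 / 2 * (1 / 2 ^ t.1) := by
    rw [ctr]; ring
  have e2 : (1 - η) / 2 / 2 ^ t.1 = 1 / 2 * (1 / 2 ^ t.1) - η / 2 * (1 / 2 ^ t.1) := by ring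
  have e3 : w k + ((t.2 k : ℝ) + 1) / 2 ^ t.1 = w k + t.2 k / 2 ^ t.1 + 1 / 2 ^ t.1 := by ring
  have h2 : 0 ≤ η / 2 * (1 / 2 ^ t.1) := by positivity
  rw [e1, e2] at h1
  rw [e3]
  constructor <;> linarith [h1.1, h1.2]

/-- points near a processed tile -/
theorem rho_near (hρ : SizeFn Λ ρ) {t : ℕ × (Fin 3 → ℤ)} (ht : IsTile ρ w t.1 t.2) (hc : c₀ ≤ 1 / 8)
    {y : V} (hy : y ∈ Nb w {t} c₀) : 7 / 8 * (1 / 2 ^ t.1) ≤ ρ y ∧ ρ y ≤ 5 * (1 / 2 ^ t.1) := by
  obtain ⟨t', ht', x, hx, hxy⟩ := hy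
  rw [mem_singleton_iff] at ht'
  subst ht'
  have hx' : x ∈ dyc w t'.1 t'.2 := by
    have hc : IsClosed (dyc w t'.1 t'.2) := (_root_.P073.KW.isCompact_dyc w t'.1 t'.2).isClosed
    exact hc.frontier_subset hx
  obtain ⟨h1, h2⟩ := _root_.P073.KW.tile_bounds hρ ht hx'
  have h3 := hρ.lip y x
  have h4 := hρ.lip x y
  rw [norm_sub_rev] at h4
  have hm : (0:ℝ) < 1 / 2 ^ t'.1 := by positivity
  have h5 : c₀ / 2 ^ t'.1 ≤ 1 / 8 * (1 / 2 ^ t'.1) := by
    rw [div_eq_mul_one_div]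
    exact mul_le_mul_of_nonneg_right hc hm.le
  have h6 : (4:ℝ) / 2 ^ t'.1 = 4 * (1 / 2 ^ t'.1) := by ring
  constructor <;> linarith

/-- **the clause `close`** -/
theorem close_of_cellNear (hρ : SizeFn Λ ρ) (hη : 0 ≤ η) (hη1 : η ≤ 1) (hδ : δ ≤ 1 / 4)
    (hc : c₀ ≤ 1 / 8) (D : InW (Λ := Λ) η δ c₀ v w ρ M h.toFun J₀ J P Z) {g : V → V}
    (hg : MapsTo g Ω Λ) (hC : 1 ≤ C) (H : CellNear C ρ M h.toFun g) :
    ∀ x ∈ Ω, ∀ t ∈ J₀, h.toFun x ∈ Nb w {t} c₀ → ‖g x - h.toFun x‖ ≤ 160 * C / 2 ^ t.1 := by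
  intro x hx t ht hxt
  have htile := D.tile t (D.sub ht)
  obtain ⟨b1, b2⟩ := rho_near hρ htile hc hxt
  obtain ⟨i, hi⟩ := M.cover x hx
  obtain ⟨x', hx', h1⟩ := H i x hi
  have hm : (0:ℝ) < 1 / 2 ^ t.1 := by positivity
  have h2 : Near 16 ρ (h.toFun x) (h.toFun x') := by
    by_cases hiP : i ∈ P
    · obtain ⟨t', ht', a, r, s, hr, hs, hQ, hh⟩ := D.prot i hiP
      have key : ∀ y ∈ M.Q i, h.toFun y ∈ dyc w t'.1 t'.2 := by
        intro y hy
        refine mid_sub_dyc hη t' ?_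
        rw [mid, mem_closedBall, dist_pi_le_iff']
        intro j
        rw [Real.dist_eq, hh y hy j, add_sub_cancel_left]
        have h3 : |y j - a j| ≤ r := by
          have h4 := hQ ▸ hy
          rw [mem_closedBall] at h4
          have h5 := (dist_le_pi_dist y a j).trans h4
          rwa [Real.dist_eq] at h5
        have hs1 : |s j| = 1 := by rcases hs j with h | h <;> rw [h] <;> simp
        have h4 : 0 ≤ (1 - η) / 2 / 2 ^ t'.1 := by
          have : 0 ≤ 1 - η := by linarith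
          positivity
        rw [abs_mul, abs_mul, abs_div, hs1, mul_one, abs_of_nonneg h4, abs_of_pos hr]
        calc (1 - η) / 2 / 2 ^ t'.1 / r * |y j - a j| ≤ (1 - η) / 2 / 2 ^ t'.1 / r * r :=
              mul_le_mul_of_nonneg_left h3 (by positivity)
          _ = (1 - η) / 2 / 2 ^ t'.1 := by field_simp
      exact Near.of_tile hρ (D.tile t' ht') (key x hi) (key x' hx')
    · have h3 := D.small i hiP t ht ⟨_, ⟨x, hi, rfl⟩, hxt⟩ x hi x' hx'
      have h4 : δ / 2 ^ t.1 ≤ 1 / 4 * (1 / 2 ^ t.1) := by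
        rw [div_eq_mul_one_div]
        exact mul_le_mul_of_nonneg_right hδ hm.le
      have h5 : Near 2 ρ (h.toFun x) (h.toFun x') := Near.of_dist hρ (by
        rw [norm_sub_rev]; linarith) (by linarith)
      exact h5.mono (by norm_num) (by linarith) (hρ.pos _ (h.mapsTo (M.sub i hx'))).le
  have h3 := h2.trans h1 (by norm_num) hC (by linarith) (hρ.pos _ (hg hx)).le
  refine h3.dist.trans ?_
  calc 2 * (16 * C) * ρ (h.toFun x) ≤ 2 * (16 * C) * (5 * (1 / 2 ^ t.1)) :=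
        mul_le_mul_of_nonneg_left b2 (by linarith)
    _ = 160 * C / 2 ^ t.1 := by ring

end Close

/-! ### The clause `off` -/

/-- `g` is `h` at the points with `h x ∉ N` -/
def OffAt (Ω : Set V) (N : Set V) (h g : V → V) : Prop := ∀ x ∈ Ω, h x ∉ N → g x = h x

theorem OffAt.refl (N : Set V) (h : V → V) : OffAt Ω N h h := fun _ _ _ => rfl

theorem OffAt.mono {N N' : Set V} {h g : V → V} (H : OffAt Ω N h g) (hN : N ⊆ N') :
    OffAt Ω N' h g := fun x hx hxN => H x hx fun h1 => hxN (hN h1)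

theorem OffAt.trans {N : Set V} {h g g' : V → V} (H : OffAt Ω N h g) (H' : OffAt Ω N g g') :
    OffAt Ω N h g' := fun x hx hxN => by
  have h1 := H x hx hxN
  rw [H' x hx (by rwa [h1]), h1]

/-- composition with a map of the target -/
theorem OffAt.target {N : Set V} {h g Φ : V → V} (H : OffAt Ω N h g)
    (hΦ : ∀ y, y ∉ N → Φ y = y) : OffAt Ω N h (fun x => Φ (g x)) :=
  H.trans fun x _ hxN => hΦ _ hxN

/-- a step which changes only the cells `i ∉ P` with `g '' Q i` meeting `A`, and only the points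
over `A` in the other cells; the cells which meet `A` are small -/
theorem OffAt.cells {A N : Set V} {g g' : V → V} {P : Set M.ι}
    (h1 : ∀ i, i ∉ P → Disjoint (g '' M.Q i) A → EqOn g' g (M.Q i))
    (h2 : ∀ i ∈ P, ∀ x ∈ M.Q i, g x ∉ A → g' x = g x)
    (h3 : ∀ i, i ∉ P → (g '' M.Q i ∩ A).Nonempty → g '' M.Q i ⊆ N) (hA : A ⊆ N) :
    OffAt Ω N g g' := by
  intro x hx hxN
  obtain ⟨i, hi⟩ := M.cover x hx
  by_cases hiP : i ∈ P
  · exact h2 i hiP x hi fun h4 => hxN (hA h4)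
  · by_cases hne : (g '' M.Q i ∩ A).Nonempty
    · exact absurd (h3 i hiP hne ⟨x, hi, rfl⟩) hxN
    · exact h1 i hiP (disjoint_iff_inter_eq_empty.2 (not_nonempty_iff_eq_empty.1 hne)) hi

/-- `g` is `h` off a set which is contained in the neighbourhood -/
theorem off_of_offAt {N : Set V} {h g : V → V} {J₀ : Set (ℕ × (Fin 3 → ℤ))} {c₀ : ℝ}
    (H : OffAt Ω N h g) (hN : N ⊆ Nb w J₀ c₀) : ∀ x ∈ Ω, h x ∉ Nb w J₀ c₀ → g x = h x :=
  H.mono hN

end Vale.Agent.P073.H805
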