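import Vale.Agent.P073.H805.ExchC
import Vale.Agent.P073.H936.Prod
import Vale.Agent.P073.H579.Rel

/-!
# P073, H805: (CNT), parallel copies of the traces

`exists_slice`: the level set `{v = 0}` in the ball is moved to `{v = -ε}` by a homeomorphism which
respects all sets of the mesh, and on the good ones also `N`, `{0 ≤ u}` and `{u = 0}`.
-/

set_option linter.unusedSectionVars false

open Set Metric Topology Filter

namespace P073.H805

open P073 P073.TR P073.H936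

variable {E : Type*} [NormedAddCommGroup E] [NormedSpace ℝ E] {ι : Type*}

/-- from a joint flow box to the second function and sets described by the first one -/
theorem Reg.of_pair {κ : Type*} [Finite κ] {u v : E → ℝ} {M : ι → Set E} {x : E} {M' : κ → Set E}
    (h : Reg (fun y => (u y, v y)) M x)
    (hM' : ∀ k, ∃ (i : ι) (P : Prop → ℝ → Prop), ∀ᶠ y in 𝓝 x, (y ∈ M' k ↔ P (y ∈ M i) (u y))) :
    Reg v M' x := by
  choose i P hP using hM'
  obtain ⟨σ, r, h⟩ := h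
  have hs' : ∀ s : ℝ, ‖s‖ < r → ‖((0:ℝ), s)‖ < r := fun s hs => by
    rw [Prod.norm_def]; simpa [h.pos] using hs
  have key : Reg v (fun k => {y | P k (y ∈ M (i k)) (u y)}) x := by
    refine ⟨σ ∘ₗ LinearMap.inr ℝ ℝ ℝ, r, h.pos, fun w s hw hs => ?_, fun k w s hw hs => ?_⟩
    · have := h.add w (0, s) hw (hs' s hs)
      exact congrArg Prod.snd this
    · have hadd := h.add w (0, s) hw (hs' s hs)
      have hu' : u (x + w + σ (0, s)) = u (x + w) := by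
        have := congrArg Prod.fst hadd
        simpa using this
      have e : (σ ∘ₗ LinearMap.inr ℝ ℝ ℝ) s = σ (0, s) := rfl
      rw [e]
      show P k (x + w + σ (0, s) ∈ M (i k)) (u (x + w + σ (0, s))) ↔
        P k (x + w ∈ M (i k)) (u (x + w))
      rw [hu', propext (h.iff (i k) w (0, s) hw (hs' s hs))]
  exact key.congr (EventuallyEq.refl _ _) fun k => Or.inl ⟨k, hP k⟩

/-- test sets -/
def slF (N : Set E) (M : ι → Set E) (u fh : E → ℝ) : ι ⊕ (ι ⊕ ι) → Set E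
  | .inl i => M i
  | .inr (.inl i) => {y | (∀ x ∈ M i ∩ N, 0 ≤ fh x) ∧ y ∈ M i ∧ y ∈ N ∧ 0 ≤ u y}
  | .inr (.inr i) => {y | (∀ x ∈ M i ∩ N, 0 ≤ fh x) ∧ y ∈ M i ∧ y ∈ N ∧ u y = 0}

/-- one slice of a band -/
theorem exists_slice_of_band {C : Set E} {v : E → ℝ} {ε : ℝ} (hC : IsCompact C)
    (hv : ContinuousOn v C) (hvc : ConicalOn v C) (hε : 0 < ε)
    (Γ : ConHomeo (lev C v 0 ×ˢ Icc (-1:ℝ) 1) (band C v 0 ε))
    (g1 : ∀ z ∈ lev C v 0, ∀ s ∈ Icc (-1:ℝ) 1, v (Γ.toFun (z, s)) = 0 + ε * s) :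
    ∃ Δ : ConHomeo (lev C v 0) (lev C v (-ε)), ∀ z, Δ.toFun z = Γ.toFun (z, -1) := by
  have hm1 : (-1:ℝ) ∈ Icc (-1:ℝ) 1 := ⟨le_refl _, by norm_num⟩
  have hmem : ∀ z ∈ lev C v 0, (z, (-1:ℝ)) ∈ lev C v 0 ×ˢ Icc (-1:ℝ) 1 := fun z hz => ⟨hz, hm1⟩
  have hlc : ConicalSet (lev C v 0) := conicalSet_lev hvc
  have hι : ConicalOn (fun z : E => (z, (-1:ℝ))) (lev C v 0) :=
    (conicalOn_id hlc).prodMk (conicalOn_const _ hlc)
  have hιc : ContinuousOn (fun z : E => (z, (-1:ℝ))) (lev C v 0) := by fun_prop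
  have hcon : ConicalOn (fun z : E => Γ.toFun (z, -1)) (lev C v 0) :=
    Γ.conical.comp hι hmem hιc
  have himg : (fun z : E => Γ.toFun (z, -1)) '' lev C v 0 = lev C v (-ε) := by
    ext x
    constructor
    · rintro ⟨z, hz, rfl⟩
      refine ⟨(Γ.mapsTo (hmem z hz)).1, ?_⟩
      simp only
      rw [g1 z hz _ hm1]; ring
    · rintro ⟨hxC, hx0⟩
      have hb : x ∈ band C v 0 ε := ⟨hxC, by
        have : v x - 0 = -ε := by linarith
        rw [this, abs_neg, abs_of_pos hε]⟩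
      have h2 := Γ.right_inv hb
      obtain ⟨hz, hs⟩ := Γ.mapsTo_inv hb
      have h3 := g1 _ hz _ hs
      have e : ((Γ.invFun x).1, (Γ.invFun x).2) = Γ.invFun x := rfl
      rw [e, h2] at h3
      have hs1 : (Γ.invFun x).2 = -1 := by
        have h4 : ε * ((Γ.invFun x).2 + 1) = 0 := by linarith
        rcases mul_eq_zero.1 h4 with h5 | h5
        · exact absurd h5 hε.ne'
        · linarith
      refine ⟨(Γ.invFun x).1, hz, ?_⟩
      simp only
      have e' : ((Γ.invFun x).1, (-1:ℝ)) = Γ.invFun x := by rw [← e]; exact Prod.ext rfl hs1.symm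
      rw [e', h2]
  refine ⟨ConHomeo.ofCompact (isCompact_lev hC hv) (fun z : E => Γ.toFun (z, -1))
    (Γ.cont.comp hιc hmem) ?_ hcon himg, fun z => by rw [ConHomeo.ofCompact_toFun]⟩
  intro z hz z' hz' he
  have := Γ.injOn (hmem z hz) (hmem z' hz') he
  exact congrArg Prod.fst this

namespace ExIn

variable {W N : Set E} {M : ι → Set E} {u v fh : E → ℝ} {L : E →ₗ[ℝ] ℝ} {c₀ c : ℝ}

theorem reg_slF [Finite ι] (h : ExIn W N M u v fh L c₀ c) {x : E} (hxW : x ∈ W) (hv0 : v x = 0)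
    (rv : Reg v M x) : Reg v (slF N M u fh) x := by
  have hcu : ContinuousAt u x := h.ucont.continuousAt (h.oW.mem_nhds hxW)
  by_cases hxN : x ∈ N
  swap
  · have e1 : ∀ᶠ y in 𝓝 x, y ∉ N := h.cN.isClosed.isOpen_compl.mem_nhds hxN
    refine rv.congr (EventuallyEq.refl _ _) fun k => ?_
    rcases k with i | i | i
    · exact Or.inl ⟨i, Eventually.of_forall fun y => Iff.rfl⟩
    · exact Or.inr (Or.inr (e1.mono fun y hy hy' => hy hy'.2.2.1))
    · exact Or.inr (Or.inr (e1.mono fun y hy hy' => hy hy'.2.2.1))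
  rcases lt_or_ge (u x) 0 with hu | hu
  · have e1 : ∀ᶠ y in 𝓝 x, u y < 0 := hcu.eventually_lt_const hu
    refine rv.congr (EventuallyEq.refl _ _) fun k => ?_
    rcases k with i | i | i
    · exact Or.inl ⟨i, Eventually.of_forall fun y => Iff.rfl⟩
    · exact Or.inr (Or.inr (e1.mono fun y hy hy' => hy.not_ge hy'.2.2.2))
    · exact Or.inr (Or.inr (e1.mono fun y hy hy' => hy.ne hy'.2.2.2))
  by_cases hxI : x ∈ interior N
  swap
  · have hf : fh x < 0 := by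
      by_contra hc
      push Not at hc
      exact hxI (h.hZ x hxN hu hv0.ge hc)
    have hcl : IsClosed {y | y ∈ N ∧ 0 ≤ fh y} := by
      have : {y | y ∈ N ∧ 0 ≤ fh y} = N ∩ fh ⁻¹' Ici 0 := by ext y; simp
      rw [this]
      exact h.fcont.preimage_isClosed_of_isClosed h.cN.isClosed isClosed_Ici
    have e1 : ∀ᶠ y in 𝓝 x, ¬ (y ∈ N ∧ 0 ≤ fh y) :=
      hcl.isOpen_compl.mem_nhds (fun hh => hf.not_ge hh.2)
    refine rv.congr (EventuallyEq.refl _ _) fun k => ?_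
    rcases k with i | i | i
    · exact Or.inl ⟨i, Eventually.of_forall fun y => Iff.rfl⟩
    · exact Or.inr (Or.inr (e1.mono fun y hy hy' =>
        hy ⟨hy'.2.2.1, hy'.1 y ⟨hy'.2.1, hy'.2.2.1⟩⟩))
    · exact Or.inr (Or.inr (e1.mono fun y hy hy' =>
        hy ⟨hy'.2.2.1, hy'.1 y ⟨hy'.2.1, hy'.2.2.1⟩⟩))
  have eN : ∀ᶠ y in 𝓝 x, y ∈ N := mem_interior_iff_mem_nhds.1 hxI
  rcases hu.eq_or_lt with h0 | h0
  · refine (h.ruv x hxN h0.symm hv0).of_pair fun k => ?_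
    rcases k with i | i | i
    · exact ⟨i, fun p _ => p, Eventually.of_forall fun y => Iff.rfl⟩
    · refine ⟨i, fun p t => (∀ x ∈ M i ∩ N, 0 ≤ fh x) ∧ p ∧ 0 ≤ t, eN.mono fun y hy => ?_⟩
      show ((∀ x ∈ M i ∩ N, 0 ≤ fh x) ∧ y ∈ M i ∧ y ∈ N ∧ 0 ≤ u y) ↔ _
      tauto
    · refine ⟨i, fun p t => (∀ x ∈ M i ∩ N, 0 ≤ fh x) ∧ p ∧ t = 0, eN.mono fun y hy => ?_⟩
      show ((∀ x ∈ M i ∩ N, 0 ≤ fh x) ∧ y ∈ M i ∧ y ∈ N ∧ u y = 0) ↔ _
      tauto
  · have e1 : ∀ᶠ y in 𝓝 x, 0 < u y := hcu.eventually_const_lt h0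
    refine rv.congr (EventuallyEq.refl _ _) fun k => ?_
    rcases k with i | i | i
    · exact Or.inl ⟨i, Eventually.of_forall fun y => Iff.rfl⟩
    · by_cases hg : ∀ x ∈ M i ∩ N, 0 ≤ fh x
      · exact Or.inl ⟨i, (eN.and e1).mono fun y hy =>
          ⟨fun hh => hh.2.1, fun hh => ⟨hg, hh, hy.1, hy.2.le⟩⟩⟩
      · exact Or.inr (Or.inr (Eventually.of_forall fun y hy => hg hy.1))
    · exact Or.inr (Or.inr (e1.mono fun y hy hy' => hy.ne' hy'.2.2.2))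

/-- **parallel copies** -/
theorem exists_slice [Finite ι] [FiniteDimensional ℝ E] (h : ExIn W N M u v fh L c₀ c) {U : Set E} (i₀ : ι)
    (iU : M i₀ = U) (hU : IsCompact U) (hUW : U ⊆ W) (hUc : ConicalSet U)
    (rv : ∀ x ∈ U, v x = 0 → Reg v M x) :
    ∃ ε₀ > 0, ∀ ε, 0 < ε → ε ≤ ε₀ → ∃ Γ : ConHomeo (lev U v 0) (lev U v (-ε)),
      ∀ k, ∀ z ∈ lev U v 0, (Γ.toFun z ∈ slF N M u fh k ↔ z ∈ slF N M u fh k) := by
  have hvc : ContinuousOn v U := h.vcont.mono hUW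
  have hvcon : ConicalOn v U := h.vcon.mono hUc hUW
  obtain ⟨η₀, c₁, hη₀, -, H⟩ := prod_band (u := v) (M := slF N M u fh) (t := 0) (W := W) hU
    (Sum.inl i₀) iU hvc hvcon h.oW (fun x hx => hUW hx.1)
    (fun x hx => h.reg_slF (hUW hx.1) hx.2 (rv x hx.1 hx.2))
  refine ⟨η₀, hη₀, fun ε hε hεη => ?_⟩
  obtain ⟨Γ, g1, -, g3, -, -⟩ := H ε hε hεη
  obtain ⟨Δ, hΔ⟩ := exists_slice_of_band hU hvc hvcon hε Γ g1
  refine ⟨Δ, fun k z hz => ?_⟩
  rw [hΔ]
  exact g3 k z hz _ ⟨le_refl _, by norm_num⟩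

end ExIn

end P073.H805
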