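import Vale.Agent.P073.H805.Cnt

/-!
# P073, H805: (CNT) for the exchange

Normalized form: the exchange takes place at the levels `0` of `u` and `v`. `RelN` is the
bookkeeping relation of `H579/Rel.lean` in this form.
-/

set_option linter.unusedSectionVars false

open Set Metric Topology Filter

namespace P073.H805

open P073 P073.TR P073.H936

variable {E : Type*} [NormedAddCommGroup E] [NormedSpace ℝ E] {ι : Type*}

/-- the trace of the levels `A` of `u` on `X` -/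
def trc (X U : Set E) (u : E → ℝ) (A : Set ℝ) : Set E := {x | (x ∈ X ∧ x ∈ U) ∧ u x ∈ A}

/-- the bookkeeping relation, normalized form -/
structure RelN (M : ι → Set E) (U : Set E) (A A' : Set ℝ) (u v u' v' : E → ℝ) : Prop where
  off : ∀ i, Disjoint (trc (M i) U u A) (trc (M i) U v A') →
    Disjoint (trc (M i) U u' A) (trc (M i) U v' A')
  cnt : ∀ i, Disjoint (trc (M i) U u A) (trc (M i) U v A') →
    (trc (M i) U u A).Finite → (trc (M i) U v A').Finite →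
    (trc (M i) U u' A).Finite ∧ (trc (M i) U v' A').Finite ∧
      (trc (M i) U u' A).ncard + (trc (M i) U v' A').ncard ≤
        (trc (M i) U u A).ncard + (trc (M i) U v A').ncard
  circ : ∀ i, Disjoint (trc (M i) U u A) (trc (M i) U v A') →
    (∀ σ : Set E, IsCircle σ → ¬ σ ⊆ trc (M i) U u A ∧ ¬ σ ⊆ trc (M i) U v A') →
    ∀ σ : Set E, IsCircle σ → ¬ σ ⊆ trc (M i) U u' A ∧ ¬ σ ⊆ trc (M i) U v' A'

/-- transfer to the relation of the exchange process -/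
theorem RelN.toRel {D : H579.Data E ι} {A A' : Set ℝ} {u v u' v' u₁ v₁ u₁' v₁' : E → ℝ}
    (h : RelN D.M D.U A A' u₁ v₁ u₁' v₁') (h1 : ∀ x, u x ∈ D.a ↔ u₁ x ∈ A)
    (h2 : ∀ x, v x ∈ D.b ↔ v₁ x ∈ A') (h3 : ∀ x, u' x ∈ D.a ↔ u₁' x ∈ A)
    (h4 : ∀ x, v' x ∈ D.b ↔ v₁' x ∈ A') : H579.Rel D u v u' v' := by
  have e1 : ∀ i, H579.Tu D i u = trc (D.M i) D.U u₁ A := fun i => by
    ext x; exact and_congr_right fun _ => h1 x
  have e2 : ∀ i, H579.Tv D i v = trc (D.M i) D.U v₁ A' := fun i => by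
    ext x; exact and_congr_right fun _ => h2 x
  have e3 : ∀ i, H579.Tu D i u' = trc (D.M i) D.U u₁' A := fun i => by
    ext x; exact and_congr_right fun _ => h3 x
  have e4 : ∀ i, H579.Tv D i v' = trc (D.M i) D.U v₁' A' := fun i => by
    ext x; exact and_congr_right fun _ => h4 x
  refine ⟨fun i => ?_, fun i => ?_, fun i => ?_⟩
  · unfold H579.Off
    rw [e1, e2, e3, e4]
    exact h.off i
  · unfold H579.Off
    rw [e1, e2, e3, e4]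
    exact h.cnt i
  · unfold H579.Off H579.NoCirc
    rw [e1, e2, e3, e4]
    exact h.circ i

theorem isPreconnected_circle {c : Set E} (h : IsCircle c) : IsPreconnected c := by
  obtain ⟨φ⟩ := h
  rw [← φ.image_eq]
  have hrank : 1 < Module.rank ℝ (ℝ × ℝ) := by
    rw [rank_prod']
    simp only [Module.rank_self]
    norm_num
  exact (isPreconnected_sphere hrank 0 1).image _ φ.cont

/-- counting -/
theorem count_aux {Tu Tv Tu' Tv' R₁ R₂ P Q : Set E} {f₁ f₂ : E → E} (hu : Tu.Finite)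
    (hv : Tv.Finite) (h1 : Tu' ⊆ R₁ ∪ f₁ '' P) (h2 : Tv' ⊆ R₂ ∪ f₂ '' Q) (hR₁ : R₁ ⊆ Tu)
    (hQ : Q ⊆ Tu) (hd : Disjoint R₁ Q) (hR₂ : R₂ ⊆ Tv) (hP : P ⊆ Tv) (hd' : Disjoint R₂ P) :
    Tu'.Finite ∧ Tv'.Finite ∧ Tu'.ncard + Tv'.ncard ≤ Tu.ncard + Tv.ncard := by
  have fP := hv.subset hP
  have fQ := hu.subset hQ
  have fR₁ := hu.subset hR₁
  have fR₂ := hv.subset hR₂
  have k1 : (R₁ ∪ f₁ '' P).Finite := fR₁.union (fP.image _)
  have k2 : (R₂ ∪ f₂ '' Q).Finite := fR₂.union (fQ.image _)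
  refine ⟨k1.subset h1, k2.subset h2, ?_⟩
  have a1 : Tu'.ncard ≤ R₁.ncard + P.ncard :=
    (ncard_le_ncard h1 k1).trans ((ncard_union_le _ _).trans
      (Nat.add_le_add_left (ncard_image_le fP) _))
  have a2 : Tv'.ncard ≤ R₂.ncard + Q.ncard :=
    (ncard_le_ncard h2 k2).trans ((ncard_union_le _ _).trans
      (Nat.add_le_add_left (ncard_image_le fQ) _))
  have a3 : R₁.ncard + Q.ncard ≤ Tu.ncard := by
    rw [← ncard_union_eq hd fR₁ fQ]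
    exact ncard_le_ncard (union_subset hR₁ hQ) hu
  have a4 : R₂.ncard + P.ncard ≤ Tv.ncard := by
    rw [← ncard_union_eq hd' fR₂ fP]
    exact ncard_le_ncard (union_subset hR₂ hP) hv
  omega

/-- only the level 0 is attained in `N` -/
theorem lev_zero {A : Set ℝ} {s t η : ℝ} (hA : ∀ a ∈ A, (0 < a → t < a) ∧ (a < 0 → a < t))
    (hη : ∀ a ∈ A, a < 0 → η < -a) (h1 : s ≤ t) (h2 : min t (-η) ≤ s) (hs : s ∈ A) : s = 0 := by
  obtain ⟨k1, k2⟩ := hA s hs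
  rcases lt_trichotomy s 0 with h5 | h5 | h5
  · have h6 := k2 h5
    have h7 := hη s hs h5
    rcases min_le_iff.1 h2 with h8 | h8 <;> linarith
  · exact h5
  · have h6 := k1 h5; linarith

theorem lev_zero' {A : Set ℝ} {t : ℝ} (hA : ∀ a ∈ A, (0 < a → t < a) ∧ (a < 0 → a < t))
    (hs : t ∈ A) : t = 0 := by
  obtain ⟨k1, k2⟩ := hA t hs
  rcases lt_trichotomy t 0 with h5 | h5 | h5
  · exact absurd (k2 h5) (lt_irrefl _)
  · exact h5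
  · exact absurd (k1 h5) (lt_irrefl _)

/-- the new function on a set, abstractly: outside `N` the old one, in `N` the zeros are as in the
exchange (with `f ≥ 0`) -/
structure NewF (X U N : Set E) (A : Set ℝ) (ε : ℝ) (u v u' : E → ℝ) : Prop where
  out : ∀ x ∉ N, u' x = u x
  lev0 : ∀ x ∈ N, u' x ∈ A → u' x = 0
  zero : ∀ x ∈ X, x ∈ N → u' x = 0 → (u x = 0 ∧ v x ≤ -ε) ∨ (0 ≤ u x ∧ v x = -ε)

/-- circles for the new function -/
theorem NewF.circ {X U N : Set E} {A A' : Set ℝ} {ε : ℝ} {u v u' : E → ℝ}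
    (h : NewF X U N A ε u v u') (hN : IsClosed N) (hA0 : (0:ℝ) ∈ A) (hA0' : (0:ℝ) ∈ A')
    (hAc : IsClosed A)
    (hA : ∀ x ∈ N, ∀ a ∈ A, (0 < a → u x < a) ∧ (a < 0 → a < u x))
    (huc : ContinuousOn u U) (hvc : ContinuousOn v U)
    (Γ : ConHomeo (lev U v 0) (lev U v (-ε)))
    (hΓ1 : ∀ z ∈ lev U v 0, (Γ.toFun z ∈ X ∧ Γ.toFun z ∈ N ∧ 0 ≤ u (Γ.toFun z)) ↔
      (z ∈ X ∧ z ∈ N ∧ 0 ≤ u z))
    (hΓ2 : ∀ z ∈ lev U v 0, (Γ.toFun z ∈ X ∧ Γ.toFun z ∈ N ∧ u (Γ.toFun z) = 0) ↔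
      (z ∈ X ∧ z ∈ N ∧ u z = 0))
    (hoff : Disjoint (trc X U u A) (trc X U v A')) {σ : Set E} (hσ : IsCircle σ)
    (hσ' : σ ⊆ trc X U u' A) :
    σ ⊆ trc X U u A ∨ ∃ σ' : Set E, IsCircle σ' ∧ σ' ⊆ trc X U v A' := by
  have hσX : σ ⊆ X := fun x hx => (hσ' hx).1.1
  have hσU : σ ⊆ U := fun x hx => (hσ' hx).1.2
  have hσc : IsClosed σ := (H339.IsCircle.isCompact hσ).isClosed
  have hus : ContinuousOn u σ := huc.mono hσU
  have hvs : ContinuousOn v σ := hvc.mono hσU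
  set A1 : Set E := {x | x ∈ σ ∧ x ∈ N ∧ 0 ≤ u x ∧ v x = -ε} with hA1
  set A2 : Set E := {x | x ∈ σ ∧ u x ∈ A ∧ (x ∉ interior N ∨ v x ≤ -ε)} with hA2
  have c1 : IsClosed A1 := by
    have : A1 = (σ ∩ u ⁻¹' Ici 0) ∩ ((σ ∩ v ⁻¹' {-ε}) ∩ N) := by
      ext x; simp only [hA1, mem_ofPred_eq, mem_inter_iff, mem_preimage, mem_Ici,
        mem_singleton_iff]; tauto
    rw [this]
    exact (hus.preimage_isClosed_of_isClosed hσc isClosed_Ici).inter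
      ((hvs.preimage_isClosed_of_isClosed hσc isClosed_singleton).inter hN)
  have c2 : IsClosed A2 := by
    have : A2 = (σ ∩ u ⁻¹' A) ∩ ((interior N)ᶜ ∪ (σ ∩ v ⁻¹' Iic (-ε))) := by
      ext x; simp only [hA2, mem_ofPred_eq, mem_inter_iff, mem_preimage, mem_Iic, mem_union,
        mem_compl_iff]; tauto
    rw [this]
    exact (hus.preimage_isClosed_of_isClosed hσc hAc).inter
      (isOpen_interior.isClosed_compl.union (hvs.preimage_isClosed_of_isClosed hσc isClosed_Iic))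
  have hcov : σ ⊆ A1 ∪ A2 := by
    intro x hx
    obtain ⟨⟨hxX, hxU⟩, hxA⟩ := hσ' hx
    by_cases hxN : x ∈ N
    · rcases h.zero x hxX hxN (h.lev0 x hxN hxA) with ⟨h1, h2⟩ | ⟨h1, h2⟩
      · exact Or.inr ⟨hx, h1 ▸ hA0, Or.inr h2⟩
      · exact Or.inl ⟨hx, hxN, h1, h2⟩
    · exact Or.inr ⟨hx, h.out x hxN ▸ hxA, Or.inl fun hh => hxN (interior_subset hh)⟩
  have hdis : σ ∩ (A1 ∩ A2) = ∅ := by
    rw [eq_empty_iff_forall_notMem]
    rintro x ⟨hx, ⟨-, hxN, h1, h2⟩, -, h3, -⟩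
    have h0 : u x = 0 := lev_zero' (hA x hxN) h3
    have hxl : x ∈ lev U v (-ε) := ⟨hσU hx, h2⟩
    have hz := Γ.mapsTo_inv hxl
    have hx' := Γ.right_inv hxl
    have hk := (hΓ2 _ hz).1 (by rw [hx']; exact ⟨hσX hx, hxN, h0⟩)
    exact Set.disjoint_left.1 hoff (show Γ.invFun x ∈ trc X U u A from
      ⟨⟨hk.1, hz.1⟩, by rw [hk.2.2]; exact hA0⟩) ⟨⟨hk.1, hz.1⟩, by rw [hz.2]; exact hA0'⟩
  rcases (isPreconnected_iff_subset_of_disjoint_closed.1 (isPreconnected_circle hσ)) A1 A2 c1 c2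
    hcov hdis with h5 | h5
  · right
    refine ⟨Γ.symm.toFun '' σ, H339.IsCircle.image hσ Γ.symm
      (fun x hx => ⟨hσU hx, (h5 hx).2.2.2⟩), ?_⟩
    rintro _ ⟨x, hx, rfl⟩
    obtain ⟨-, hxN, h1, h2⟩ := h5 hx
    have hxl : x ∈ lev U v (-ε) := ⟨hσU hx, h2⟩
    have hz := Γ.mapsTo_inv hxl
    have hx' := Γ.right_inv hxl
    have hk := (hΓ1 _ hz).1 (by rw [hx']; exact ⟨hσX hx, hxN, h1⟩)
    exact ⟨⟨hk.1, hz.1⟩, by
      show v (Γ.invFun x) ∈ A'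
      rw [hz.2]; exact hA0'⟩
  · left
    intro x hx
    exact ⟨⟨hσX hx, hσU hx⟩, (h5 hx).2.1⟩

/-- traces of the new function -/
theorem NewF.sub {X U N : Set E} {A : Set ℝ} {ε : ℝ} {u v u' : E → ℝ}
    (h : NewF X U N A ε u v u') (hA0 : (0:ℝ) ∈ A) (hε : 0 < ε)
    (Γ : ConHomeo (lev U v 0) (lev U v (-ε)))
    (hΓ1 : ∀ z ∈ lev U v 0, (Γ.toFun z ∈ X ∧ Γ.toFun z ∈ N ∧ 0 ≤ u (Γ.toFun z)) ↔
      (z ∈ X ∧ z ∈ N ∧ 0 ≤ u z)) :
    trc X U u' A ⊆ {x | x ∈ trc X U u A ∧ (x ∈ N → v x < 0)} ∪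
      Γ.toFun '' {x | x ∈ X ∧ x ∈ U ∧ x ∈ N ∧ 0 ≤ u x ∧ v x = 0} := by
  rintro x ⟨⟨hxX, hxU⟩, hxA⟩
  by_cases hxN : x ∈ N
  · rcases h.zero x hxX hxN (h.lev0 x hxN hxA) with ⟨h1, h2⟩ | ⟨h1, h2⟩
    · exact Or.inl ⟨⟨⟨hxX, hxU⟩, h1 ▸ hA0⟩, fun _ => by linarith⟩
    · right
      have hxl : x ∈ lev U v (-ε) := ⟨hxU, h2⟩
      have hz := Γ.mapsTo_inv hxl
      have hx' := Γ.right_inv hxl
      have hk := (hΓ1 _ hz).1 (by rw [hx']; exact ⟨hxX, hxN, h1⟩)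
      exact ⟨Γ.invFun x, ⟨hk.1, hz.1, hk.2.1, hk.2.2, hz.2⟩, hx'⟩
  · exact Or.inl ⟨⟨⟨hxX, hxU⟩, h.out x hxN ▸ hxA⟩, fun hh => absurd hh hxN⟩

namespace ExIn

variable {W N : Set E} {M : ι → Set E} {u v fh : E → ℝ} {L : E →ₗ[ℝ] ℝ} {c₀ c : ℝ}

/-- **(CNT), the exchange.** `A`, `A'` are the levels (closed sets). A mesh set is good if
`fh ≥ 0` on it in `N`, the other ones contain a crossing point. -/
theorem exists_cnt [Finite ι] [FiniteDimensional ℝ E] (h : ExIn W N M u v fh L c₀ c) {U : Set E}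
    (i₀ : ι) (iU : M i₀ = U) (hU : IsCompact U) (hUW : U ⊆ W) (hUc : ConicalSet U)
    (ru : ∀ x ∈ U, u x = 0 → Reg u M x) (rv : ∀ x ∈ U, v x = 0 → Reg v M x) :
    ∃ ε₂ > 0, ∀ ε, 0 < ε → ε ≤ ε₂ → ∀ η K Mc δ, 0 < η → 0 < K → 0 < Mc → 0 < δ →
      ∀ u' v' : E → ℝ, u' = exU N η K ε Mc δ u v fh → v' = exU N η K ε Mc (2 * δ) v u fh →
      ∀ A A' : Set ℝ, IsClosed A → IsClosed A' → (0:ℝ) ∈ A → (0:ℝ) ∈ A' →
      (∀ x ∈ N, ∀ a ∈ A, (0 < a → u x < a) ∧ (a < 0 → a < u x)) →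
      (∀ x ∈ N, ∀ a ∈ A', (0 < a → v x < a) ∧ (a < 0 → a < v x)) →
      (∀ a ∈ A ∪ A', a < 0 → η < -a) →
      (∀ i, (∀ x ∈ M i ∩ N, 0 ≤ fh x) →
        trc (M i) U u' A ∩ trc (M i) U v' A' ⊆ (trc (M i) U u A ∩ trc (M i) U v A') \ N) ∧
      ((∀ i, (∀ x ∈ M i ∩ N, 0 ≤ fh x) ∨ ∃ p ∈ M i, p ∈ U ∧ u p = 0 ∧ v p = 0) →
        RelN M U A A' u v u' v') := by
  obtain ⟨e1, he1, H1⟩ := h.exists_slice i₀ iU hU hUW hUc rv
  obtain ⟨e2, he2, H2⟩ := h.swap.exists_slice i₀ iU hU hUW hUc ru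
  refine ⟨min e1 e2, lt_min he1 he2, fun ε hε hεε η K Mc δ hη hK hM hδ u' v' hu' hv' A A' hAc hAc'
    hA0 hA0' hA hA' hηA => ?_⟩
  obtain ⟨Γv, hΓv⟩ := H1 ε hε (hεε.trans (min_le_left _ _))
  obtain ⟨Γu, hΓu⟩ := H2 ε hε (hεε.trans (min_le_right _ _))
  -- the new functions on the good sets
  have newu : ∀ i, (∀ x ∈ M i ∩ N, 0 ≤ fh x) → NewF (M i) U N A ε u v u' := by
    intro i hi
    refine ⟨fun x hx => by rw [hu']; exact exU_of_notMem hx, fun x hx hxA => ?_,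
      fun x hxM hxN h0 => ?_⟩
    · refine lev_zero (hA x hx) (fun a ha => hηA a (Or.inl ha)) ?_ ?_ hxA
      · rw [hu', exU_of_mem hx]; exact xf_le
      · rw [hu', exU_of_mem hx]; exact min_le_xf
    · rw [hu', exU_of_mem hxN, xf_eq_zero_iff hη hK hM] at h0
      have hf := hi x ⟨hxM, hxN⟩
      rcases h0 with ⟨h1, h2 | h2⟩ | ⟨h1, h2, h3⟩ | ⟨h1, h2, h3⟩
      · exact Or.inl ⟨h1, h2⟩
      · linarith
      · exact Or.inr ⟨h1, h2⟩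
      · linarith
  have newv : ∀ i, (∀ x ∈ M i ∩ N, 0 ≤ fh x) → NewF (M i) U N A' ε v u v' := by
    intro i hi
    refine ⟨fun x hx => by rw [hv']; exact exU_of_notMem hx, fun x hx hxA => ?_,
      fun x hxM hxN h0 => ?_⟩
    · refine lev_zero (hA' x hx) (fun a ha => hηA a (Or.inr ha)) ?_ ?_ hxA
      · rw [hv', exU_of_mem hx]; exact xf_le
      · rw [hv', exU_of_mem hx]; exact min_le_xf
    · rw [hv', exU_of_mem hxN, xf_eq_zero_iff hη hK hM] at h0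
      have hf := hi x ⟨hxM, hxN⟩
      rcases h0 with ⟨h1, h2 | h2⟩ | ⟨h1, h2, h3⟩ | ⟨h1, h2, h3⟩
      · exact Or.inl ⟨h1, h2⟩
      · linarith
      · exact Or.inr ⟨h1, h2⟩
      · linarith
  have hcross : ∀ i, (∀ x ∈ M i ∩ N, 0 ≤ fh x) →
      trc (M i) U u' A ∩ trc (M i) U v' A' ⊆ (trc (M i) U u A ∩ trc (M i) U v A') \ N := by
    rintro i hi x ⟨⟨⟨hxM, hxU⟩, hxA⟩, -, hxA'⟩
    by_cases hxN : x ∈ N
    · exfalso
      have h0 := (newu i hi).lev0 x hxN hxA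
      have h0' := (newv i hi).lev0 x hxN hxA'
      rcases (newu i hi).zero x hxM hxN h0 with ⟨h1, h2⟩ | ⟨h1, h2⟩ <;>
      rcases (newv i hi).zero x hxM hxN h0' with ⟨g1, g2⟩ | ⟨g1, g2⟩ <;> linarith
    · refine ⟨⟨⟨⟨hxM, hxU⟩, ?_⟩, ⟨hxM, hxU⟩, ?_⟩, hxN⟩
      · rw [← (newu i hi).out x hxN]; exact hxA
      · rw [← (newv i hi).out x hxN]; exact hxA'
  refine ⟨hcross, fun hgood => ?_⟩
  -- a set without crossing points is good
  have hg : ∀ i, Disjoint (trc (M i) U u A) (trc (M i) U v A') → ∀ x ∈ M i ∩ N, 0 ≤ fh x := by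
    intro i hoff
    rcases hgood i with h1 | ⟨p, h1, h2, h3, h4⟩
    · exact h1
    · exact (Set.disjoint_left.1 hoff (show p ∈ trc (M i) U u A from
        ⟨⟨h1, h2⟩, by rw [h3]; exact hA0⟩) ⟨⟨h1, h2⟩, by rw [h4]; exact hA0'⟩).elim
  have sl1 : ∀ i, (∀ x ∈ M i ∩ N, 0 ≤ fh x) → ∀ z ∈ lev U v 0,
      ((Γv.toFun z ∈ M i ∧ Γv.toFun z ∈ N ∧ 0 ≤ u (Γv.toFun z)) ↔ (z ∈ M i ∧ z ∈ N ∧ 0 ≤ u z)) ∧
      ((Γv.toFun z ∈ M i ∧ Γv.toFun z ∈ N ∧ u (Γv.toFun z) = 0) ↔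
        (z ∈ M i ∧ z ∈ N ∧ u z = 0)) := by
    intro i hi z hz
    have k1 := hΓv (Sum.inr (Sum.inl i)) z hz
    have k2 := hΓv (Sum.inr (Sum.inr i)) z hz
    exact ⟨⟨fun hh => (k1.1 ⟨hi, hh⟩).2, fun hh => (k1.2 ⟨hi, hh⟩).2⟩,
      ⟨fun hh => (k2.1 ⟨hi, hh⟩).2, fun hh => (k2.2 ⟨hi, hh⟩).2⟩⟩
  have sl2 : ∀ i, (∀ x ∈ M i ∩ N, 0 ≤ fh x) → ∀ z ∈ lev U u 0,
      ((Γu.toFun z ∈ M i ∧ Γu.toFun z ∈ N ∧ 0 ≤ v (Γu.toFun z)) ↔ (z ∈ M i ∧ z ∈ N ∧ 0 ≤ v z)) ∧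
      ((Γu.toFun z ∈ M i ∧ Γu.toFun z ∈ N ∧ v (Γu.toFun z) = 0) ↔
        (z ∈ M i ∧ z ∈ N ∧ v z = 0)) := by
    intro i hi z hz
    have k1 := hΓu (Sum.inr (Sum.inl i)) z hz
    have k2 := hΓu (Sum.inr (Sum.inr i)) z hz
    exact ⟨⟨fun hh => (k1.1 ⟨hi, hh⟩).2, fun hh => (k1.2 ⟨hi, hh⟩).2⟩,
      ⟨fun hh => (k2.1 ⟨hi, hh⟩).2, fun hh => (k2.2 ⟨hi, hh⟩).2⟩⟩
  have huc : ContinuousOn u U := h.ucont.mono hUW
  have hvc : ContinuousOn v U := h.vcont.mono hUW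
  refine ⟨fun i hoff => ?_, fun i hoff fu fv => ?_, fun i hoff hno σ hσ => ?_⟩
  · rw [Set.disjoint_left]
    intro x hx hx'
    have := hcross i (hg i hoff) ⟨hx, hx'⟩
    exact Set.disjoint_left.1 hoff this.1.1 this.1.2
  · have hi := hg i hoff
    have s1 := (newu i hi).sub hA0 hε Γv fun z hz => (sl1 i hi z hz).1
    have s2 := (newv i hi).sub hA0' hε Γu fun z hz => (sl2 i hi z hz).1
    refine count_aux fu fv s1 s2 (fun x hx => hx.1) ?_ ?_ (fun x hx => hx.1) ?_ ?_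
    · rintro x ⟨h1, h2, h3, h4, h5⟩
      exact ⟨⟨h1, h2⟩, by rw [h5]; exact hA0⟩
    · rw [Set.disjoint_left]
      rintro x ⟨-, h1⟩ ⟨-, -, h3, h4, -⟩
      exact (h1 h3).not_ge h4
    · rintro x ⟨h1, h2, h3, h4, h5⟩
      exact ⟨⟨h1, h2⟩, by rw [h5]; exact hA0'⟩
    · rw [Set.disjoint_left]
      rintro x ⟨-, h1⟩ ⟨-, -, h3, h4, -⟩
      exact (h1 h3).not_ge h4
  · have hi := hg i hoff
    constructor
    · intro hσ'
      rcases (newu i hi).circ h.cN.isClosed hA0 hA0' hAc hA huc hvc Γv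
        (fun z hz => (sl1 i hi z hz).1) (fun z hz => (sl1 i hi z hz).2) hoff hσ hσ' with
        h5 | ⟨σ', h5, h6⟩
      · exact (hno σ hσ).1 h5
      · exact (hno σ' h5).2 h6
    · intro hσ'
      rcases (newv i hi).circ h.cN.isClosed hA0' hA0 hAc' hA' hvc huc Γu
        (fun z hz => (sl2 i hi z hz).1) (fun z hz => (sl2 i hi z hz).2) hoff.symm hσ hσ' with
        h5 | ⟨σ', h5, h6⟩
      · exact (hno σ hσ).2 h5
      · exact (hno σ' h5).1 h6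

end ExIn

namespace CiIn

variable {W N : Set E} {M : ι → Set E} {u fh : E → ℝ} {L : E →ₗ[ℝ] ℝ} {c₀ c : ℝ}

/-- **(CNT), removal of a circle.** The other function `v` has no level in `N`. -/
theorem rel {U : Set E} {η Mc δ : ℝ} (hη : 0 < η) (hM : 0 < Mc) (hδ : 0 < δ) {v u' : E → ℝ}
    (hu' : u' = ciU N η Mc δ u fh) {A A' : Set ℝ} (hA0 : (0:ℝ) ∈ A)
    (hA : ∀ x ∈ N, ∀ a ∈ A, (0 < a → u x < a) ∧ (a < 0 → a < u x)) (hA' : ∀ x ∈ N, v x ∉ A')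
    (hηA : ∀ a ∈ A, a < 0 → η < -a) :
    (∀ i, (∀ x ∈ M i ∩ N, 0 ≤ fh x) → trc (M i) U u' A ⊆ trc (M i) U u A \ N) ∧
      ((∀ i, (∀ x ∈ M i ∩ N, 0 ≤ fh x) ∨
        ∃ σ, IsCircle σ ∧ ∀ x ∈ σ, x ∈ M i ∧ x ∈ U ∧ u x = 0) → RelN M U A A' u v u' v) := by
  have out : ∀ x ∉ N, u' x = u x := fun x hx => by rw [hu']; exact ciU_of_notMem hx
  have lev0 : ∀ x ∈ N, u' x ∈ A → u' x = 0 := by
    intro x hx hxA
    refine lev_zero (hA x hx) hηA ?_ ?_ hxA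
    · rw [hu', ciU_of_mem hx]; exact min_le_left _ _
    · rw [hu', ciU_of_mem hx]; exact min_le_min_left _ (le_max_left _ _)
  have hsub : ∀ i, (∀ x ∈ M i ∩ N, 0 ≤ fh x) → trc (M i) U u' A ⊆ trc (M i) U u A \ N := by
    rintro i hi x ⟨⟨hxM, hxU⟩, hxA⟩
    by_cases hxN : x ∈ N
    · exfalso
      have h0 := lev0 x hxN hxA
      have hf := hi x ⟨hxM, hxN⟩
      rw [hu', ciU_of_mem hxN, ciU_eq_zero_iff hη hM] at h0
      rcases h0 with ⟨-, h1⟩ | ⟨-, h1⟩ <;> linarith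
    · exact ⟨⟨⟨hxM, hxU⟩, out x hxN ▸ hxA⟩, hxN⟩
  refine ⟨hsub, fun hgood => ⟨fun i hoff => ?_, fun i hoff fu fv => ?_, fun i hoff hno => ?_⟩⟩
  · rw [Set.disjoint_left] at hoff ⊢
    rintro x ⟨hxM, hxA⟩ hxv
    have hxN : x ∉ N := fun hh => hA' x hh hxv.2
    exact hoff ⟨hxM, out x hxN ▸ hxA⟩ hxv
  · rcases hgood i with hi | ⟨σ, hσ, hσ'⟩
    · have h1 := (hsub i hi).trans sdiff_subset
      exact ⟨fu.subset h1, fv, Nat.add_le_add_right (ncard_le_ncard h1 fu) _⟩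
    · exfalso
      have h1 : σ ⊆ trc (M i) U u A := fun x hx => by
        obtain ⟨a1, a2, a3⟩ := hσ' x hx
        exact ⟨⟨a1, a2⟩, by rw [a3]; exact hA0⟩
      have hfin := fu.subset h1
      -- a circle is infinite
      obtain ⟨φ⟩ := hσ
      have h2 : (sphere (0 : ℝ × ℝ) 1).Finite := by
        have : φ.invFun '' σ = sphere (0 : ℝ × ℝ) 1 := φ.symm.image_eq
        rw [← this]; exact hfin.image _
      have h3 : ((fun t : ℝ => ((1:ℝ), t)) '' Icc (0:ℝ) 1) ⊆ sphere (0 : ℝ × ℝ) 1 := by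
        rintro _ ⟨t, ht, rfl⟩
        rw [mem_sphere_zero_iff_norm, Prod.norm_def]
        simp only [norm_one, Real.norm_eq_abs]
        rw [abs_of_nonneg ht.1]
        exact max_eq_left ht.2
      have h4 := h2.subset h3
      have h5 : (Icc (0:ℝ) 1).Finite := h4.of_finite_image fun a _ b _ hab => congrArg Prod.snd hab
      exact (Icc_infinite (zero_lt_one : (0:ℝ) < 1)) h5
  · rcases hgood i with hi | ⟨σ, hσ, hσ'⟩
    · intro σ hσ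
      exact ⟨fun h1 => (hno σ hσ).1 (h1.trans ((hsub i hi).trans sdiff_subset)), (hno σ hσ).2⟩
    · exfalso
      refine (hno σ hσ).1 fun x hx => ?_
      obtain ⟨a1, a2, a3⟩ := hσ' x hx
      exact ⟨⟨a1, a2⟩, by rw [a3]; exact hA0⟩

end CiIn

end P073.H805
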