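import Vale.Agent.P073.H936.K3Box
import Vale.Agent.P073.H237.NearDef

/-!
# P073, block H805: (c') CONF, the switched map confines the preimages of far sets
-/

open Set Metric Topology Filter

namespace P073.H936.K3.BoxK

open P073 P073.H936 P073.H880 P073.H669 P073.H579

variable {ι : Type*} {E : Type} [NormedAddCommGroup E] [NormedSpace ℝ E]
  {side : ι → Bool} {ax : Bool → Fin 3} {lo hi : Fin 3 → ℝ} {c w : ι → ℝ} {U : Set E} {Q : Type}
  (D : BoxK side ax lo hi c w U Q)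

/-- The set `T₁` of the target is far from the band `j`, and so are the cells which meet it. -/
structure Clear (j : ι) (T₁ : Set (Fin 3 → ℝ)) : Prop where
  far : ∀ y ∈ T₁, w j < |y (ax (side j)) - c j|
  cell : ∀ q, (D.h.toFun '' D.K.C q ∩ T₁).Nonempty →
    ∀ x ∈ D.K.C q, w j < |D.h.toFun x (ax (side j)) - c j|

section

variable [Finite ι]

/-- a point of a new thick sheet is at a small level, or in a cell which meets the band -/
theorem N_near {j : ι} {x : E} (hx : x ∈ D.vf.N j) :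
    |D.h.toFun x (ax (side j)) - c j| ≤ w j ∨
      ∃ q, x ∈ D.K.C q ∧ ∃ z ∈ D.K.C q, |D.h.toFun z (ax (side j)) - c j| ≤ w j := by
  have key : ∀ y ∈ D.pre.N j, |D.h.toFun y (ax (side j)) - c j| ≤ w j := fun y hy =>
    (D.pre_N j (D.pre_N_sub j hy)).1 hy
  have hDN : ∀ z ∈ D.pre.D j, z ∈ D.pre.N j := by
    intro z hz
    have h1 := (D.pre.Γ j).mapsTo (show (z, (0:ℝ)) ∈ D.pre.D j ×ˢ Icc (-1:ℝ) 1 from
      ⟨hz, by norm_num, zero_le_one⟩)
    rwa [D.pre.zero j z hz] at h1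
  rcases hx with h1 | h1
  · exact Or.inl (key x (D.pre.PP_N j h1))
  · obtain ⟨k, hk⟩ := mem_iUnion.1 h1
    rcases D.pre.cap_sub j k hk with h2 | ⟨⟨z, t⟩, ⟨hz, ht⟩, rfl⟩
    · right
      have hVB : ∀ q, D.pre.V q ∪ D.pre.B q = D.K.C q := fun q => D.bi.VB_eq q
      refine ⟨D.pre.cell j k, by rw [← hVB]; exact Or.inl h2, ?_⟩
      obtain ⟨z, hz, -⟩ := D.pre.near j k
      refine ⟨z, ?_, key z (hDN z (D.pre.γD j k hz))⟩
      rw [← hVB]
      exact Or.inr (D.pre.γB j k hz)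
    · exact Or.inl (key _ ((D.pre.Γ j).mapsTo ⟨D.pre.γD j k hz, ht⟩))

variable {D}

/-- over a clear set there is no point of the new thick sheet -/
theorem Clear.notMem {j : ι} {T₁ : Set (Fin 3 → ℝ)} (hC : D.Clear j T₁) {x : E}
    (hxT : D.h.toFun x ∈ T₁) : x ∉ D.vf.N j := by
  intro hx
  rcases D.N_near hx with h1 | ⟨q, hq, z, hz, h1⟩
  · exact absurd (hC.far _ hxT) (not_lt.2 h1)
  · exact absurd (hC.cell q ⟨_, mem_image_of_mem _ hq, hxT⟩ z hz) (not_lt.2 h1)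

end

variable {D}

/-- **the confinement**: if the preimage of a connected set `T₁` misses the domain `B` of the band
`j` of `g`, then `g` keeps it on its side of the band. -/
theorem conf_of {r : ℝ} {j : ι} (h0 : 0 ≤ r) (hr : r ≤ 1) (hw : 0 ≤ w j)
    {g : ConHomeo U (Icc lo hi)} (hg : EqOn g.toFun D.h.toFun D.Bd) {B : Set E} (hBU : B ⊆ U)
    (hB : g.toFun '' B = {y | y ∈ Icc lo hi ∧ |y (ax (side j)) - c j| ≤ r * w j})
    {T₁ : Set (Fin 3 → ℝ)} (hTc : IsPreconnected T₁) (hTI : T₁ ⊆ Icc lo hi)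
    (hTb : (T₁ ∩ frontier (Icc lo hi)).Nonempty)
    (hmiss : ∀ x ∈ U, D.h.toFun x ∈ T₁ → x ∉ B) :
    ((∀ y ∈ T₁, y (ax (side j)) < c j - w j) → ∀ x ∈ U, D.h.toFun x ∈ T₁ →
      g.toFun x (ax (side j)) < c j - r * w j) ∧
    ((∀ y ∈ T₁, c j + w j < y (ax (side j))) → ∀ x ∈ U, D.h.toFun x ∈ T₁ →
      c j + r * w j < g.toFun x (ax (side j))) := by
  set W : Set E := D.h.invFun '' T₁ with hW
  have hWU : W ⊆ U := by
    rintro _ ⟨y, hy, rfl⟩
    exact D.h.mapsTo_inv (hTI hy)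
  have hWT : ∀ x ∈ W, D.h.toFun x ∈ T₁ := by
    rintro _ ⟨y, hy, rfl⟩
    rwa [D.h.right_inv (hTI hy)]
  have hWc : IsPreconnected W := hTc.image _ (D.h.cont_inv.mono hTI)
  have hmem : ∀ x ∈ U, D.h.toFun x ∈ T₁ → x ∈ W := fun x hx hxT =>
    ⟨_, hxT, D.h.left_inv hx⟩
  have hout : ∀ x ∈ W, ¬ |g.toFun x (ax (side j)) - c j| ≤ r * w j := by
    intro x hx hle
    have h1 : g.toFun x ∈ g.toFun '' B := by
      rw [hB]; exact ⟨g.mapsTo (hWU hx), hle⟩
    obtain ⟨y, hy, he⟩ := h1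
    have h2 := g.injOn (hBU hy) (hWU hx) he
    exact hmiss x (hWU hx) (hWT x hx) (h2 ▸ hy)
  have hf : ContinuousOn (fun x => g.toFun x (ax (side j))) W :=
    (continuous_apply _).comp_continuousOn (g.cont.mono hWU)
  obtain ⟨y₀, hy₀, hy₀f⟩ := hTb
  set x₀ : E := D.h.invFun y₀ with hx₀
  have hx₀W : x₀ ∈ W := ⟨y₀, hy₀, rfl⟩
  have hx₀B : x₀ ∈ D.Bd := ⟨y₀, hy₀f, rfl⟩
  have hgx₀ : g.toFun x₀ = y₀ := by
    rw [hg hx₀B, hx₀]; exact D.h.right_inv (hTI hy₀)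
  have hrw : r * w j ≤ w j := by nlinarith
  have hrw0 : 0 ≤ r * w j := mul_nonneg h0 hw
  constructor
  · intro hlt x hx hxT
    by_contra hge
    have hge' : c j - r * w j ≤ g.toFun x (ax (side j)) := not_lt.1 hge
    have h0 : g.toFun x₀ (ax (side j)) ≤ c j - r * w j := by
      rw [hgx₀]; linarith [hlt y₀ hy₀]
    obtain ⟨z, hz, hze⟩ := hWc.intermediate_value hx₀W (hmem x hx hxT) hf ⟨h0, hge'⟩
    refine hout z hz ?_
    have hze' : g.toFun z (ax (side j)) = c j - r * w j := hze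
    rw [hze', show c j - r * w j - c j = -(r * w j) by ring, abs_neg, abs_of_nonneg hrw0]
  · intro hlt x hx hxT
    by_contra hge
    have hge' : g.toFun x (ax (side j)) ≤ c j + r * w j := not_lt.1 hge
    have h0 : c j + r * w j ≤ g.toFun x₀ (ax (side j)) := by
      rw [hgx₀]; linarith [hlt y₀ hy₀]
    obtain ⟨z, hz, hze⟩ := hWc.intermediate_value (hmem x hx hxT) hx₀W hf ⟨hge', h0⟩
    refine hout z hz ?_
    have hze' : g.toFun z (ax (side j)) = c j + r * w j := hze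
    rw [hze', show c j + r * w j - c j = r * w j by ring, abs_of_nonneg hrw0]

/-- **(c') CONF, part 1**: the preimage of `T₁` misses the domain of every band which is far from
`T₁` -/
theorem miss_of {X : Bool} {T T₁ : Set (Fin 3 → ℝ)} [Finite ι]
    {B : ι → Set E} (hR2 : ∀ x, D.Nr T x → ∀ j, side j ≠ X → x ∉ B j)
    (hR3 : ∀ x, D.Nr T x → ∀ i, side i = X → x ∈ B i → x ∈ D.vf.N i)
    (hT : T₁ ⊆ T) (hcell : ∀ q, (D.h.toFun '' D.K.C q ∩ T₁).Nonempty → D.h.toFun '' D.K.C q ⊆ T)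
    {j : ι} (hC : side j = X → D.Clear j T₁) : ∀ x ∈ U, D.h.toFun x ∈ T₁ → x ∉ B j := by
  intro x hx hxT hxB
  have hnr : D.Nr T x := by
    refine ⟨hx, ?_⟩
    by_cases h : ∃ q, x ∈ interior (D.K.C q)
    · obtain ⟨q, hq⟩ := h
      exact Or.inr ⟨q, interior_subset hq,
        hcell q ⟨_, mem_image_of_mem _ (interior_subset hq), hxT⟩⟩
    · push Not at h
      exact Or.inl ⟨hT hxT, h⟩
  by_cases hj : side j = X
  · exact (hC hj).notMem hxT (hR3 x hnr j hj hxB)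
  · exact hR2 x hnr j hj hxB

/-- **(c') CONF**: over a connected subset `T₁` of `T` which meets the frontier of the box and is
far from the band `j` of `X` (for the bands of the other family this is in `Near`), `g` stays on
its side of the band. -/
theorem Near.conf {X : Bool} {T T₁ : Set (Fin 3 → ℝ)} [Finite ι] (hN : D.Near X T) {r : ℝ}
    (h0 : 0 ≤ r) (hr : r ≤ 1) {g : ConHomeo U (Icc lo hi)} (hg : EqOn g.toFun D.h.toFun D.Bd)
    {B : ι → Set E} (hR2 : ∀ x, D.Nr T x → ∀ j, side j ≠ X → x ∉ B j)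
    (hR3 : ∀ x, D.Nr T x → ∀ i, side i = X → x ∈ B i → x ∈ D.vf.N i)
    (hT : T₁ ⊆ T) (hcell : ∀ q, (D.h.toFun '' D.K.C q ∩ T₁).Nonempty → D.h.toFun '' D.K.C q ⊆ T)
    (hTc : IsPreconnected T₁) (hTb : (T₁ ∩ frontier (Icc lo hi)).Nonempty)
    {j : ι} (hC : side j = X → D.Clear j T₁) (hBU : B j ⊆ U) (hw : 0 ≤ w j)
    (himg : g.toFun '' B j = {y | y ∈ Icc lo hi ∧ |y (ax (side j)) - c j| ≤ r * w j}) :
    ((∀ y ∈ T₁, y (ax (side j)) < c j - w j) → ∀ x ∈ U, D.h.toFun x ∈ T₁ →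
      g.toFun x (ax (side j)) < c j - r * w j) ∧
    ((∀ y ∈ T₁, c j + w j < y (ax (side j))) → ∀ x ∈ U, D.h.toFun x ∈ T₁ →
      c j + r * w j < g.toFun x (ax (side j))) :=
  conf_of h0 hr hw hg hBU himg hTc (hT.trans hN.sub) hTb (miss_of hR2 hR3 hT hcell hC)

end P073.H936.K3.BoxK
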