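import Vale.Agent.P073.H805.ConfS

/-!
# P073, block H805: [FIB2] (c') CONF for connected passive sets
-/

open Set Metric Topology Filter

namespace P073.H936.K3.BoxK

open P073 P073.H936 P073.H880 P073.H669 P073.H579

/-! ### the connectedness argument -/

section conn

variable {ι : Type*} {E : Type} [NormedAddCommGroup E] [NormedSpace ℝ E]
  {side : ι → Bool} {ax : Bool → Fin 3} {lo hi : Fin 3 → ℝ} {c w : ι → ℝ} {U : Set E} {Q : Type}
  {D : BoxK side ax lo hi c w U Q}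

/-- a connected set which misses the domain of the band `j` stays on its side -/
theorem side_of {r : ℝ} {j : ι} {g : ConHomeo U (Icc lo hi)} {B : Set E} (hBU : B ⊆ U)
    (hB : g.toFun '' B = {y | y ∈ Icc lo hi ∧ |y (ax (side j)) - c j| ≤ r * w j})
    (hrw : 0 ≤ r * w j) {W : Set E} (hWU : W ⊆ U) (hWc : IsPreconnected W)
    (hmiss : Disjoint W B) {x₀ : E} (hx₀ : x₀ ∈ W) :
    (g.toFun x₀ (ax (side j)) ≤ c j - r * w j → ∀ x ∈ W,
      g.toFun x (ax (side j)) < c j - r * w j) ∧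
    (c j + r * w j ≤ g.toFun x₀ (ax (side j)) → ∀ x ∈ W,
      c j + r * w j < g.toFun x (ax (side j))) := by
  have hout : ∀ x ∈ W, ¬ |g.toFun x (ax (side j)) - c j| ≤ r * w j := by
    intro x hx hle
    have h1 : g.toFun x ∈ g.toFun '' B := by
      rw [hB]; exact ⟨g.mapsTo (hWU hx), hle⟩
    obtain ⟨y, hy, he⟩ := h1
    have h2 := g.injOn (hBU hy) (hWU hx) he
    exact disjoint_left.1 hmiss hx (h2 ▸ hy)
  have hf : ContinuousOn (fun x => g.toFun x (ax (side j))) W :=
    (continuous_apply _).comp_continuousOn (g.cont.mono hWU)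
  constructor
  · intro h0 x hx
    by_contra hge
    have hge' : c j - r * w j ≤ g.toFun x (ax (side j)) := not_lt.1 hge
    obtain ⟨z, hz, hze⟩ := hWc.intermediate_value hx₀ hx hf ⟨h0, hge'⟩
    refine hout z hz ?_
    have hze' : g.toFun z (ax (side j)) = c j - r * w j := hze
    rw [hze', show c j - r * w j - c j = -(r * w j) by ring, abs_neg, abs_of_nonneg hrw]
  · intro h0 x hx
    by_contra hge
    have hge' : g.toFun x (ax (side j)) ≤ c j + r * w j := not_lt.1 hge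
    obtain ⟨z, hz, hze⟩ := hWc.intermediate_value hx hx₀ hf ⟨hge', h0⟩
    refine hout z hz ?_
    have hze' : g.toFun z (ax (side j)) = c j + r * w j := hze
    rw [hze', show c j + r * w j - c j = r * w j by ring, abs_of_nonneg hrw]

end conn

variable {ι : Type*} [Fintype ι] {E : Type} [NormedAddCommGroup E] [NormedSpace ℝ E]
  {side : ι → Bool} {ax : Bool → Fin 3} {lo hi : Fin 3 → ℝ} {c w : ι → ℝ} {U : Set E} {Q : Type}
  {D : BoxK side ax lo hi c w U Q} {X : Bool} {T : Set (Fin 3 → ℝ)} {r q : ℝ}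
  {g : ConHomeo U (Icc lo hi)} {L : LamData D.vf.swData} {O : SwOut D.vf.swData L r}

/-- a passive point of a new thick sheet is at a small level -/
theorem le_of_mem_N {j : ι} {x : E} (hx : x ∈ D.vf.N j) (hp : ∀ q, x ∉ interior (D.K.C q)) :
    |D.h.toFun x (ax (side j)) - c j| ≤ w j := by
  have key : ∀ y ∈ D.pre.N j, |D.h.toFun y (ax (side j)) - c j| ≤ w j := fun y hy =>
    (D.pre_N j (D.pre_N_sub j hy)).1 hy
  rcases hx with h1 | h1
  · exact key x (D.pre.PP_N j h1)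
  · obtain ⟨k, hk⟩ := mem_iUnion.1 h1
    rcases D.pre.cap_sub j k hk with h2 | ⟨⟨z, t⟩, ⟨hz, ht⟩, rfl⟩
    · exact absurd h2 (hp _)
    · exact key _ ((D.pre.Γ j).mapsTo ⟨D.pre.γD j k hz, ht⟩)

/-- **CONF, part 1**, for passive points: `x` is not in the domain of a band which is far from
its old position -/
theorem Near.notMem_B_of (hN : D.Near X T) (h1 : r < 1) (O : SwOut D.vf.swData L r) {x : E}
    (hx : x ∈ U) (hp : ∀ q, x ∉ interior (D.K.C q)) (hT : D.h.toFun x ∈ T) {j : ι}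
    (hj : side j = X → w j < |D.h.toFun x (ax (side j)) - c j|) : x ∉ O.B j := by
  intro hB
  have hnr : D.Nr T x := ⟨hx, Or.inl ⟨hT, hp⟩⟩
  by_cases hs : side j = X
  · have h2 := (hN.mem_B h1 O hnr hB).1.1
    exact absurd (hj hs) (not_lt.2 (le_of_mem_N h2 hp))
  · exact hN.notMem_B h1 O hnr hs hB

/-- **(c') CONF for a connected passive set `W`** near the wall which meets the boundary of the
box: `g` keeps `W` on its side of every band which is far from the old image of `W` -/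
theorem SwitchedF.confW (S : D.SwitchedF r q g L O) (h0 : 0 ≤ r) (h1 : r < 1) (hN : D.Near X T)
    {W : Set E} (hWU : W ⊆ U) (hWc : IsPreconnected W) (hWp : ∀ q, Disjoint W (interior (D.K.C q)))
    (hWT : ∀ x ∈ W, D.h.toFun x ∈ T) (hWb : (W ∩ D.Bd).Nonempty) {j : ι} :
    ((∀ x ∈ W, D.h.toFun x (ax (side j)) < c j - w j) → ∀ x ∈ W,
      g.toFun x (ax (side j)) < c j - r * w j) ∧
    ((∀ x ∈ W, c j + w j < D.h.toFun x (ax (side j))) → ∀ x ∈ W,
      c j + r * w j < g.toFun x (ax (side j))) := by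
  have hw := (D.H.ok j).pos
  have hrw : 0 ≤ r * w j := mul_nonneg h0 hw.le
  have hrw' : r * w j ≤ w j := by nlinarith
  obtain ⟨x₀, hx₀, hx₀b⟩ := hWb
  have hgx₀ : g.toFun x₀ = D.h.toFun x₀ := S.bd hx₀b
  have key : (∀ x ∈ W, w j < |D.h.toFun x (ax (side j)) - c j|) → Disjoint W (O.B j) := by
    intro h
    rw [disjoint_left]
    intro x hx
    exact hN.notMem_B_of h1 O (hWU hx) (fun q hq => disjoint_left.1 (hWp q) hx hq) (hWT x hx)
      fun _ => h x hx
  constructor
  · intro hlt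
    have hm := key fun x hx => lt_of_lt_of_le (by linarith [hlt x hx]) (neg_le_abs _)
    refine (side_of (B_sub O j) (S.img j) hrw hWU hWc hm hx₀).1 ?_
    rw [hgx₀]; linarith [hlt x₀ hx₀]
  · intro hlt
    have hm := key fun x hx => lt_of_lt_of_le (by linarith [hlt x hx]) (le_abs_self _)
    refine (side_of (B_sub O j) (S.img j) hrw hWU hWc hm hx₀).2 ?_
    rw [hgx₀]; linarith [hlt x₀ hx₀]

omit [Fintype ι] in
/-- bands of the other family: all of `W` is far, by `Near.far` -/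
theorem Near.far_le {D : BoxK side ax lo hi c w U Q} (hN : D.Near X T) {j : ι}
    (hj : side j ≠ X) {y : Fin 3 → ℝ} (hy : y ∈ T) (hyj : y (ax (side j)) ≤ c j) :
    y (ax (side j)) < c j - w j := by
  have h1 := hN.far j hj y hy
  rw [abs_of_nonpos (by linarith)] at h1
  linarith

omit [Fintype ι] in
theorem Near.far_ge {D : BoxK side ax lo hi c w U Q} (hN : D.Near X T) {j : ι}
    (hj : side j ≠ X) {y : Fin 3 → ℝ} (hy : y ∈ T) (hyj : c j ≤ y (ax (side j))) :
    c j + w j < y (ax (side j)) := by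
  have h1 := hN.far j hj y hy
  rw [abs_of_nonneg (by linarith)] at h1
  linarith

/-! ### boundary bumping -/

/-- a connected compact set which is not inside the open set `V`: every component of its part in
the closed set `X ⊇ V` reaches the complement of `V` -/
theorem exists_comp {α : Type*} [TopologicalSpace α] [T2Space α] {K X V : Set α}
    (hK : IsCompact K) (hKc : IsPreconnected K) (hX : IsClosed X) (hV : IsOpen V) (hVX : V ⊆ X)
    (hKV : ¬ K ⊆ V) {x : α} (hx : x ∈ K ∩ X) :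
    ∃ C ⊆ K ∩ X, IsPreconnected C ∧ x ∈ C ∧ (C \ V).Nonempty := by
  have hKX : IsCompact (K ∩ X) := hK.inter_right hX
  have : CompactSpace ↥(K ∩ X) := isCompact_iff_compactSpace.1 hKX
  set x' : ↥(K ∩ X) := ⟨x, hx⟩ with hx'
  refine ⟨Subtype.val '' connectedComponent x', ?_, ?_, ⟨x', mem_connectedComponent, rfl⟩, ?_⟩
  · rintro _ ⟨y, -, rfl⟩
    exact y.2
  · exact isPreconnected_connectedComponent.image _ continuous_subtype_val.continuousOn
  · by_contra hne
    rw [Set.not_nonempty_iff_eq_empty, Set.sdiff_eq_empty] at hne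
    set V' : Set ↥(K ∩ X) := Subtype.val ⁻¹' V with hV'
    have hVo : IsOpen V' := hV.preimage continuous_subtype_val
    have hsub : connectedComponent x' ⊆ V' := fun y hy => hne ⟨y, hy, rfl⟩
    rw [connectedComponent_eq_iInter_isClopen] at hsub
    have : Nonempty { s : Set ↥(K ∩ X) // IsClopen s ∧ x' ∈ s } :=
      ⟨⟨univ, isClopen_univ, mem_univ _⟩⟩
    obtain ⟨⟨Z, hZ, hxZ⟩, hZV⟩ := exists_subset_nhds_of_compactSpace
      (V := fun s : { s : Set ↥(K ∩ X) // IsClopen s ∧ x' ∈ s } => s.1)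
      (fun a b => ⟨⟨a.1 ∩ b.1, a.2.1.inter b.2.1, a.2.2, b.2.2⟩, inter_subset_left,
        inter_subset_right⟩)
      (fun s => s.2.1.1) (U := V') (fun y hy => hVo.mem_nhds (hsub hy))
    have hF : IsClosed (Subtype.val '' Z : Set α) :=
      (hZ.1.isCompact.image continuous_subtype_val).isClosed
    have hF' : IsClosed (Subtype.val '' Zᶜ ∪ (K \ V) : Set α) :=
      (hZ.compl.1.isCompact.image continuous_subtype_val).isClosed.union
        (hK.diff hV).isClosed
    obtain ⟨z, hzK, hzV⟩ := Set.not_subset.1 hKV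
    obtain ⟨y, hyK, ⟨a, ha, hay⟩, hy2⟩ := isPreconnected_closed_iff.1 hKc _ _ hF hF' (by
        intro y hy
        by_cases hyX : y ∈ X
        · by_cases hyZ : (⟨y, hy, hyX⟩ : ↥(K ∩ X)) ∈ Z
          · exact Or.inl ⟨_, hyZ, rfl⟩
          · exact Or.inr (Or.inl ⟨_, hyZ, rfl⟩)
        · exact Or.inr (Or.inr ⟨hy, fun h => hyX (hVX h)⟩))
      ⟨x, hx.1, x', hxZ, rfl⟩ ⟨z, hzK, Or.inr ⟨hzK, hzV⟩⟩
    have hZV' : ∀ b ∈ Z, (b : α) ∈ V := fun b hb => hZV hb
    rcases hy2 with ⟨b, hb, hby⟩ | hy2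
    · exact hb ((Subtype.ext (hay.trans hby.symm) : a = b) ▸ ha)
    · exact hy2.2 (hay ▸ hZV' a ha)

/-- the components of the part of a compact connected set in a closed set, in the domain -/
theorem exists_compIn {E F : Type} [NormedAddCommGroup E] [NormedSpace ℝ E]
    [NormedAddCommGroup F] [NormedSpace ℝ F] {Ω : Set E} {Λ : Set F} (h : ConHomeo Ω Λ)
    {K : Set E} {X : Set F} (hKΩ : K ⊆ Ω) (hK : IsCompact K) (hKc : IsPreconnected K)
    (hX : IsClosed X) (hKX : ¬ h.toFun '' K ⊆ interior X) {x : E} (hx : x ∈ K)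
    (hxX : h.toFun x ∈ X) :
    ∃ W ⊆ K, IsPreconnected W ∧ x ∈ W ∧ (∀ z ∈ W, h.toFun z ∈ X) ∧
      ∃ z ∈ W, h.toFun z ∈ frontier X := by
  have hc : ContinuousOn h.toFun K := h.cont.mono hKΩ
  obtain ⟨C, hC1, hC2, hC3, ⟨y, hyC, hyV⟩⟩ := exists_comp (hK.image_of_continuousOn hc)
    (hKc.image _ hc) hX isOpen_interior interior_subset hKX ⟨mem_image_of_mem _ hx, hxX⟩
  have hinv : ∀ z ∈ C, h.invFun z ∈ K ∧ h.toFun (h.invFun z) = z := by
    intro z hz
    obtain ⟨a, ha, rfl⟩ := (hC1 hz).1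
    rw [h.left_inv (hKΩ ha)]
    exact ⟨ha, rfl⟩
  have hCΛ : C ⊆ Λ := by
    intro z hz
    obtain ⟨a, ha, rfl⟩ := (hC1 hz).1
    exact h.mapsTo (hKΩ ha)
  refine ⟨h.invFun '' C, ?_, hC2.image _ (h.cont_inv.mono hCΛ), ⟨_, hC3, h.left_inv (hKΩ hx)⟩,
    ?_, ?_⟩
  · rintro _ ⟨z, hz, rfl⟩
    exact (hinv z hz).1
  · rintro _ ⟨z, hz, rfl⟩
    rw [(hinv z hz).2]
    exact (hC1 hz).2
  · refine ⟨_, ⟨y, hyC, rfl⟩, ?_⟩
    rw [(hinv y hyC).2, hX.frontier_eq]
    exact ⟨(hC1 hyC).2, hyV⟩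

end P073.H936.K3.BoxK
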