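import Vale.Agent.P073.H805.NearP
import Vale.Agent.P073.H805.ConfW
import Vale.Agent.P073.H919.HookF3

/-!
# P073, block H805: position of the passive cells after the hook of ROUND P

A cell which is not redrawn by the hook of the plate `s` and is not changed by the exchange meets
the box `HB G c d s` only in the collars `c p ≤ · ≤ p` of the sides.  `conf_lt`, `conf_gt`: the
hook keeps its points on their side of every band which misses the old image.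
-/

open Set Metric Topology Filter

set_option linter.unusedSectionVars false

namespace P073.H919

open P073 P073.H936 P073.H936.K3 P073.H142 P073.H880 P073.H345 P073.H236 P073.H579
open Vale.Agent.P073.St (V)
open Vale.Agent.P073.AB (Idx)
open Vale.Agent.P073.H73 (Mesh)
open Vale.Agent.P073.H193 (Edges)
open Vale.Agent.P073.H471 Vale.Agent.P073.H267
open P073.Net P073.PA691
open Vale.Agent.P073.H341 (ROutZ HtOk Mg mem_int_pe)
open _root_.P073.H880.RP (Dat ROut3)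

variable {Ω Λ : Set V} {v : V} {K : BoxCx Λ v} {S : Rad K} {W : Wid K S} {B : Boxes W}
  {G : Geo B} {M : Mesh Ω} {E : Edges M} {D : Dat K M} {L : PLev G}
  {F : Bool → BFam 3 D.S₀ Λ} {T : Bool → ConHomeo Λ Λ} {κ₀ κ₁ : V → V} {c d : ℝ}
  {Zb : D.S₀ → Set M.ι} {h1 h2 h3 h4 : ConHomeo Ω Λ} {u : V} {ι : Type} {Fm : ι → Set V}

/-- the cells of a mesh are convex -/
theorem convex_polyQ (M : Mesh Ω) (i : M.ι) : Convex ℝ (M.Q i) := by
  obtain ⟨n, ν, t, h⟩ := (M.poly i).half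
  rw [h, Set.ofPred_forall]
  exact convex_iInter fun i => convex_halfSpace_le (ν i).isLinear (t i)

/-- the exchange does not change the sets off the plates -/
theorem h2_eq_of_miss (R : ROut3 G E D h1 h2 L.lv Fm) (hht : HtOk G D) {A : Set V} (hA : A ⊆ Ω)
    (hgc : ∀ x ∈ A, ∀ s ∈ D.S₀, h1.toFun x ∉ G.PB 1 s) : EqOn h2.toFun h1.toFun A :=
  fun x hx => R.off x (hA hx) fun s hs hi => hgc x hx s hs (hht.pe_PB hs (interior_subset hi))

/-- `y` is in the collar of the side `(β, b)` -/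
def Col (G : Geo B) (s : K.S) (c : ℝ) (β b : Bool) (y : V) : Prop :=
  bif b then K.shi s (tg s β) - c * G.p s ≤ y (tg s β)
  else y (tg s β) ≤ K.slo s (tg s β) + c * G.p s

/-- a point of the box which is not in the plate is in a collar -/
theorem exists_col {s : K.S} {c' : ℝ} {y : V} (hy : y ∈ HB G c d s) (hd : d ≤ 1)
    (hn : y ∉ G.PB c' s) : ∃ β b, Col G s c' β b y := by
  by_contra hcon
  push Not at hcon
  refine hn (Geo.mem_PB.2 ⟨fun k hk => ?_, ((mem_HB.1 hy).2).trans ?_⟩)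
  · obtain ⟨β, rfl⟩ : ∃ β, k = tg s β := ⟨bt s k, (tg_bt s hk).symm⟩
    have h1 := hcon β false
    have h2 := hcon β true
    simp only [Col, cond_false, cond_true, not_le] at h1 h2
    exact ⟨h1.le, h2.le⟩
  · have := B.τ_pos s
    nlinarith

/-- the local form of the property of the mesh sets -/
theorem loc_of_pre {X : Set V} {h h2 h3 : ConHomeo Ω Λ} {κ : V → V} (hX : X ⊆ Ω)
    (hXg : h.toFun '' X = Pre κ Λ h2 X) {x : V} (hx : x ∈ Ω) (he : h3.toFun x = h.toFun x) :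
    x ∈ X ↔ κ (h3.toFun x) ∈ h2.toFun '' X := by
  rw [he]
  constructor
  · intro hxX
    have h1 : h.toFun x ∈ Pre κ Λ h2 X := by rw [← hXg]; exact mem_image_of_mem _ hxX
    exact h1.2
  · intro h'
    have h1 : h.toFun x ∈ h.toFun '' X := by rw [hXg]; exact ⟨h.mapsTo hx, h'⟩
    obtain ⟨y, hy, e⟩ := h1
    exact h.injOn (hX hy) hx e ▸ hy

/-- the position of a point of a mesh set before the insertion, local form -/
theorem PSt.exists_preL {γ : Type*} {φ : γ → K.S} {F : Bool → BFam 3 γ Λ} (P : PSt L φ F T)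
    (h₀ : IsQ (fun b => L.bx false (φ b)) κ₀)
    (h₁ : IsQ (fun b => L.bx true (φ b)) κ₁) {b : γ} {h2 h3 h4 : ConHomeo Ω Λ}
    (hf : ∀ x ∈ Ω, h4.toFun x = (T true).toFun ((T false).toFun (h3.toFun x))) {A : Set V}
    {c d : ℝ} (hc : 7 / 8 ≤ c) (hc2 : c ≤ 2) (hd : d ≤ 1) {x : V} (hxΩ : x ∈ Ω)
    (hg : κ₁ (κ₀ (h3.toFun x)) ∈ h2.toFun '' A) (hb : h4.toFun x ∈ HB G c d (φ b)) :
    ∃ x' ∈ A, h2.toFun x' ∈ HB G c d (φ b) ∧
      h2.toFun x' (K.nrm (φ b)) = h4.toFun x (K.nrm (φ b)) ∧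
      ∀ β, h2.toFun x' (tg (φ b) β) =
          qm (L.lvs (φ b) β).L (L.c (φ b) β) (h3.toFun x (tg (φ b) β)) ∧
        h4.toFun x (tg (φ b) β) = (F β).σ b (h3.toFun x (tg (φ b) β)) := by
  have HP := P.prodOn b hc hc2 hd
  have hx3 := h3.mapsTo hxΩ
  have h5 : h3.toFun x ∈ HB G c d (φ b) := (HP.mem _ hx3).1 (by rw [← hf x hxΩ]; exact hb)
  have H₀ := fullSet_φ (G := G) (L := L) P.inj (β := false) b (c := c) (d := d) hc hc2 hd
  have H₁ := fullSet_φ (G := G) (L := L) P.inj (β := true) b (c := c) (d := d) hc hc2 hd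
  have h6 : κ₁ (κ₀ (h3.toFun x)) = prodK (L.kP (φ b)) (h3.toFun x) := by
    rw [H₁.eq h₁ ((H₀.mem_iff h₀).2 h5), H₀.eq h₀ h5]
    exact L.prodK_P (φ b) false _
  obtain ⟨x', hx', he⟩ := hg
  have he' : h2.toFun x' = prodK (L.kP (φ b)) (h3.toFun x) := by
    rw [he]; exact h6
  refine ⟨x', hx', ?_, ?_, fun β => ⟨?_, ?_⟩⟩
  · rw [he]
    exact (κ_mem_iff P.inj h₀ h₁ hc hc2 hd).2 h5
  · rw [he', hf x hxΩ, HP.apply h5, P.sgP_nrm]
    show L.kP (φ b) (K.nrm (φ b)) _ = _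
    rw [PLev.kP_nrm]; rfl
  · rw [he']
    show L.kP (φ b) (tg (φ b) β) _ = _
    rw [PLev.kP_tg]
    show kQ (L.bx β (φ b)) (L.bx β (φ b)).j _ = _
    rw [kQ_self]
    rfl
  · rw [hf x hxΩ, HP.apply h5, P.sgP_tg]

section pos

variable (H : HkG M L (Subtype.val : D.S₀ → K.S) F T κ₀ κ₁ c d Zb h2 h3 h4 u)

include H

/-- **collars**: a set which is not changed by the exchange -/
theorem HkG.exists_pre1 (R : ROut3 G E D h1 h2 L.lv Fm) (hht : HtOk G D) {A : Set V} (hA : A ⊆ Ω)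
    {s : D.S₀} (hg : ∀ x ∈ Ω, h4.toFun x ∈ HB G c d s.1 →
      (x ∈ A ↔ κ₁ (κ₀ (h3.toFun x)) ∈ h2.toFun '' A))
    (hgc : ∀ x ∈ A, ∀ s ∈ D.S₀, h1.toFun x ∉ G.PB 1 s) {x : V} (hx : x ∈ A)
    (hb : h4.toFun x ∈ HB G c d s.1) : ∃ x' ∈ A, h1.toFun x' ∈ HB G c d s.1 ∧
      h1.toFun x' (K.nrm s.1) = h4.toFun x (K.nrm s.1) ∧
      (∀ β, h1.toFun x' (tg s.1 β) = qm (L.lvs s.1 β).L (L.c s.1 β) (h3.toFun x (tg s.1 β)) ∧
        h4.toFun x (tg s.1 β) = (F β).σ s (h3.toFun x (tg s.1 β))) ∧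
      ∃ β b, Col G s.1 1 β b (h1.toFun x') ∧ Col G s.1 1 β b (h4.toFun x) := by
  have hp := Geo.p_pos (G := G) s.1
  have hpa := Geo.p_a (G := G) s.1
  obtain ⟨x', hx', h5, h6, h7⟩ := H.P.exists_preL H.q₀ H.q₁ H.map H.hc H.hc2 H.hd (hA hx)
    ((hg x (hA hx) hb).1 hx) hb
  rw [h2_eq_of_miss R hht hA hgc hx'] at h5 h6 h7
  refine ⟨x', hx', h5, h6, h7, ?_⟩
  obtain ⟨β, b, hβ⟩ := exists_col h5 H.hd (hgc x' hx' s.1 s.2)
  refine ⟨β, b, hβ, ?_⟩
  obtain ⟨h8, h9⟩ := h7 β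
  cases b
  · simp only [Col, cond_false, one_mul] at hβ ⊢
    rw [h8] at hβ
    have h10 : h3.toFun x (tg s.1 β) ≤ K.slo s.1 (tg s.1 β) + G.p s.1 := by
      by_contra hcon
      push Not at hcon
      have := (L.le_qm_iff s.1 β (t := h3.toFun x (tg s.1 β))
        (x := min (h3.toFun x (tg s.1 β)) (K.slo s.1 (tg s.1 β) + G.a s.1)) (min_le_right _ _)).2
        (min_le_left _ _)
      have h11 : K.slo s.1 (tg s.1 β) + G.p s.1 <
          min (h3.toFun x (tg s.1 β)) (K.slo s.1 (tg s.1 β) + G.a s.1) :=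
        lt_min hcon (by linarith)
      linarith
    rw [h9, (F β).σ_out (Or.inl (by rw [(H.P.B β s).al]; change _ ≤ K.slo s.1 (tg s.1 β) + G.a s.1; linarith))]
    exact h10
  · simp only [Col, cond_true, one_mul] at hβ ⊢
    rw [h8] at hβ
    have h10 : K.shi s.1 (tg s.1 β) - G.p s.1 ≤ h3.toFun x (tg s.1 β) := by
      by_contra hcon
      push Not at hcon
      have := (L.qm_le_iff s.1 β (t := h3.toFun x (tg s.1 β))
        (x := max (h3.toFun x (tg s.1 β)) (K.shi s.1 (tg s.1 β) - G.a s.1)) (le_max_right _ _)).2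
        (le_max_left _ _)
      have h11 : max (h3.toFun x (tg s.1 β)) (K.shi s.1 (tg s.1 β) - G.a s.1) <
          K.shi s.1 (tg s.1 β) - G.p s.1 := max_lt hcon (by linarith)
      linarith
    rw [h9, (F β).σ_out (Or.inr (by rw [(H.P.B β s).be]; change K.shi s.1 (tg s.1 β) - G.a s.1 ≤ _; linarith))]
    exact h10

/-- the four collars are `Near` sets -/
theorem HkG.near_col (hΩ : IsOpen Ω) (R : ROut3 G E D h1 h2 L.lv Fm)
    (Z : ROutZ G E D h1 h2 L.lv Fm) (hht : HtOk G D) (hc1 : c ≤ 1) (s : D.S₀)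
    (hcell : ∀ i ∈ Zb s, h3.toFun '' M.Q i = Pre (κ₁ ∘ κ₀) Λ h2 (M.Q i))
    (hosc : ∀ i ∈ Zb s, ∀ x ∈ M.Q i, ∀ y ∈ M.Q i, ∀ l,
      |h1.toFun x l - h1.toFun y l| ≤ G.p s.1 / 4) (β b : Bool) :
    ((H.hookIn s).boxK hΩ).Near (!β) {y | y ∈ HB G c d s.1 ∧ Col G s.1 1 β b y} := by
  have hp := Geo.p_pos (G := G) s.1
  have hcp : c * G.p s.1 ≤ 1 * G.p s.1 := mul_le_mul_of_nonneg_right hc1 hp.le
  cases b
  · have h := H.near_lo hΩ R Z hht s (!β) hcell hosc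
      (t₂ := K.slo s.1 (tg s.1 (!!β)) + G.p s.1) (by linarith) le_rfl
    simp only [Bool.not_not] at h
    simpa only [Col, cond_false, one_mul] using h
  · have h := H.near_hi hΩ R Z hht s (!β) hcell hosc
      (t₂ := K.shi s.1 (tg s.1 (!!β)) - G.p s.1) (by linarith) le_rfl
    simp only [Bool.not_not] at h
    simpa only [Col, cond_true, one_mul] using h

end pos

/-- **the passive cells in the collars** -/
structure Psv (H : HkG M L (Subtype.val : D.S₀ → K.S) F T κ₀ κ₁ c d Zb h2 h3 h4 u) (s : D.S₀)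
    (h1 : ConHomeo Ω Λ) (i : M.ι) : Prop where
  loc : ∀ x ∈ Ω, h4.toFun x ∈ HB G c d s.1 →
    (x ∈ M.Q i ↔ κ₁ (κ₀ (h3.toFun x)) ∈ h2.toFun '' M.Q i)
  gc : ∀ x ∈ M.Q i, ∀ s ∈ D.S₀, h1.toFun x ∉ G.PB 1 s
  psv : i ∉ Zb s
  cross : ¬ h4.toFun '' M.Q i ⊆ interior (HB G c d s.1)

section conf

variable {H : HkG M L (Subtype.val : D.S₀ → K.S) F T κ₀ κ₁ c d Zb h2 h3 h4 u} {hΩ : IsOpen Ω}
  {r q : D.S₀ → ℝ} {h5 : ConHomeo Ω Λ}

/-- **[CONF]** the hook keeps the points of a passive cell on their side of every band which misses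
the old image of the cell -/
theorem HkGF.conf (O : HkGF H hΩ r q h5) (R : ROut3 G E D h1 h2 L.lv Fm)
    (Z : ROutZ G E D h1 h2 L.lv Fm) (hht : HtOk G D) (hc1 : c ≤ 1) {s : D.S₀}
    (r0 : 0 ≤ r s) (r1 : r s < 1)
    (hcell : ∀ i ∈ Zb s, h3.toFun '' M.Q i = Pre (κ₁ ∘ κ₀) Λ h2 (M.Q i))
    (hosc : ∀ i ∈ Zb s, ∀ x ∈ M.Q i, ∀ y ∈ M.Q i, ∀ l,
      |h1.toFun x l - h1.toFun y l| ≤ G.p s.1 / 4) {i : M.ι} (I : Psv H s h1 i) {x : V}
    (hx : x ∈ M.Q i) (hxb : h4.toFun x ∈ HB G c d s.1) (j : PI L s.1) :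
    ((∀ z ∈ M.Q i, h4.toFun z ∈ HB G c d s.1 → h4.toFun z (tg s.1 j.1) <
        pcen L s.1 j - pwid L (fun β => (F β).e s) s.1 j) →
      h5.toFun x (tg s.1 j.1) < pcen L s.1 j - r s * pwid L (fun β => (F β).e s) s.1 j) ∧
    ((∀ z ∈ M.Q i, h4.toFun z ∈ HB G c d s.1 →
        pcen L s.1 j + pwid L (fun β => (F β).e s) s.1 j < h4.toFun z (tg s.1 j.1)) →
      pcen L s.1 j + r s * pwid L (fun β => (F β).e s) s.1 j < h5.toFun x (tg s.1 j.1)) := by
  obtain ⟨g, ⟨L', O', hS⟩, e1, -⟩ := O.sw s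
  obtain ⟨C, hC1, hC2, hC3, hC4, z₀, hz₀, hz₀f⟩ := P073.H936.K3.BoxK.exists_compIn h4 (M.sub i)
    (M.poly i).cpt (convex_polyQ M i).isPreconnected (X := HB G c d s.1) isClosed_Icc I.cross hx hxb
  have hCU : C ⊆ (phook M L (Subtype.val : D.S₀ → K.S) F c d Zb s).U h4 := fun z hz =>
    (H.mem_U s (M.sub i (hC1 hz))).2 (hC4 z hz)
  have hCp : ∀ k, Disjoint C (interior (((H.hookIn s).boxK hΩ).K.C k)) := by
    intro k
    rw [show ((H.hookIn s).boxK hΩ).K.C k = M.Q k.1 from H.hookIn_C s k, Set.disjoint_left]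
    intro z hz
    exact not_interior_of_cell M (fun e => I.psv (by rw [e]; exact k.2)) (hC1 hz)
  have hw := (((H.hookIn s).boxK hΩ).H.ok j).pos
  have hw' : 0 < pwid L (fun β => (F β).e s) s.1 j := hw
  have key : (∀ z ∈ M.Q i, h4.toFun z ∈ HB G c d s.1 →
      pwid L (fun β => (F β).e s) s.1 j < |h4.toFun z (tg s.1 j.1) - pcen L s.1 j|) →
      Disjoint C (O'.B j) := by
    intro hfar
    rw [Set.disjoint_left]
    intro z hz
    obtain ⟨z', -, -, -, -, β, b, -, hcol⟩ := H.exists_pre1 R hht (M.sub i) I.loc I.gc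
      (hC1 hz) (hC4 z hz)
    exact (H.near_col hΩ R Z hht hc1 s hcell hosc β b).notMem_B_of r1 O' (hCU hz)
      (fun k hk => Set.disjoint_left.1 (hCp k) hz hk) ⟨hC4 z hz, hcol⟩
      fun _ => hfar z (hC1 hz) (hC4 z hz)
  have hz₀b : g.toFun z₀ = h4.toFun z₀ := hS.bd
    ((((H.hookIn s).boxK hΩ).mem_Bd (hCU hz₀)).2 hz₀f)
  have hrw : r s * pwid L (fun β => (F β).e s) s.1 j ≤ pwid L (fun β => (F β).e s) s.1 j := by
    nlinarith
  have hrw0 : 0 ≤ r s * pwid L (fun β => (F β).e s) s.1 j := mul_nonneg r0 hw'.le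
  constructor
  · intro h
    have hm := key fun z hz hzb => by
      have h1 := h z hz hzb
      have h2 := neg_le_abs (h4.toFun z (tg s.1 j.1) - pcen L s.1 j)
      linarith
    have h2 := (P073.H936.K3.BoxK.side_of (P073.H936.K3.BoxK.B_sub O' j) (hS.img j) hrw0 hCU hC2
      hm hz₀).1 (by
        rw [hz₀b]
        have := h z₀ (hC1 hz₀) (hC4 z₀ hz₀)
        show h4.toFun z₀ (tg s.1 j.1) ≤ pcen L s.1 j -
          r s * pwid L (fun β => (F β).e s) s.1 j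
        linarith) x hC3
    rw [e1 (hCU hC3)]
    exact h2
  · intro h
    have hm := key fun z hz hzb => by
      have h1 := h z hz hzb
      have h2 := le_abs_self (h4.toFun z (tg s.1 j.1) - pcen L s.1 j)
      linarith
    have h2 := (P073.H936.K3.BoxK.side_of (P073.H936.K3.BoxK.B_sub O' j) (hS.img j) hrw0 hCU hC2
      hm hz₀).2 (by
        rw [hz₀b]
        have := h z₀ (hC1 hz₀) (hC4 z₀ hz₀)
        show pcen L s.1 j + r s * pwid L (fun β => (F β).e s) s.1 j ≤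
          h4.toFun z₀ (tg s.1 j.1)
        linarith) x hC3
    rw [e1 (hCU hC3)]
    exact h2

end conf

end P073.H919
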