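import Vale.Agent.P073.H805.Conf
import Vale.Agent.P073.H237.Root
import Vale.Agent.P073.H79.Keep
import Vale.Agent.P073.H936.Fib2

/-!
# P073, block H805: [FIB2] (c') CONF and (d) KEEP for `SwitchedF`, no hypothesis left
-/

open Set Metric Topology Filter

namespace P073.H936.K3.BoxK

open P073 P073.H936 P073.H880 P073.H669 P073.H579

variable {ι : Type*} [Fintype ι] {E : Type} [NormedAddCommGroup E] [NormedSpace ℝ E]
  {side : ι → Bool} {ax : Bool → Fin 3} {lo hi : Fin 3 → ℝ} {c w : ι → ℝ} {U : Set E} {Q : Type}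
  {D : BoxK side ax lo hi c w U Q} {X : Bool} {T T₁ : Set (Fin 3 → ℝ)} {r q : ℝ}
  {g : ConHomeo U (Icc lo hi)} {L : LamData D.vf.swData} {O : SwOut D.vf.swData L r}

/-- (R2) -/
theorem Near.notMem_B (hN : D.Near X T) (h1 : r < 1) (O : SwOut D.vf.swData L r) {x : E}
    (hx : D.Nr T x) {j : ι} (hj : side j ≠ X) : x ∉ O.B j :=
  H79.Fib.not_mem_B h1 hN (fun _ hi _ hx hxN hr => hN.mem_root hi hx hxN hr) hx hj

/-- (R3') -/
theorem Near.mem_B (hN : D.Near X T) (h1 : r < 1) (O : SwOut D.vf.swData L r) {x : E}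
    (hx : D.Nr T x) {i : ι} (hi : x ∈ O.B i) :
    x ∈ L.PP r (Sum.inl i) ∧ O.b i x = D.vf.s i x :=
  H79.Fib.mem_root h1 hN (fun _ hi _ hx hxN hr => hN.mem_root hi hx hxN hr) hx hi

/-- the domains of the bands of the output -/
theorem B_sub (O : SwOut D.vf.swData L r) (j : ι) : O.B j ⊆ U := by
  intro x hx
  obtain ⟨m, -, h2 | ⟨d, -, h2⟩⟩ := (O.B_eq j x).1 hx
  · exact D.N_sub _ h2.1
  · exact D.N_sub _ (SwData.K_sub (D := D.vf.swData) d.1 true h2.1)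

/-- **(c') CONF, part 1** -/
theorem Near.miss (hN : D.Near X T) (h1 : r < 1) (O : SwOut D.vf.swData L r) (hT : T₁ ⊆ T)
    (hcell : ∀ q, (D.h.toFun '' D.K.C q ∩ T₁).Nonempty → D.h.toFun '' D.K.C q ⊆ T)
    {j : ι} (hC : side j = X → D.Clear j T₁) : ∀ x ∈ U, D.h.toFun x ∈ T₁ → x ∉ O.B j :=
  miss_of (B := O.B) (fun _ hx _ hj => hN.notMem_B h1 O hx hj)
    (fun _ hx _ _ hi => (hN.mem_B h1 O hx hi).1.1) hT hcell hC

/-- **(c') CONF, part 2** -/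
theorem SwitchedF.conf (S : D.SwitchedF r q g L O) (h0 : 0 ≤ r) (h1 : r < 1) (hN : D.Near X T)
    (hT : T₁ ⊆ T) (hcell : ∀ q, (D.h.toFun '' D.K.C q ∩ T₁).Nonempty → D.h.toFun '' D.K.C q ⊆ T)
    (hTc : IsPreconnected T₁) (hTb : (T₁ ∩ frontier (Icc lo hi)).Nonempty)
    {j : ι} (hC : side j = X → D.Clear j T₁) :
    ((∀ y ∈ T₁, y (ax (side j)) < c j - w j) → ∀ x ∈ U, D.h.toFun x ∈ T₁ →
      g.toFun x (ax (side j)) < c j - r * w j) ∧
    ((∀ y ∈ T₁, c j + w j < y (ax (side j))) → ∀ x ∈ U, D.h.toFun x ∈ T₁ →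
      c j + r * w j < g.toFun x (ax (side j))) :=
  conf_of h0 h1.le (D.H.ok j).pos.le S.bd (B_sub O j) (S.img j) hTc (hT.trans hN.sub) hTb
    (hN.miss h1 O hT hcell hC)

end P073.H936.K3.BoxK
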