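import Vale.Agent.P073.H805.PlateC
import Vale.Agent.P073.H579.OwnEdge
import Vale.Agent.P073.H84.Gen

/-!
# P073, H805: **[EDGE-IN]**, the crossing points of an edge with the levels

`exists_edgeIn`: if the arc `s` crosses the levels (`Crosses`) and no point is on two levels, then
the crossing points are the input `FaceIn` of `exists_ownEdge`.
-/

set_option linter.unusedSectionVars false

open Set Metric Topology Filter

namespace P073.H805

open P073 P073.TR P073.H579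

variable {E : Type*} [NormedAddCommGroup E] [NormedSpace ℝ E]

/-- two points near `τ₀` on the same side have the same sign -/
theorem same_side {φ : ℝ → ℝ} {τ₀ r : ℝ} (hr : ∀ v : ℝ, ‖v‖ ≤ r → τ₀ + v ∈ Icc (0:ℝ) 1 →
    ∀ t ∈ Icc (0:ℝ) 1, τ₀ + t • v ∈ Icc (0:ℝ) 1 ∧ φ (τ₀ + t • v) = φ τ₀ + t • (φ (τ₀ + v) - φ τ₀))
    {u w : ℝ} (hu : |u| ≤ r) (hw : |w| ≤ r) (hu' : τ₀ + u ∈ Icc (0:ℝ) 1)
    (hw' : τ₀ + w ∈ Icc (0:ℝ) 1) (huw : 0 < u * w) (h : φ τ₀ < φ (τ₀ + u)) :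
    φ τ₀ < φ (τ₀ + w) := by
  have hu0 : u ≠ 0 := left_ne_zero_of_mul huw.ne'
  have hw0 : w ≠ 0 := right_ne_zero_of_mul huw.ne'
  have hq : 0 < w / u := by
    rw [div_eq_mul_inv]
    have : w * u⁻¹ = (u * w) * (u⁻¹ * u⁻¹) := by field_simp
    rw [this]
    exact mul_pos huw (mul_self_pos.2 (inv_ne_zero hu0))
  rcases le_total (w / u) 1 with h1 | h1
  · have h2 := (hr u hu hu' (w / u) ⟨hq.le, h1⟩).2
    rw [smul_eq_mul, smul_eq_mul, div_mul_cancel₀ _ hu0] at h2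
    rw [h2]
    have := mul_pos hq (sub_pos.2 h)
    linarith
  · have hq' : 0 < u / w := by rw [← inv_div]; exact inv_pos.2 hq
    have h1' : u / w ≤ 1 := by rw [← inv_div]; exact inv_le_one_of_one_le₀ h1
    have h2 := (hr w hw hw' (u / w) ⟨hq'.le, h1'⟩).2
    rw [smul_eq_mul, smul_eq_mul, div_mul_cancel₀ _ hw0] at h2
    by_contra hcon
    rw [not_lt] at hcon
    have := mul_nonneg hq'.le (sub_nonneg.2 hcon)
    nlinarith

/-- **crossing on an interval** -/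
theorem cross_real {φ : ℝ → ℝ} {τ₀ : ℝ} (hτ : τ₀ ∈ Icc (0:ℝ) 1)
    (hk : ConicalWithinAt φ (Icc (0:ℝ) 1) τ₀) (hc : Crosses (Icc (0:ℝ) 1) φ τ₀) :
    τ₀ ∈ Ioo (0:ℝ) 1 ∧ ∃ ε : ℝ, (ε = 1 ∨ ε = -1) ∧ ∀ᶠ τ in 𝓝 τ₀, τ ∈ Icc (0:ℝ) 1 →
      (φ τ₀ < φ τ ↔ 0 < ε * (τ - τ₀)) ∧ (φ τ < φ τ₀ ↔ ε * (τ - τ₀) < 0) := by
  obtain ⟨r, hr0, hr⟩ := hk
  have hr' : ∀ v : ℝ, ‖v‖ ≤ r → τ₀ + v ∈ Icc (0:ℝ) 1 → ∀ t ∈ Icc (0:ℝ) 1,
      τ₀ + t • v ∈ Icc (0:ℝ) 1 ∧ (fun y => - φ y) (τ₀ + t • v) = (fun y => - φ y) τ₀ +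
        t • ((fun y => - φ y) (τ₀ + v) - (fun y => - φ y) τ₀) := by
    intro v hv hv' t ht
    obtain ⟨h1, h2⟩ := hr v hv hv' t ht
    refine ⟨h1, ?_⟩
    show - φ (τ₀ + t • v) = - φ τ₀ + t • (- φ (τ₀ + v) - - φ τ₀)
    rw [h2, smul_eq_mul, smul_eq_mul]; ring
  obtain ⟨τ1, hb1, hI1, h1⟩ := mem_closure_iff_nhds.1 hc.1 _ (closedBall_mem_nhds τ₀ hr0)
  obtain ⟨τ2, hb2, hI2, h2⟩ := mem_closure_iff_nhds.1 hc.2 _ (closedBall_mem_nhds τ₀ hr0)
  rw [mem_closedBall, Real.dist_eq] at hb1 hb2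
  have e : ∀ τ, τ₀ + (τ - τ₀) = τ := fun τ => by ring
  -- positive points are on the side of `τ1`
  have key1 : ∀ τ, |τ - τ₀| ≤ r → τ ∈ Icc (0:ℝ) 1 → 0 < (τ1 - τ₀) * (τ - τ₀) → φ τ₀ < φ τ := by
    intro τ hτr hτI hp
    have := same_side hr hb1 hτr (by rw [e]; exact hI1) (by rw [e]; exact hτI) hp
      (by rw [e]; exact h1)
    rwa [e] at this
  have key2 : ∀ τ, |τ - τ₀| ≤ r → τ ∈ Icc (0:ℝ) 1 → 0 < (τ2 - τ₀) * (τ - τ₀) → φ τ < φ τ₀ := by
    intro τ hτr hτI hp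
    have := same_side (φ := fun y => - φ y) hr' hb2 hτr (by rw [e]; exact hI2)
      (by rw [e]; exact hτI) hp (by rw [e]; exact neg_lt_neg h2)
    rw [e] at this
    exact neg_lt_neg_iff.1 this
  have n1 : τ1 ≠ τ₀ := by rintro rfl; exact lt_irrefl _ h1
  have n2 : τ2 ≠ τ₀ := by rintro rfl; exact lt_irrefl _ h2
  have hopp : ¬ 0 < (τ1 - τ₀) * (τ2 - τ₀) := fun hp => lt_asymm (key1 τ2 hb2 hI2 hp) h2
  -- conclusion
  have main : ∀ ε : ℝ, (ε = 1 ∨ ε = -1) → 0 < ε * (τ1 - τ₀) → ε * (τ2 - τ₀) < 0 →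
      ∀ᶠ τ in 𝓝 τ₀, τ ∈ Icc (0:ℝ) 1 →
      (φ τ₀ < φ τ ↔ 0 < ε * (τ - τ₀)) ∧ (φ τ < φ τ₀ ↔ ε * (τ - τ₀) < 0) := by
    intro ε hε hε1 hε2
    filter_upwards [closedBall_mem_nhds τ₀ hr0] with τ hτr hτI
    rw [mem_closedBall, Real.dist_eq] at hτr
    have hεε : ε * ε = 1 := by rcases hε with rfl | rfl <;> norm_num
    have p1 : 0 < ε * (τ - τ₀) → φ τ₀ < φ τ := by
      intro hp
      refine key1 τ hτr hτI ?_
      have := mul_pos hε1 hp
      have e2 : ε * (τ1 - τ₀) * (ε * (τ - τ₀)) = (ε * ε) * ((τ1 - τ₀) * (τ - τ₀)) := by ring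
      rwa [e2, hεε, one_mul] at this
    have p2 : ε * (τ - τ₀) < 0 → φ τ < φ τ₀ := by
      intro hp
      refine key2 τ hτr hτI ?_
      have := mul_pos_of_neg_of_neg hε2 hp
      have e2 : ε * (τ2 - τ₀) * (ε * (τ - τ₀)) = (ε * ε) * ((τ2 - τ₀) * (τ - τ₀)) := by ring
      rwa [e2, hεε, one_mul] at this
    have hε0 : ε ≠ 0 := by rcases hε with rfl | rfl <;> norm_num
    rcases lt_trichotomy (ε * (τ - τ₀)) 0 with h3 | h3 | h3
    · exact ⟨⟨fun h4 => absurd h4 (lt_asymm (p2 h3)), fun h4 => absurd h4 (lt_asymm h3)⟩,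
        ⟨fun _ => h3, p2⟩⟩
    · have h5 : τ = τ₀ := by
        rcases mul_eq_zero.1 h3 with h6 | h6
        · exact absurd h6 hε0
        · linarith
      rw [h5, sub_self, mul_zero]
      simp
    · exact ⟨⟨fun _ => h3, p1⟩, ⟨fun h4 => absurd h4 (lt_asymm (p1 h3)),
        fun h4 => absurd h4 (lt_asymm h3)⟩⟩
  rcases lt_or_gt_of_ne n1 with h3 | h3
  · have h4 : τ₀ < τ2 := by
      rcases lt_or_gt_of_ne n2 with h5 | h5
      · exact absurd (mul_pos_of_neg_of_neg (sub_neg.2 h3) (sub_neg.2 h5)) hopp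
      · exact h5
    refine ⟨⟨lt_of_le_of_lt hI1.1 h3, lt_of_lt_of_le h4 hI2.2⟩, -1, Or.inr rfl,
      main (-1) (Or.inr rfl) (by linarith) (by linarith)⟩
  · have h4 : τ2 < τ₀ := by
      rcases lt_or_gt_of_ne n2 with h5 | h5
      · exact h5
      · exact absurd (mul_pos (sub_pos.2 h3) (sub_pos.2 h5)) hopp
    refine ⟨⟨lt_of_le_of_lt hI2.1 h4, lt_of_lt_of_le h3 hI1.2⟩, 1, Or.inl rfl,
      main 1 (Or.inl rfl) (by linarith) (by linarith)⟩

section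

variable {s : Set E} (sc : ConHomeo (Icc (0:ℝ) 1) s)

/-- crossing in the parameter interval -/
theorem Crosses.param {w : E → ℝ} {x : E} (hx : x ∈ s) (h : Crosses s w x) :
    Crosses (Icc (0:ℝ) 1) (fun τ => w (sc.toFun τ)) (sc.invFun x) := by
  have key : ∀ p : E → Prop, x ∈ closure {y | y ∈ s ∧ p y} →
      sc.invFun x ∈ closure {τ | τ ∈ Icc (0:ℝ) 1 ∧ p (sc.toFun τ)} := by
    intro p hp
    rw [mem_closure_iff_nhds] at hp ⊢
    intro U hU
    have h1 := (sc.cont_inv x hx) hU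
    rw [Filter.mem_map, mem_nhdsWithin_iff_exists_mem_nhds_inter] at h1
    obtain ⟨O, hO, hOU⟩ := h1
    obtain ⟨y, hyO, hys, hyp⟩ := hp O hO
    refine ⟨sc.invFun y, hOU ⟨hyO, hys⟩, sc.mapsTo_inv hys, ?_⟩
    rw [sc.right_inv hys]; exact hyp
  constructor
  · have := key (fun y => w x < w y) h.1
    simpa only [sc.right_inv hx] using this
  · have := key (fun y => w y < w x) h.2
    simpa only [sc.right_inv hx] using this

/-- the local form of a crossing point on an arc -/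
theorem Crosses.local {w : E → ℝ} (hw : ConicalOn w s) {x : E} (hx : x ∈ s)
    (h : Crosses s w x) : sc.invFun x ∈ Ioo (0:ℝ) 1 ∧ ∃ ε : ℝ, (ε = 1 ∨ ε = -1) ∧
      ∀ᶠ y in 𝓝 x, y ∈ s → (w x < w y ↔ 0 < ε * (sc.invFun y - sc.invFun x)) ∧
        (w y < w x ↔ ε * (sc.invFun y - sc.invFun x) < 0) := by
  have hτ := sc.mapsTo_inv hx
  have hk : ConicalOn (fun τ => w (sc.toFun τ)) (Icc (0:ℝ) 1) :=
    hw.comp sc.conical sc.mapsTo sc.cont
  obtain ⟨h1, ε, hε, h2⟩ := cross_real hτ (hk _ hτ) (h.param sc hx)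
  refine ⟨h1, ε, hε, ?_⟩
  have h3 := (sc.cont_inv x hx).eventually h2
  rw [eventually_nhdsWithin_iff] at h3
  filter_upwards [h3] with y hy hys
  have h4 := hy hys (sc.mapsTo_inv hys)
  simp only [sc.right_inv hx, sc.right_inv hys] at h4
  exact h4

include sc in
/-- the crossing points are isolated -/
theorem finite_cross {w : E → ℝ} (hc : ContinuousOn w s) (hw : ConicalOn w s) {c : ℝ}
    (h : ∀ x ∈ s, w x = c → Crosses s w x) : {x | x ∈ s ∧ w x = c}.Finite := by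
  have hcomp : IsCompact s := sc.isCompact_right isCompact_Icc
  have hK : IsCompact {x | x ∈ s ∧ w x = c} := by
    have h1 : IsClosed (s ∩ w ⁻¹' {c}) :=
      hc.preimage_isClosed_of_isClosed hcomp.isClosed isClosed_singleton
    exact hcomp.of_isClosed_subset h1 inter_subset_left
  have key : ∀ x ∈ {x | x ∈ s ∧ w x = c}, ∃ O ∈ 𝓝 x, O ∩ {x | x ∈ s ∧ w x = c} ⊆ {x} := by
    rintro x ⟨hx, hxc⟩
    obtain ⟨-, ε, hε, h1⟩ := (h x hx hxc).local sc hw hx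
    refine ⟨_, h1, ?_⟩
    rintro y ⟨hy, hys, hyc⟩
    have h2 := hy hys
    rw [hxc, hyc] at h2
    have h3 : ε * (sc.invFun y - sc.invFun x) = 0 :=
      le_antisymm (not_lt.1 fun h4 => lt_irrefl _ (h2.1.2 h4))
        (not_lt.1 fun h4 => lt_irrefl _ (h2.2.2 h4))
    have hε0 : ε ≠ 0 := by rcases hε with rfl | rfl <;> norm_num
    rcases mul_eq_zero.1 h3 with h4 | h4
    · exact absurd h4 hε0
    · have h5 : sc.invFun y = sc.invFun x := by linarith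
      have h6 : sc.toFun (sc.invFun y) = sc.toFun (sc.invFun x) := by rw [h5]
      rw [sc.right_inv hys, sc.right_inv hx] at h6
      exact h6
  choose! O hO hO' using key
  obtain ⟨T, hT, hcov⟩ := hK.elim_nhds_subcover O fun x hx => hO x hx
  refine T.finite_toSet.subset fun x hx => ?_
  obtain ⟨z, hz, hxz⟩ := mem_iUnion₂.1 (hcov hx)
  have := hO' z (hT z hz) ⟨hxz, hx⟩
  rw [mem_singleton_iff] at this
  rw [this]; exact hz

/-- **[EDGE-IN]**: the crossing points of an arc with the levels -/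
theorem exists_edgeIn {m : ℕ} [NeZero m] {g : E → Fin m → ℝ} (hi : InjOn g s)
    (hc : ContinuousOn g s) (hk : ConicalOn g s) {L : Fin m → Finset ℝ}
    (off : ∀ x ∈ s, ∀ j j', g x j ∈ L j → g x j' ∈ L j' → j = j')
    (hx : ∀ x ∈ s, ∀ j, g x j ∈ L j → Crosses s (fun y => g y j) x) :
    {x | x ∈ s ∧ ∃ j, g x j ∈ L j}.Finite ∧
    ∃ (t : ℕ → ℝ) (cd : ℕ → Fin m) (lev ε : ℕ → ℝ),
      (∀ i < {x | x ∈ s ∧ ∃ j, g x j ∈ L j}.ncard, t i ∈ Ioo (0:ℝ) 1) ∧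
      (∀ i < {x | x ∈ s ∧ ∃ j, g x j ∈ L j}.ncard, ∀ i' < {x | x ∈ s ∧ ∃ j, g x j ∈ L j}.ncard,
        i < i' → t i < t i') ∧
      FaceIn ({x | x ∈ s ∧ ∃ j, g x j ∈ L j}.ncard) s g (fun j => (L j : Set ℝ))
        (fun i x => sc.invFun x - t i) cd lev ε := by
  classical
  have hcomp : IsCompact s := sc.isCompact_right isCompact_Icc
  have hcj : ∀ j, ContinuousOn (fun y => g y j) s := fun j =>
    (continuous_apply j).comp_continuousOn hc
  have hkj : ∀ j, ConicalOn (fun y => g y j) s := by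
    intro j x hx
    obtain ⟨r, hr, hr'⟩ := hk x hx
    refine ⟨r, hr, fun v hv hv' t ht => ?_⟩
    obtain ⟨h1, h2⟩ := hr' v hv hv' t ht
    refine ⟨h1, ?_⟩
    show g (x + t • v) j = _
    rw [h2]; rfl
  set P : Set E := {x | x ∈ s ∧ ∃ j, g x j ∈ L j} with hP
  have hfin : P.Finite := by
    have e : P ⊆ ⋃ j : Fin m, ⋃ c ∈ L j, {x | x ∈ s ∧ g x j = c} := by
      rintro x ⟨hxs, j, hj⟩
      exact mem_iUnion.2 ⟨j, mem_iUnion₂.2 ⟨g x j, hj, hxs, rfl⟩⟩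
    refine Set.Finite.subset ?_ e
    refine finite_iUnion fun j => (L j).finite_toSet.biUnion fun c hcL => ?_
    exact finite_cross sc (hcj j) (hkj j) fun x hxs hxc => hx x hxs j (by rw [hxc]; exact hcL)
  refine ⟨hfin, ?_⟩
  -- the parameters
  set T : Finset ℝ := (hfin.toFinset).image sc.invFun with hT
  have hinj : InjOn sc.invFun P := fun x hx y hy h => by
    have : sc.toFun (sc.invFun x) = sc.toFun (sc.invFun y) := by rw [h]
    rwa [sc.right_inv hx.1, sc.right_inv hy.1] at this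
  have hcard : T.card = P.ncard := by
    rw [hT, Finset.card_image_of_injOn (by simpa using hinj), ncard_eq_toFinset_card P hfin]
  have hmemT : ∀ τ, τ ∈ T ↔ ∃ x ∈ P, sc.invFun x = τ := by
    intro τ; simp [hT]
  let f := T.orderEmbOfFin hcard
  have hfmem : ∀ i, f i ∈ T := fun i => T.orderEmbOfFin_mem hcard i
  let t : ℕ → ℝ := fun i => if h : i < P.ncard then f ⟨i, h⟩ else 0
  have ht : ∀ i (h : i < P.ncard), t i = f ⟨i, h⟩ := fun i h => dif_pos h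
  -- the points
  have hpt : ∀ i, i < P.ncard → sc.toFun (t i) ∈ P ∧ t i ∈ Icc (0:ℝ) 1 := by
    intro i hi'
    obtain ⟨x, hxP, hxt⟩ := (hmemT _).1 (hfmem ⟨i, hi'⟩)
    rw [ht i hi', ← hxt, sc.right_inv hxP.1]
    exact ⟨hxP, sc.mapsTo_inv hxP.1⟩
  have hcd : ∀ i, ∃ j : Fin m, i < P.ncard → g (sc.toFun (t i)) j ∈ L j := by
    intro i
    by_cases hi' : i < P.ncard
    · obtain ⟨⟨-, j, hj⟩, -⟩ := hpt i hi'
      exact ⟨j, fun _ => hj⟩
    · exact ⟨0, fun h => absurd h hi'⟩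
  choose cd hcd using hcd
  have hep : ∀ i, ∃ ε : ℝ, i < P.ncard → t i ∈ Ioo (0:ℝ) 1 ∧ (ε = 1 ∨ ε = -1) ∧
      ∀ᶠ y in 𝓝 (sc.toFun (t i)), y ∈ s →
        (g (sc.toFun (t i)) (cd i) < g y (cd i) ↔ 0 < ε * (sc.invFun y - t i)) ∧
        (g y (cd i) < g (sc.toFun (t i)) (cd i) ↔ ε * (sc.invFun y - t i) < 0) := by
    intro i
    by_cases hi' : i < P.ncard
    · obtain ⟨⟨hxs, -⟩, hti⟩ := hpt i hi'
      obtain ⟨h1, ε, hε, h2⟩ := (hx _ hxs (cd i) (hcd i hi')).local sc (hkj (cd i)) hxs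
      rw [sc.left_inv hti] at h1 h2
      exact ⟨ε, fun _ => ⟨h1, hε, h2⟩⟩
    · exact ⟨1, fun h => absurd h hi'⟩
  choose ε hep using hep
  -- a point on an arc
  have hzero : ∀ i < P.ncard, ∀ x ∈ s, sc.invFun x - t i = 0 → x = sc.toFun (t i) := by
    intro i _ x hxs h0
    rw [← sub_eq_zero.1 h0, sc.right_inv hxs]
  have hmono : ∀ i < P.ncard, ∀ i' < P.ncard, i < i' → t i < t i' := by
    intro i h1 i' h2 hii
    rw [ht i h1, ht i' h2]
    exact f.strictMono hii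
  refine ⟨t, cd, fun i => g (sc.toFun (t i)) (cd i), ε, fun i h => (hep i h).1, hmono,
    hcomp, hi, hc, hk, fun i _ => sc.cont_inv.sub continuousOn_const, fun i h => (hep i h).2.1,
    fun i h => hcd i h, ?_, ?_, ?_, ?_⟩
  · -- cov
    intro x hxs j hj
    have hxT : sc.invFun x ∈ T := (hmemT _).2 ⟨x, ⟨hxs, j, hj⟩, rfl⟩
    have h1 : sc.invFun x ∈ Set.range f := by
      rw [Finset.range_orderEmbOfFin]; exact hxT
    obtain ⟨⟨i, hi'⟩, h2⟩ := h1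
    have h3 : t i = sc.invFun x := by rw [ht i hi']; exact h2
    refine ⟨i, hi', ?_, by rw [h3, sub_self]⟩
    have h4 := hcd i hi'
    rw [h3, sc.right_inv hxs] at h4
    exact off x hxs _ _ h4 hj
  · -- on
    intro i hi' x hxs h0
    rw [hzero i hi' x hxs h0]
  · -- uniq
    intro i h1 i' h2 _ x hxs h3 h4
    have h5 : t i = t i' := by linarith
    rcases lt_trichotomy i i' with h6 | h6 | h6
    · exact absurd h5 (hmono i h1 i' h2 h6).ne
    · exact h6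
    · exact absurd h5 (hmono i' h2 i h1 h6).ne'
  · -- side
    intro i hi' x hxs h0
    have h1 := hzero i hi' x hxs h0
    rw [h1]
    filter_upwards [(hep i hi').2.2] with y hy hys
    exact ⟨fun h2 => (hy hys).1.1 h2, fun h2 => (hy hys).2.1 h2⟩

end

end P073.H805
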