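import Vale.Agent.P073.H805.Xf

/-!
# P073, H805: the exchange of two sheets, regularity (R)

Input `ExIn`: functions `u v` with flow boxes at their zeros in the compact set `N`, a function
`fh` on `N` which is affine where it is `< c`, and `{0 ≤ u, 0 ≤ v, 0 ≤ fh} ∩ N` inside the
interior of `N`. Output: the exchange functions `exU` are regular at their zeros, for all generic
small parameters.
-/

set_option linter.unusedSectionVars false

open Set Metric Topology Filter

namespace P073.H805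

open P073 P073.TR

variable {E : Type*} [NormedAddCommGroup E] [NormedSpace ℝ E] {ι : Type*}

/-- input of the exchange -/
structure ExIn (W N : Set E) (F : ι → Set E) (u v fh : E → ℝ) (L : E →ₗ[ℝ] ℝ) (c₀ c : ℝ) :
    Prop where
  oW : IsOpen W
  cN : IsCompact N
  NW : N ⊆ W
  ucon : ConicalOn u W
  ucont : ContinuousOn u W
  vcon : ConicalOn v W
  vcont : ContinuousOn v W
  fcon : ConicalOn fh (interior N)
  fcont : ContinuousOn fh N
  cpos : 0 < c
  floc : ∀ x ∈ interior N, fh x < c → fh =ᶠ[𝓝 x] fun y => L y + c₀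
  hZ : ∀ x ∈ N, 0 ≤ u x → 0 ≤ v x → 0 ≤ fh x → x ∈ interior N
  hF : ∀ i, ∀ x ∈ W, LocConeAt (F i) x
  ru : ∀ x ∈ N, u x = 0 → Reg u F x
  rv : ∀ x ∈ N, v x = 0 → Reg v F x
  ruv : ∀ x ∈ N, u x = 0 → v x = 0 → Reg (fun y => (u y, v y)) F x

open Classical in
/-- the new function: the exchange function on `N`, the old one outside -/
noncomputable def exU (N : Set E) (η K ε M δ : ℝ) (u v f : E → ℝ) : E → ℝ := fun x =>
  if x ∈ N then xf η K ε M δ (u x) (v x) (f x) else u x

theorem exU_of_mem {N : Set E} {η K ε M δ : ℝ} {u v f : E → ℝ} {x : E} (hx : x ∈ N) :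
    exU N η K ε M δ u v f x = xf η K ε M δ (u x) (v x) (f x) := if_pos hx

theorem exU_of_notMem {N : Set E} {η K ε M δ : ℝ} {u v f : E → ℝ} {x : E} (hx : x ∉ N) :
    exU N η K ε M δ u v f x = u x := if_neg hx

/-- the set where something changes -/
def core (N : Set E) (u v f : E → ℝ) (θ : ℝ) : Set E := {x | x ∈ N ∧ -θ ≤ u x ∧ -θ ≤ v x ∧ -θ ≤ f x}

theorem core_swap (N : Set E) (u v f : E → ℝ) (θ : ℝ) : core N u v f θ = core N v u f θ := by
  ext x; simp only [core, mem_ofPred_eq]; tauto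

/-- good parameters -/
structure Pars (θ B η K ε M δ : ℝ) : Prop where
  η0 : 0 < η
  ηθ : η ≤ θ
  K0 : 0 < K
  M0 : 0 < M
  ε0 : 0 < ε
  δ0 : 0 < δ
  hK : ε + B / K ≤ θ
  hM : 2 * δ + B / M ≤ θ

theorem Pars.xf_eq {θ B η K ε M δ δ' a b c : ℝ} (h : Pars θ B η K ε M δ) (hδ' : δ' ≤ 2 * δ)
    (ha : a ≤ B) (hc : a < -θ ∨ b < -θ ∨ c < -θ) : xf η K ε M δ' a b c = a := by
  apply xf_eq_of
  rcases hc with h1 | h1 | h1
  · left; have := h.ηθ; linarith
  · right; left
    have h2 : b + ε ≤ -(B / K) := by have := h.hK; linarith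
    have h3 : K * (b + ε) ≤ K * -(B / K) := mul_le_mul_of_nonneg_left h2 h.K0.le
    have h4 : K * -(B / K) = -B := by have := h.K0.ne'; field_simp
    linarith
  · right; right
    have h2 : c + δ' ≤ -(B / M) := by have := h.hM; linarith
    have h3 : M * (c + δ') ≤ M * -(B / M) := mul_le_mul_of_nonneg_left h2 h.M0.le
    have h4 : M * -(B / M) = -B := by have := h.M0.ne'; field_simp
    linarith

theorem Pars.exU_eq {N : Set E} {u v f : E → ℝ} {θ B η K ε M δ δ' : ℝ} {x : E}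
    (h : Pars θ B η K ε M δ) (hδ' : δ' ≤ 2 * δ) (hB : ∀ x ∈ N, u x ≤ B)
    (hx : x ∉ core N u v f θ) : exU N η K ε M δ' u v f x = u x := by
  by_cases hN : x ∈ N
  · rw [exU_of_mem hN]
    apply h.xf_eq hδ' (hB x hN)
    by_contra hc
    push Not at hc
    exact hx ⟨hN, hc⟩
  · exact exU_of_notMem hN

section conical

variable {X : Set E} {u v f : E → ℝ} {η K ε M δ : ℝ}

theorem conicalWithinAt_neg_mul {x : E} (hv : ConicalWithinAt v X x) (K ε : ℝ) :
    ConicalWithinAt (fun y => -(K * (v y + ε))) X x := by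
  have h1 := (hv.const_smul K).neg
  obtain ⟨r, hr, H⟩ := h1
  refine ⟨r, hr, fun w hw hxw t ht => ?_⟩
  obtain ⟨a1, a2⟩ := H w hw hxw t ht
  refine ⟨a1, ?_⟩
  simp only [smul_eq_mul] at a2 ⊢
  linear_combination a2

theorem conicalOn_xf (hu : ConicalOn u X) (hv : ConicalOn v X) (hf : ConicalOn f X)
    (huc : ContinuousOn u X) (hvc : ContinuousOn v X) (hfc : ContinuousOn f X) :
    ConicalOn (fun y => xf η K ε M δ (u y) (v y) (f y)) X := by
  have h1 : ConicalOn (fun y => -(K * (v y + ε))) X := fun x hx =>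
    conicalWithinAt_neg_mul (hv x hx) K ε
  have h2 : ConicalOn (fun y => -(M * (f y + δ))) X := fun x hx =>
    conicalWithinAt_neg_mul (hf x hx) M δ
  have c1 : ContinuousOn (fun y => -(K * (v y + ε))) X :=
    (continuousOn_const.mul (hvc.add continuousOn_const)).neg
  have c2 : ContinuousOn (fun y => -(M * (f y + δ))) X :=
    (continuousOn_const.mul (hfc.add continuousOn_const)).neg
  exact hu.rmin ((conicalOn_const (-η) hu.conicalSet).rmax (h1.rmax h2 c1 c2) continuousOn_const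
    (c1.sup c2)) huc (continuousOn_const.sup (c1.sup c2))

theorem continuousOn_xf (huc : ContinuousOn u X) (hvc : ContinuousOn v X)
    (hfc : ContinuousOn f X) :
    ContinuousOn (fun y => xf η K ε M δ (u y) (v y) (f y)) X :=
  huc.inf (continuousOn_const.sup (((continuousOn_const.mul (hvc.add continuousOn_const)).neg).sup
    ((continuousOn_const.mul (hfc.add continuousOn_const)).neg)))

end conical

/-- the set `{u = 0}` is conical -/
theorem locConeAt_zero {u : E → ℝ} {x : E} (hu : ConicalAt u x) (huc : ContinuousAt u x) :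
    LocConeAt {y | u y = 0} x := by
  by_cases h0 : u x = 0
  · obtain ⟨r, hr, H⟩ := hu
    refine ⟨r, hr, fun v hv t ht => ?_⟩
    have := H v hv t ⟨ht.1.le, ht.2⟩
    simp only [mem_ofPred_eq]
    rw [this, h0]
    simp [ht.1.ne']
  · apply locConeAt_of_compl_mem_nhds
    filter_upwards [huc.eventually_ne h0] with y hy using hy

/-- countably many exceptions, two values at once -/
theorem exists_generic {D : Set ℝ} (hD : D.Countable) :
    {δ : ℝ | -δ ∈ D ∨ -(2 * δ) ∈ D}.Countable := by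
  have h1 : {δ : ℝ | -δ ∈ D}.Countable := by
    have : {δ : ℝ | -δ ∈ D} = (fun t : ℝ => -t) ⁻¹' D := rfl
    rw [this]
    exact hD.preimage neg_injective
  have h2 : {δ : ℝ | -(2 * δ) ∈ D}.Countable := by
    have : {δ : ℝ | -(2 * δ) ∈ D} = (fun t : ℝ => -(2 * t)) ⁻¹' D := rfl
    rw [this]
    exact hD.preimage (fun a b hab => by simpa using hab)
  exact h1.union h2

namespace ExIn

variable {W N : Set E} {F : ι → Set E} {u v fh : E → ℝ} {L : E →ₗ[ℝ] ℝ} {c₀ c : ℝ}

theorem swap (h : ExIn W N F u v fh L c₀ c) : ExIn W N F v u fh L c₀ c where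
  oW := h.oW
  cN := h.cN
  NW := h.NW
  ucon := h.vcon
  ucont := h.vcont
  vcon := h.ucon
  vcont := h.ucont
  fcon := h.fcon
  fcont := h.fcont
  cpos := h.cpos
  floc := h.floc
  hZ := fun x hx h1 h2 h3 => h.hZ x hx h2 h1 h3
  hF := h.hF
  ru := h.rv
  rv := h.ru
  ruv := fun x hx h1 h2 => (h.ruv x hx h2 h1).swap
    (h.ucont.continuousAt (h.oW.mem_nhds (h.NW hx)))
    (h.vcont.continuousAt (h.oW.mem_nhds (h.NW hx)))

theorem isCompact_core (h : ExIn W N F u v fh L c₀ c) (θ : ℝ) : IsCompact (core N u v fh θ) := by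
  have h1 : core N u v fh θ =
      N ∩ (fun x => (u x, v x, fh x)) ⁻¹' (Ici (-θ) ×ˢ Ici (-θ) ×ˢ Ici (-θ)) := by
    ext x; simp [core, mem_ofPred_eq]; tauto
  rw [h1]
  have hcont : ContinuousOn (fun x => (u x, v x, fh x)) N :=
    (h.ucont.mono h.NW).prodMk ((h.vcont.mono h.NW).prodMk h.fcont)
  exact h.cN.of_isClosed_subset (hcont.preimage_isClosed_of_isClosed h.cN.isClosed
    (isClosed_Ici.prod (isClosed_Ici.prod isClosed_Ici))) inter_subset_left

/-- near the core there is room -/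
theorem exists_theta (h : ExIn W N F u v fh L c₀ c) :
    ∃ θ > 0, θ < c ∧ core N u v fh θ ⊆ interior N := by
  have hc := h.cpos
  have hK : IsCompact (N \ interior N) := h.cN.diff isOpen_interior
  by_cases hne : (N \ interior N).Nonempty
  swap
  · refine ⟨c / 2, by linarith, by linarith, fun x hx => ?_⟩
    by_contra hx2
    exact hne ⟨x, hx.1, hx2⟩
  have hcont : ContinuousOn (fun x => min (u x) (min (v x) (fh x))) (N \ interior N) :=
    ((h.ucont.mono h.NW).inf ((h.vcont.mono h.NW).inf h.fcont)).mono sdiff_subset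
  obtain ⟨x₀, hx₀, hmax⟩ := hK.exists_isMaxOn hne hcont
  have hneg : min (u x₀) (min (v x₀) (fh x₀)) < 0 := by
    by_contra hc0
    push Not at hc0
    exact hx₀.2 (h.hZ x₀ hx₀.1 (hc0.trans (min_le_left _ _))
      (hc0.trans ((min_le_right _ _).trans (min_le_left _ _)))
      (hc0.trans ((min_le_right _ _).trans (min_le_right _ _))))
  set m := min (u x₀) (min (v x₀) (fh x₀)) with hm
  refine ⟨min (-m / 2) (c / 2), lt_min (by linarith) (by linarith),
    (min_le_right _ _).trans_lt (by linarith), fun x hx => ?_⟩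
  by_contra hx2
  have h1 : min (u x) (min (v x) (fh x)) ≤ m := hmax (⟨hx.1, hx2⟩ : x ∈ N \ interior N)
  have h2 : -(min (-m / 2) (c / 2)) ≤ min (u x) (min (v x) (fh x)) :=
    le_min hx.2.1 (le_min hx.2.2.1 hx.2.2.2)
  have h3 : min (-m / 2) (c / 2) ≤ -m / 2 := min_le_left _ _
  linarith

theorem exists_bound (h : ExIn W N F u v fh L c₀ c) :
    ∃ B > 0, ∀ x ∈ N, u x ≤ B ∧ v x ≤ B := by
  obtain ⟨B1, h1⟩ := h.cN.exists_bound_of_continuousOn (h.ucont.mono h.NW)
  obtain ⟨B2, h2⟩ := h.cN.exists_bound_of_continuousOn (h.vcont.mono h.NW)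
  refine ⟨max 1 (max B1 B2), lt_of_lt_of_le one_pos (le_max_left _ _), fun x hx => ⟨?_, ?_⟩⟩
  · exact ((le_abs_self _).trans (h1 x hx)).trans ((le_max_left _ _).trans (le_max_right _ _))
  · exact ((le_abs_self _).trans (h2 x hx)).trans ((le_max_right _ _).trans (le_max_right _ _))

/-- generic depths -/
theorem exists_depth [Finite ι] [FiniteDimensional ℝ E] (h : ExIn W N F u v fh L c₀ c) :
    ∃ D : Set ℝ, D.Countable ∧ ∀ x ∈ interior N, fh x < c → fh x ∉ D →
      Reg fh F x ∧ (u x = 0 → Reg (fun y => (u y, fh y)) F x) ∧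
      (v x = 0 → Reg (fun y => (v y, fh y)) F x) ∧
      (u x = 0 → v x = 0 → Reg (fun y => ((u y, v y), fh y)) F x) := by
  have hWN : interior N ⊆ W := interior_subset.trans h.NW
  have hO : IsOpen {x | x ∈ interior N ∧ fh x < c} := by
    rw [isOpen_iff_mem_nhds]
    rintro x ⟨hx, hxc⟩
    have h1 : ContinuousAt fh x := (h.fcont.mono interior_subset).continuousAt
      (isOpen_interior.mem_nhds hx)
    filter_upwards [isOpen_interior.mem_nhds hx, h1.eventually_lt_const hxc] with y h2 h3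
    exact ⟨h2, h3⟩
  set O := {x | x ∈ interior N ∧ fh x < c} with hOdef
  have hOW : O ⊆ W := fun x hx => hWN hx.1
  let F' : Fin 3 ⊕ ι → Set E := Sum.elim
    (fun k => if k = 0 then {y | u y = 0} else if k = 1 then {y | v y = 0} else
      {y | u y = 0} ∩ {y | v y = 0}) F
  have hu' : ∀ x ∈ O, LocConeAt {y | u y = 0} x := fun x hx =>
    locConeAt_zero (h.ucon.conicalAt h.oW (hOW hx))
      (h.ucont.continuousAt (h.oW.mem_nhds (hOW hx)))
  have hv' : ∀ x ∈ O, LocConeAt {y | v y = 0} x := fun x hx =>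
    locConeAt_zero (h.vcon.conicalAt h.oW (hOW hx))
      (h.vcont.continuousAt (h.oW.mem_nhds (hOW hx)))
  have hF' : ∀ j, ∀ x ∈ O, LocConeAt (F' j) x := by
    rintro (k | i) x hx
    · fin_cases k
      · exact hu' x hx
      · exact hv' x hx
      · exact (hu' x hx).inter (hv' x hx)
    · exact h.hF i x (hOW hx)
  have hlin : ConicalOn (fun y => L y + c₀) O :=
    (conicalOn_linear L hO.conicalSet).add (conicalOn_const c₀ hO.conicalSet)
  have hlinc : ContinuousOn (fun y => L y + c₀) O :=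
    (L.continuous_of_finiteDimensional.add continuous_const).continuousOn
  obtain ⟨D, hD, hreg⟩ := exists_flowBox_real hO hlin hlinc hF'
  refine ⟨D, hD, fun x hx hxc hxD => ?_⟩
  have hxO : x ∈ O := ⟨hx, hxc⟩
  have hcu : ContinuousAt u x := h.ucont.continuousAt (h.oW.mem_nhds (hOW hxO))
  have hcv : ContinuousAt v x := h.vcont.continuousAt (h.oW.mem_nhds (hOW hxO))
  have hloc := h.floc x hx hxc
  have hfx : fh x = L x + c₀ := hloc.self_of_nhds
  have hR : Reg (fun y => L y + c₀) F' x := hreg x hxO (by rw [← hfx]; exact hxD)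
  have hR0 : Reg fh F x := (hR.reindex (M' := F) fun k => ⟨Sum.inr k, rfl⟩).congr_fun hloc
  refine ⟨hR0, fun h0 => ?_, fun h0 => ?_, fun h0 h1 => ?_⟩
  · have := (h.ru x (interior_subset hx) h0).joint (M' := F') hcu hR
      (fun i => ⟨Sum.inr i, rfl⟩) ⟨Sum.inl 0, Eventually.of_forall fun y => by
        rw [h0]; exact Iff.rfl⟩
    refine this.congr_fun ?_
    filter_upwards [hloc] with y hy
    rw [hy]
  · have := (h.rv x (interior_subset hx) h0).joint (M' := F') hcv hR
      (fun i => ⟨Sum.inr i, rfl⟩) ⟨Sum.inl 1, Eventually.of_forall fun y => by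
        rw [h0]; exact Iff.rfl⟩
    refine this.congr_fun ?_
    filter_upwards [hloc] with y hy
    rw [hy]
  · have := (h.ruv x (interior_subset hx) h0 h1).joint (M' := F') (hcu.prodMk hcv) hR
      (fun i => ⟨Sum.inr i, rfl⟩) ⟨Sum.inl 2, Eventually.of_forall fun y => by
        rw [h0, h1, Prod.mk.injEq]; exact Iff.rfl⟩
    refine this.congr_fun ?_
    filter_upwards [hloc] with y hy
    rw [hy]

/-- **(R)**: after the choice of a generic depth `δ`, for all small `ε`, the exchange functions are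
regular at all their zeros in the core. -/
theorem exists_reg [Finite ι] [FiniteDimensional ℝ E] (h : ExIn W N F u v fh L c₀ c)
    {θ : ℝ} (hθ : 0 < θ) (hθc : θ < c) (hcore : core N u v fh θ ⊆ interior N) :
    ∃ D : Set ℝ, D.Countable ∧ ∃ ε₁ > 0, ∀ δ, 0 < δ → 2 * δ ≤ θ → δ ∉ D → ∃ ε₀ > 0, ∀ ε, 0 < ε →
      ε ≤ ε₀ → ε ≤ ε₁ → ∀ η K M, 0 < η → 0 < K → 0 < M → ∀ x ∈ core N u v fh θ,
        (xf η K ε M δ (u x) (v x) (fh x) = 0 →
          Reg (fun y => xf η K ε M δ (u y) (v y) (fh y)) F x) ∧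
        (xf η K ε M (2 * δ) (v x) (u x) (fh x) = 0 →
          Reg (fun y => xf η K ε M (2 * δ) (v y) (u y) (fh y)) F x) ∧
        (xf η K ε M δ (u x) (v x) (fh x) = 0 → xf η K ε M (2 * δ) (v x) (u x) (fh x) = 0 →
          Reg (fun y => (xf η K ε M δ (u y) (v y) (fh y),
            xf η K ε M (2 * δ) (v y) (u y) (fh y))) F x) := by
  have hC := h.isCompact_core θ
  set C := core N u v fh θ with hCdef
  have hCN : C ⊆ N := hcore.trans interior_subset
  have hCW : C ⊆ W := hCN.trans h.NW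
  have cu : ContinuousOn u C := h.ucont.mono hCW
  have cv : ContinuousOn v C := h.vcont.mono hCW
  have cf : ContinuousOn fh C := h.fcont.mono hCN
  have au : ∀ x ∈ C, ContinuousAt u x := fun x hx =>
    h.ucont.continuousAt (h.oW.mem_nhds (hCW hx))
  have av : ∀ x ∈ C, ContinuousAt v x := fun x hx =>
    h.vcont.continuousAt (h.oW.mem_nhds (hCW hx))
  have af : ∀ x ∈ C, ContinuousAt fh x := fun x hx =>
    (h.fcont.mono interior_subset).continuousAt (isOpen_interior.mem_nhds (hcore hx))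
  -- regularity near the zero sets
  obtain ⟨e1, he1, hu1⟩ := exists_reg_near (u := u) (M := F) hC (g := u) cu
    (fun x hx h0 => h.ru x (hCN hx) h0)
  obtain ⟨e2, he2, hv1⟩ := exists_reg_near (u := v) (M := F) hC (g := v) cv
    (fun x hx h0 => h.rv x (hCN hx) h0)
  obtain ⟨e3, he3, huv1⟩ := exists_reg_near (u := fun y => (u y, v y)) (M := F) hC
    (g := fun x => max |u x| |v x|) (cu.abs.sup cv.abs) (fun x hx h0 => by
      have h1 : |u x| ≤ 0 := h0 ▸ le_max_left _ _
      have h2 : |v x| ≤ 0 := h0 ▸ le_max_right _ _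
      exact h.ruv x (hCN hx) (abs_nonpos_iff.1 h1) (abs_nonpos_iff.1 h2))
  obtain ⟨D, hD, hdep⟩ := h.exists_depth
  refine ⟨_, exists_generic hD, min e1 (min e2 e3), lt_min he1 (lt_min he2 he3),
    fun δ hδ hδθ hδD => ?_⟩
  have hδD' : -δ ∉ D ∧ -(2 * δ) ∉ D := by
    simp only [mem_ofPred_eq, not_or] at hδD
    exact hδD
  have hc := h.cpos
  -- the two depth levels
  have key : ∀ d, 0 < d → -d ∉ D → ∃ e > 0, ∀ x ∈ C, fh x = -d →
      Reg fh F x ∧ (|u x| ≤ e → Reg (fun y => (u y, fh y)) F x) ∧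
      (|v x| ≤ e → Reg (fun y => (v y, fh y)) F x) ∧
      (|u x| ≤ e → |v x| ≤ e → Reg (fun y => ((u y, v y), fh y)) F x) := by
    intro d hd hdD
    have hCd : IsCompact {x | x ∈ C ∧ fh x = -d} := by
      have : {x | x ∈ C ∧ fh x = -d} = C ∩ fh ⁻¹' {-d} := by ext x; simp
      rw [this]
      exact hC.of_isClosed_subset (cf.preimage_isClosed_of_isClosed hC.isClosed
        isClosed_singleton) inter_subset_left
    have hsub : {x | x ∈ C ∧ fh x = -d} ⊆ C := fun x hx => hx.1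
    have hd' : ∀ x ∈ {x | x ∈ C ∧ fh x = -d}, _ := fun x hx =>
      hdep x (hcore hx.1) (by rw [hx.2]; linarith) (by rw [hx.2]; exact hdD)
    obtain ⟨d1, hd1, k1⟩ := exists_reg_near (u := fun y => (u y, fh y)) (M := F) hCd (g := u)
      (cu.mono hsub) (fun x hx h0 => (hd' x hx).2.1 h0)
    obtain ⟨d2, hd2, k2⟩ := exists_reg_near (u := fun y => (v y, fh y)) (M := F) hCd (g := v)
      (cv.mono hsub) (fun x hx h0 => (hd' x hx).2.2.1 h0)
    obtain ⟨d3, hd3, k3⟩ := exists_reg_near (u := fun y => ((u y, v y), fh y)) (M := F) hCd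
      (g := fun x => max |u x| |v x|) ((cu.abs.sup cv.abs).mono hsub) (fun x hx h0 => by
        have h1 : |u x| ≤ 0 := h0 ▸ le_max_left _ _
        have h2 : |v x| ≤ 0 := h0 ▸ le_max_right _ _
        exact (hd' x hx).2.2.2 (abs_nonpos_iff.1 h1) (abs_nonpos_iff.1 h2))
    refine ⟨min d1 (min d2 d3), lt_min hd1 (lt_min hd2 hd3), fun x hx hxd =>
      ⟨(hd' x ⟨hx, hxd⟩).1, fun hu => ?_, fun hv => ?_, fun hu hv => ?_⟩⟩
    · exact k1 x ⟨hx, hxd⟩ (hu.trans (min_le_left _ _))
    · exact k2 x ⟨hx, hxd⟩ (hv.trans ((min_le_right _ _).trans (min_le_left _ _)))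
    · refine k3 x ⟨hx, hxd⟩ ?_
      rw [abs_of_nonneg (le_max_of_le_left (abs_nonneg _))]
      exact max_le (hu.trans ((min_le_right _ _).trans (min_le_right _ _)))
        (hv.trans ((min_le_right _ _).trans (min_le_right _ _)))
  obtain ⟨e4, he4, kd⟩ := key δ hδ hδD'.1
  obtain ⟨e5, he5, kd2⟩ := key (2 * δ) (by linarith) hδD'.2
  refine ⟨min e4 e5, lt_min he4 he5, fun ε hε hε0 hε1 η K M hη hK hM x hx => ?_⟩
  have b1 : ε ≤ e1 := hε1.trans (min_le_left _ _)
  have b2 : ε ≤ e2 := hε1.trans ((min_le_right _ _).trans (min_le_left _ _))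
  have b3 : ε ≤ e3 := hε1.trans ((min_le_right _ _).trans (min_le_right _ _))
  have b4 : ε ≤ e4 := hε0.trans (min_le_left _ _)
  have b5 : ε ≤ e5 := hε0.trans (min_le_right _ _)
  have ab : ∀ {t e : ℝ}, t = -ε → ε ≤ e → |t| ≤ e := fun {t e} ht he => by
    rw [ht, abs_neg, abs_of_pos hε]; exact he
  have a0 : ∀ {t e : ℝ}, t = 0 → 0 < e → |t| ≤ e := fun {t e} ht he => by
    rw [ht, abs_zero]; exact he.le
  have huv : ∀ {s t : ℝ}, u x = s → v x = t → |s| ≤ e3 → |t| ≤ e3 →
      Reg (fun y => (u y, v y)) F x := fun {s t} hs ht h1 h2 => by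
    refine huv1 x hx ?_
    rw [abs_of_nonneg (le_max_of_le_left (abs_nonneg _)), hs, ht]
    exact max_le h1 h2
  refine ⟨fun h0 => ?_, fun h0 => ?_, fun h0 h0' => ?_⟩
  · exact reg_xf hη hK hM (au x hx) (av x hx) (af x hx) h0
      (fun h1 => hu1 x hx (a0 h1 he1)) (fun h2 => hv1 x hx (ab h2 b2))
      (fun h3 => (kd x hx h3).1)
      (fun h1 h2 => huv h1 h2 (a0 rfl he3) (ab rfl b3))
      (fun h1 h3 => (kd x hx h3).2.1 (a0 h1 he4))
      (fun h2 h3 => (kd x hx h3).2.2.1 (ab h2 b4))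
      (fun h1 h2 h3 => (kd x hx h3).2.2.2 (a0 h1 he4) (ab h2 b4))
  · exact reg_xf hη hK hM (av x hx) (au x hx) (af x hx) h0
      (fun h1 => hv1 x hx (a0 h1 he2)) (fun h2 => hu1 x hx (ab h2 b1))
      (fun h3 => (kd2 x hx h3).1)
      (fun h1 h2 => (huv h2 h1 (ab rfl b3) (a0 rfl he3)).swap (au x hx) (av x hx))
      (fun h1 h3 => (kd2 x hx h3).2.2.1 (a0 h1 he5))
      (fun h2 h3 => (kd2 x hx h3).2.1 (ab h2 b5))
      (fun h1 h2 h3 => ((kd2 x hx h3).2.2.2 (ab h2 b5) (a0 h1 he5)).swap₁₂ (au x hx) (av x hx)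
        (af x hx))
  · exact reg_xf_pair hη hK hM hε hδ (au x hx) (av x hx) (af x hx) h0 h0'
      (fun h1 h2 => huv h1 h2 (a0 rfl he3) (a0 rfl he3))
      (fun h1 h3 => (kd2 x hx h3).2.1 (a0 h1 he5))
      (fun h1 h2 h3 => (kd2 x hx h3).2.2.2 (a0 h1 he5) (a0 h2 he5))

end ExIn

end P073.H805
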