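import Vale.Agent.P073.H805.Exch

/-!
# P073, H805: the exchange of two sheets, the new pair of functions
-/

set_option linter.unusedSectionVars false

open Set Metric Topology Filter

namespace P073.H805

open P073 P073.TR

variable {E : Type*} [NormedAddCommGroup E] [NormedSpace ℝ E] {ι : Type*}

theorem Pars.exists {θ B δ ε η₁ : ℝ} (hθ : 0 < θ) (hB : 0 < B) (hδ : 0 < δ) (hδθ : 4 * δ ≤ θ)
    (hε : 0 < ε) (hεθ : 2 * ε ≤ θ) (hη₁ : 0 < η₁) :
    ∃ η K M, Pars θ B η K ε M δ ∧ η ≤ η₁ ∧ η ≤ M * δ := by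
  have hK : 0 < 2 * B / θ := by positivity
  have hb : B / (2 * B / θ) = θ / 2 := by field_simp
  refine ⟨min θ η₁, 2 * B / θ, max (2 * B / θ) (min θ η₁ / δ), ⟨lt_min hθ hη₁, min_le_left _ _, hK,
    lt_of_lt_of_le hK (le_max_left _ _), hε, hδ, ?_, ?_⟩, min_le_right _ _, ?_⟩
  · rw [hb]; linarith
  · have h1 : B / max (2 * B / θ) (min θ η₁ / δ) ≤ B / (2 * B / θ) :=
      div_le_div_of_nonneg_left hB.le hK (le_max_left _ _)
    rw [hb] at h1
    linarith
  · have h1 : min θ η₁ / δ ≤ max (2 * B / θ) (min θ η₁ / δ) := le_max_right _ _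
    rwa [div_le_iff₀ hδ] at h1

namespace ExIn

variable {W N : Set E} {F : ι → Set E} {u v fh : E → ℝ} {L : E →ₗ[ℝ] ℝ} {c₀ c : ℝ}

/-- outside the core nothing changes -/
theorem exU_eventually_eq (h : ExIn W N F u v fh L c₀ c) {θ B η K ε M δ δ' : ℝ}
    (hp : Pars θ B η K ε M δ) (hδ' : δ' ≤ 2 * δ) (hB : ∀ x ∈ N, u x ≤ B) {x : E}
    (hx : x ∉ core N u v fh θ) : exU N η K ε M δ' u v fh =ᶠ[𝓝 x] u := by
  filter_upwards [(h.isCompact_core θ).isClosed.isOpen_compl.mem_nhds hx] with y hy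
  exact hp.exU_eq hδ' hB hy

/-- in the core the new function is the exchange function -/
theorem exU_eventually_xf {θ η K ε M δ' : ℝ} (hcore : core N u v fh θ ⊆ interior N) {x : E}
    (hx : x ∈ core N u v fh θ) :
    exU N η K ε M δ' u v fh =ᶠ[𝓝 x] fun y => xf η K ε M δ' (u y) (v y) (fh y) := by
  filter_upwards [isOpen_interior.mem_nhds (hcore hx)] with y hy
  exact exU_of_mem (interior_subset hy)

theorem exU_conical (h : ExIn W N F u v fh L c₀ c) {θ B η K ε M δ δ' : ℝ}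
    (hp : Pars θ B η K ε M δ) (hδ' : δ' ≤ 2 * δ) (hB : ∀ x ∈ N, u x ≤ B)
    (hcore : core N u v fh θ ⊆ interior N) :
    ConicalOn (exU N η K ε M δ' u v fh) W ∧ ContinuousOn (exU N η K ε M δ' u v fh) W := by
  have hNW : interior N ⊆ W := interior_subset.trans h.NW
  have hcI : ConicalSet (interior N) := isOpen_interior.conicalSet
  have k1 : ConicalOn (fun y => xf η K ε M δ' (u y) (v y) (fh y)) (interior N) :=
    conicalOn_xf (h.ucon.mono hcI hNW) (h.vcon.mono hcI hNW) h.fcon (h.ucont.mono hNW)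
      (h.vcont.mono hNW) (h.fcont.mono interior_subset)
  have k2 : ContinuousOn (fun y => xf η K ε M δ' (u y) (v y) (fh y)) (interior N) :=
    continuousOn_xf (h.ucont.mono hNW) (h.vcont.mono hNW) (h.fcont.mono interior_subset)
  constructor
  · intro x hx
    by_cases hxc : x ∈ core N u v fh θ
    · have hxI := hcore hxc
      have he := exU_eventually_xf (η := η) (K := K) (ε := ε) (M := M) (δ' := δ') hcore hxc
      refine (k1 x hxI).congr_nhds ?_ (he.mono fun y hy _ => hy) he.self_of_nhds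
      filter_upwards [isOpen_interior.mem_nhds hxI] with y hy
      exact ⟨fun _ => hy, fun _ => hNW hy⟩
    · have he := h.exU_eventually_eq hp hδ' hB hxc
      exact (h.ucon x hx).congr_nhds (Eventually.of_forall fun _ => Iff.rfl)
        (he.mono fun y hy _ => hy) he.self_of_nhds
  · intro x hx
    apply ContinuousAt.continuousWithinAt
    by_cases hxc : x ∈ core N u v fh θ
    · exact (k2.continuousAt (isOpen_interior.mem_nhds (hcore hxc))).congr
        (exU_eventually_xf (η := η) (K := K) (ε := ε) (M := M) (δ' := δ') hcore hxc).symm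
    · exact (h.ucont.continuousAt (h.oW.mem_nhds hx)).congr
        (h.exU_eventually_eq hp hδ' hB hxc).symm

/-- **(R) for the new pair of functions, all levels.** `A`, `A'` are the levels of `u`, `v`
(the exchange takes place at the level `0` of both). -/
theorem exists_exchange [Finite ι] [FiniteDimensional ℝ E] (h : ExIn W N F u v fh L c₀ c) :
    ∃ θ > 0, θ < c ∧ core N u v fh θ ⊆ interior N ∧ ∃ B > 0, (∀ x ∈ N, u x ≤ B ∧ v x ≤ B) ∧
    ∃ D : Set ℝ, D.Countable ∧ ∃ ε₁ > 0, ∀ δ, 0 < δ → 4 * δ ≤ θ → δ ∉ D → ∃ ε₀ > 0, ∀ ε, 0 < ε →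
      ε ≤ ε₀ → ε ≤ ε₁ → ∀ η K M, Pars θ B η K ε M δ →
      ∀ u' v' : E → ℝ, u' = exU N η K ε M δ u v fh → v' = exU N η K ε M (2 * δ) v u fh →
      (ConicalOn u' W ∧ ContinuousOn u' W ∧ ConicalOn v' W ∧ ContinuousOn v' W) ∧
      (∀ x, x ∉ core N u v fh θ → u' =ᶠ[𝓝 x] u ∧ v' =ᶠ[𝓝 x] v) ∧
      (∀ x ∈ core N u v fh θ, (u' x = 0 → Reg u' F x) ∧ (v' x = 0 → Reg v' F x) ∧
        (u' x = 0 → v' x = 0 → Reg (fun y => (u' y, v' y)) F x)) ∧
      (∀ (V : Set E) (A A' : Set ℝ), (∀ x ∈ N, ∀ a ∈ A, (0 < a → u x < a) ∧ (a < 0 → a < u x)) →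
        (∀ x ∈ N, ∀ a ∈ A', (0 < a → v x < a) ∧ (a < 0 → a < v x)) →
        (∀ a ∈ A ∪ A', a < 0 → η < -a) →
        (∀ x ∈ V, u x ∈ A → Reg u F x) → (∀ x ∈ V, v x ∈ A' → Reg v F x) →
        (∀ x ∈ V, u x ∈ A → v x ∈ A' → Reg (fun y => (u y, v y)) F x) →
        (∀ x ∈ V, u' x ∈ A → Reg u' F x) ∧ (∀ x ∈ V, v' x ∈ A' → Reg v' F x) ∧
        (∀ x ∈ V, u' x ∈ A → v' x ∈ A' → Reg (fun y => (u' y, v' y)) F x)) := by
  obtain ⟨θ, hθ, hθc, hcore⟩ := h.exists_theta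
  obtain ⟨B, hB, hBN⟩ := h.exists_bound
  obtain ⟨D, hD, ε₁, hε₁, H⟩ := h.exists_reg hθ hθc hcore
  refine ⟨θ, hθ, hθc, hcore, B, hB, hBN, D, hD, ε₁, hε₁, fun δ hδ hδθ hδD => ?_⟩
  obtain ⟨ε₀, hε₀, H⟩ := H δ hδ (by linarith) hδD
  refine ⟨ε₀, hε₀, fun ε hε h0 h1 η K M hp u' v' hu' hv' => ?_⟩
  have H := H ε hε h0 h1 η K M hp.η0 hp.K0 hp.M0
  have hδ2 : δ ≤ 2 * δ := by linarith
  have hc2 : core N v u fh θ ⊆ interior N := by rw [← core_swap]; exact hcore
  obtain ⟨a1, a2⟩ := h.exU_conical hp hδ2 (fun x hx => (hBN x hx).1) hcore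
  obtain ⟨b1, b2⟩ := h.swap.exU_conical hp le_rfl (fun x hx => (hBN x hx).2) hc2
  have hout : ∀ x, x ∉ core N u v fh θ → u' =ᶠ[𝓝 x] u ∧ v' =ᶠ[𝓝 x] v := by
    intro x hx
    rw [hu', hv']
    exact ⟨h.exU_eventually_eq hp hδ2 (fun x hx => (hBN x hx).1) hx,
      h.swap.exU_eventually_eq hp le_rfl (fun x hx => (hBN x hx).2)
        (by rw [← core_swap]; exact hx)⟩
  have hin : ∀ x ∈ core N u v fh θ, (u' =ᶠ[𝓝 x] fun y => xf η K ε M δ (u y) (v y) (fh y)) ∧
      v' =ᶠ[𝓝 x] fun y => xf η K ε M (2 * δ) (v y) (u y) (fh y) := by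
    intro x hx
    rw [hu', hv']
    exact ⟨exU_eventually_xf hcore hx, exU_eventually_xf hc2 (by rw [← core_swap]; exact hx)⟩
  have hreg : ∀ x ∈ core N u v fh θ, (u' x = 0 → Reg u' F x) ∧ (v' x = 0 → Reg v' F x) ∧
        (u' x = 0 → v' x = 0 → Reg (fun y => (u' y, v' y)) F x) := by
    intro x hx
    obtain ⟨e1, e2⟩ := hin x hx
    obtain ⟨k1, k2, k3⟩ := H x hx
    have f1 : u' x = xf η K ε M δ (u x) (v x) (fh x) := e1.self_of_nhds
    have f2 : v' x = xf η K ε M (2 * δ) (v x) (u x) (fh x) := e2.self_of_nhds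
    refine ⟨fun h0 => ?_, fun h0 => ?_, fun h0 h0' => ?_⟩
    · exact (k1 (f1 ▸ h0)).congr_fun e1
    · exact (k2 (f2 ▸ h0)).congr_fun e2
    · refine (k3 (f1 ▸ h0) (f2 ▸ h0')).congr_fun ?_
      filter_upwards [e1, e2] with y c1 c2
      rw [c1, c2]
  refine ⟨⟨hu' ▸ a1, hu' ▸ a2, hv' ▸ b1, hv' ▸ b2⟩, hout, hreg, ?_⟩
  intro V A A' hA hA' hη hru hrv hruv
  have hcN : core N u v fh θ ⊆ N := hcore.trans interior_subset
  -- in the core only the level 0 can be attained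
  have hzu : ∀ x ∈ core N u v fh θ, u' x ∈ A → u' x = 0 := by
    intro x hx ha
    obtain ⟨h1, h2⟩ := hA x (hcN hx) _ ha
    have h3 : u' x ≤ u x := by rw [hu', exU_of_mem (hcN hx)]; exact xf_le
    have h4 : min (u x) (-η) ≤ u' x := by rw [hu', exU_of_mem (hcN hx)]; exact min_le_xf
    rcases lt_trichotomy (u' x) 0 with h5 | h5 | h5
    · have h6 := h2 h5
      have h7 := hη _ (Or.inl ha) h5
      rcases min_le_iff.1 h4 with h8 | h8 <;> linarith
    · exact h5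
    · have h6 := h1 h5; linarith
  have hzv : ∀ x ∈ core N u v fh θ, v' x ∈ A' → v' x = 0 := by
    intro x hx ha
    obtain ⟨h1, h2⟩ := hA' x (hcN hx) _ ha
    have h3 : v' x ≤ v x := by rw [hv', exU_of_mem (hcN hx)]; exact xf_le
    have h4 : min (v x) (-η) ≤ v' x := by rw [hv', exU_of_mem (hcN hx)]; exact min_le_xf
    rcases lt_trichotomy (v' x) 0 with h5 | h5 | h5
    · have h6 := h2 h5
      have h7 := hη _ (Or.inr ha) h5
      rcases min_le_iff.1 h4 with h8 | h8 <;> linarith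
    · exact h5
    · have h6 := h1 h5; linarith
  refine ⟨fun x hx hxa => ?_, fun x hx hxa => ?_, fun x hx hxa hxa' => ?_⟩
  · by_cases hxc : x ∈ core N u v fh θ
    · exact (hreg x hxc).1 (hzu x hxc hxa)
    · obtain ⟨e1, -⟩ := hout x hxc
      exact (hru x hx (by rw [← e1.self_of_nhds]; exact hxa)).congr_fun e1
  · by_cases hxc : x ∈ core N u v fh θ
    · exact (hreg x hxc).2.1 (hzv x hxc hxa)
    · obtain ⟨-, e2⟩ := hout x hxc
      exact (hrv x hx (by rw [← e2.self_of_nhds]; exact hxa)).congr_fun e2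
  · by_cases hxc : x ∈ core N u v fh θ
    · exact (hreg x hxc).2.2 (hzu x hxc hxa) (hzv x hxc hxa')
    · obtain ⟨e1, e2⟩ := hout x hxc
      refine (hruv x hx (by rw [← e1.self_of_nhds]; exact hxa)
        (by rw [← e2.self_of_nhds]; exact hxa')).congr_fun ?_
      filter_upwards [e1, e2] with y c1 c2
      rw [c1, c2]

end ExIn

end P073.H805
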