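import Vale.Agent.P073.H805.Inv3B
import Vale.Agent.P073.H236.GOut3

/-!
# P073, H805, **[INV]**, part 3: `TPre` from `T3OutG`

The slivers of `T3OutG` are a family on the boxes of `G₀`; `slX` extends it by `∅`.
-/

open Set Metric Topology Filter

namespace Vale.Agent.P073.H805

open _root_.P073 _root_.P073.Net _root_.P073.PA691 _root_.P073.H236 _root_.P073.H579
  _root_.P073.H345
open Vale.Agent.P073.St (V)
open Vale.Agent.P073.H471 Vale.Agent.P073.H267 Vale.Agent.P073.H267.Geo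
open Vale.Agent.P073.H73 (Mesh)
open Vale.Agent.P073.H193 (Edges)
open _root_.P073.H880.RP

variable {Ω Λ : Set V} {v : V} {K : BoxCx Λ v} {S : Rad K} {W : Wid K S} {B : Boxes W}
  {G : Geo B} {M : Mesh Ω} {E : Edges M} {D : Dat K M} {h h1 : ConHomeo Ω Λ}

open Classical in
/-- a family of slivers on `G₀`, extended by `∅` -/
noncomputable def slX {G₀ : Set (TBx K)} (sl : G₀ → Finset (ℝ × ℝ)) (b : TBx K) :
    Finset (ℝ × ℝ) := if hb : b ∈ G₀ then sl ⟨b, hb⟩ else ∅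

theorem slX_of {G₀ : Set (TBx K)} (sl : G₀ → Finset (ℝ × ℝ)) {b : TBx K} (hb : b ∈ G₀) :
    slX sl b = sl ⟨b, hb⟩ := dif_pos hb

theorem slX_not {G₀ : Set (TBx K)} (sl : G₀ → Finset (ℝ × ℝ)) {b : TBx K} (hb : b ∉ G₀) :
    slX sl b = ∅ := dif_neg hb

/-- **the facts on round T, from `T3OutG`** -/
theorem tpreG_of {ω : TBx K → ℝ} {m : ℝ} {Act₀ : Set M.κ} {O : M.κ → V} {La : E.ε → ℝ}
    {Lf : M.κ → E.ε → ℝ} {Lam1 : M.κ → ℝ} {sl : D.G₀ → Finset (ℝ × ℝ)}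
    (T : T3OutG G M E h h1 ω m D.G₀ Act₀ O La Lf Lam1 sl) : TPre G E D h1 (slX sl) where
  ends := fun b hb => by rw [slX_of sl hb]; exact T.ends ⟨b, hb⟩
  face := fun b hb k _ y hy hyb t ht hr =>
    T.vi _ (Or.inl ⟨k, rfl⟩) ⟨b, hb⟩ y hy hyb t ht (by rwa [slX_of sl hb] at hr)
  edge := fun b hb k _ e _ y hy hyb t ht hr =>
    T.vi _ (Or.inr (Or.inl ⟨e, rfl⟩)) ⟨b, hb⟩ y hy hyb t ht (by rwa [slX_of sl hb] at hr)
  vert := fun b hb k _ x hx _ hxb => by rw [slX_of sl hb]; exact T.vert x hx ⟨b, hb⟩ hxb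
  cell := fun b hb i _ _ y hy hyb t ht hr =>
    T.vi _ (Or.inr (Or.inr ⟨i, rfl⟩)) ⟨b, hb⟩ y hy hyb t ht (by rwa [slX_of sl hb] at hr)

/-- sums of the extended slivers -/
theorem slX_sum_le {G₀ : Set (TBx K)} {sl : G₀ → Finset (ℝ × ℝ)} {σ : TBx K → ℝ}
    (h0 : ∀ b, 0 ≤ σ b) (hs : ∀ b : G₀, ∑ p ∈ sl b, (p.2 - p.1) ≤ σ b.1) (b : TBx K) :
    ∑ p ∈ slX sl b, (p.2 - p.1) ≤ σ b := by
  by_cases hb : b ∈ G₀
  · rw [slX_of sl hb]; exact hs ⟨b, hb⟩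
  · rw [slX_not sl hb]; simpa using h0 b

theorem slX_le {G₀ : Set (TBx K)} {sl : G₀ → Finset (ℝ × ℝ)} (hs : ∀ b, ∀ p ∈ sl b, p.1 ≤ p.2)
    (b : TBx K) : ∀ p ∈ slX sl b, p.1 ≤ p.2 := by
  by_cases hb : b ∈ G₀
  · rw [slX_of sl hb]; exact hs ⟨b, hb⟩
  · rw [slX_not sl hb]; simp

end Vale.Agent.P073.H805
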