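import Vale.Agent.P073.H687.PL4D

/-!
# P073, block H805: **[MARKS]**, the marked points of the windows of the levels of ROUND P

`level_le_one`: the levels of two cells of the tiling with a common point differ by at most one.
`w_mid`: a vertex in the relative interior of a side of a square is the middle of the side.
`exists_marks`.
-/

open Set Metric Topology Filter

namespace Vale.Agent.P073.H805

open _root_.P073 _root_.P073.Net _root_.P073.PA691 _root_.P073.TM
open Vale.Agent.P073.St (V)
open Vale.Agent.P073.H471 Vale.Agent.P073.H267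
open Vale.Agent.P073.H669 (Rel)
open Vale.Agent.P073.H687 (Marks)
open _root_.P073.H345 (tg)

/-! ### levels of touching cells -/

theorem upper_lt {Λ : Set V} {ρ : V → ℝ} (hρ : SizeFn Λ ρ) {v : V} {m : ℕ} {z : Fin 3 → ℤ}
    (h : IsTile ρ v m z) {x : V} (hx : x ∈ dyc v m z) : ρ x < 4 / 2 ^ m := by
  cases m with
  | zero => linarith [hρ.le_one x, show (1:ℝ) < 4 / 2 ^ 0 by norm_num]
  | succ n =>
    have h1 := h.2 n (fun k => z k / 2) (Nat.lt_succ_self n) NC.parent_sub
    simp only [Adm, not_forall, not_le] at h1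
    obtain ⟨y, hy, hρy⟩ := h1
    have h2 := hρ.lip x y
    have h3 := NC.dist_le (NC.parent_sub hx) hy
    have h4 : (4:ℝ) / 2 ^ (n + 1) = 1 / 2 ^ n + 1 / 2 ^ n := by
      rw [pow_succ]
      have h2 : (2:ℝ) ^ n ≠ 0 := by positivity
      field_simp
      ring
    linarith

/-- the levels of two cells with a common point differ by at most one -/
theorem level_le_one {Λ : Set V} {ρ : V → ℝ} (hρ : SizeFn Λ ρ) {v x : V} {σ τ : Face}
    (hσ : IsCell ρ v σ) (hτ : IsCell ρ v τ) (hxσ : x ∈ σ.cl v) (hxτ : x ∈ τ.cl v) :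
    τ.m ≤ σ.m + 1 := by
  have h1 := (hσ.rho_bounds hρ hxσ).1
  obtain ⟨z, hz, hsub⟩ := hτ.exists_tile
  have h2 := upper_lt hρ hz (hsub hxτ)
  unfold Face.sd at h1
  by_contra hc
  push Not at hc
  obtain ⟨n, hn⟩ := Nat.exists_eq_add_of_le hc
  have h3 : (1:ℝ) ≤ 2 ^ n := one_le_pow₀ (by norm_num)
  have h4 : (2:ℝ) ^ τ.m = 2 ^ σ.m * 4 * 2 ^ n := by
    rw [hn, show σ.m + 1 + 1 + n = σ.m + 2 + n by ring, pow_add, pow_add]; norm_num
  have h5 : (0:ℝ) < 2 ^ σ.m := by positivity
  have h6 : (4:ℝ) / 2 ^ τ.m ≤ 1 / 2 ^ σ.m := by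
    rw [h4, div_le_div_iff₀ (by positivity) h5]
    nlinarith
  linarith

variable {Λ : Set V} {v : V} {K : BoxCx Λ v} {S₀ : Rad K} {Wd : Wid K S₀} {B : Boxes Wd}
  {ρ : V → ℝ}

/-- **a vertex in the relative interior of a side of a square is its middle** -/
theorem w_mid (hρ : SizeFn Λ ρ) (D : Cells ρ v K) {i : K.W} {s : K.S} (h : K.w i ∈ K.sq s)
    {l : Fin 3} (hl : l ≠ K.nrm s) (h1 : K.slo s l < K.w i l) (h2 : K.w i l < K.shi s l) :
    K.w i l = (K.slo s l + K.shi s l) / 2 := by
  have hσ := D.cellW i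
  have hτ := D.cellS s
  have hV := D.isV i
  have hn : (D.fS s).n l = false := by
    have h3 := D.isS s l
    cases h4 : (D.fS s).n l
    · rfl
    · exact absurd (h3.1 h4) hl
  have hmem : (D.fW i).lo v ∈ (D.fS s).cl v := by
    have : K.w i ∈ Icc (K.slo s) (K.shi s) := h
    rw [D.w_eq, D.slo_eq, D.shi_eq] at this
    exact this
  have hri : (D.fW i).lo v ∈ (D.fW i).ri v := by rw [Face.ri_of_V hV]; rfl
  have m1 := hσ.level_le hτ hri hmem
  have m2 := level_le_one hρ hτ hσ hmem (Face.lo_mem_cl v _)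
  rw [D.w_eq, D.slo_eq, Face.lo_apply, Face.lo_apply] at h1
  rw [D.w_eq, D.shi_eq, Face.lo_apply, Face.hi_of' hn] at h2
  rw [D.w_eq, D.slo_eq, D.shi_eq, Face.lo_apply, Face.lo_apply, Face.hi_of' hn]
  have p0 : (0:ℝ) < 2 ^ (D.fS s).m := by positivity
  have h1' : ((D.fS s).z l : ℝ) / 2 ^ (D.fS s).m < (D.fW i).z l / 2 ^ (D.fW i).m := by linarith
  have h2' : ((D.fW i).z l : ℝ) / 2 ^ (D.fW i).m < ((D.fS s).z l + 1) / 2 ^ (D.fS s).m := by
    linarith
  rcases Nat.lt_or_ge (D.fS s).m (D.fW i).m with h3 | h3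
  · have h4 : (D.fW i).m = (D.fS s).m + 1 := by omega
    rw [h4, pow_succ] at h1' h2' ⊢
    rw [div_lt_div_iff₀ p0 (by positivity)] at h1'
    rw [div_lt_div_iff₀ (by positivity) p0] at h2'
    have h5 : 2 * ((D.fS s).z l : ℝ) < (D.fW i).z l := by
      by_contra hcon
      push Not at hcon
      nlinarith
    have h6 : ((D.fW i).z l : ℝ) < 2 * (D.fS s).z l + 2 := by
      by_contra hcon
      push Not at hcon
      nlinarith
    have h7 : (D.fW i).z l = 2 * (D.fS s).z l + 1 := by
      have h8 : 2 * (D.fS s).z l < (D.fW i).z l := by exact_mod_cast h5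
      have h9 : (D.fW i).z l < 2 * (D.fS s).z l + 2 := by exact_mod_cast h6
      omega
    rw [h7]
    push_cast
    field_simp
    ring
  · exfalso
    have h4 : (D.fW i).m = (D.fS s).m := le_antisymm h3 m1
    rw [h4] at h1' h2'
    rw [div_lt_div_iff_of_pos_right p0] at h1' h2'
    have h8 : (D.fS s).z l < (D.fW i).z l := by exact_mod_cast h1'
    have h9 : (D.fW i).z l < (D.fS s).z l + 1 := by exact_mod_cast h2'
    omega

/-- the vertex of a `Hang` is in the square -/
theorem hang_mem' (H : Hang K) : K.w H.i ∈ K.sq H.s := by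
  have hcase : ∀ j, j = H.k ∨ j = K.nrm H.s ∨ j = H.l := by
    have h1 := H.k_n
    have h2 := H.l_n
    have h3 := H.k_l
    have key : ∀ a b c : Fin 3, a ≠ b → c ≠ b → a ≠ c → ∀ j, j = a ∨ j = b ∨ j = c := by decide
    exact key _ _ _ h1 h2 h3
  have hk := K.s_lt H.s H.k H.k_n
  have : ∀ j, K.slo H.s j ≤ K.w H.i j ∧ K.w H.i j ≤ K.shi H.s j := by
    intro j
    rcases hcase j with rfl | rfl | rfl
    · have h1 := H.side
      split_ifs at h1 <;> rw [h1] <;> constructor <;> linarith
    · rw [H.nrm]; exact ⟨le_rfl, (K.s_flat H.s).le⟩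
    · exact ⟨H.lo.le, H.hi.le⟩
  exact ⟨fun j => (this j).1, fun j => (this j).2⟩

/-- the third direction -/
theorem third_eq {a b k k' : Fin 3} (h1 : k ≠ a) (h2 : k ≠ b) (h3 : k' ≠ a) (h4 : k' ≠ b)
    (hab : a ≠ b) : k = k' := by
  revert a b k k'
  decide

/-- a `Hang` of the square `s` with direction `l` is determined by its side -/
theorem hang_eq (hρ : SizeFn Λ ρ) (D : Cells ρ v K) {H H' : Hang K} (hs : H.s = H'.s)
    (hl : H.l = H'.l) (hβ : H.β = H'.β) : H.i = H'.i := by
  have hk : H.k = H'.k := third_eq H.k_n H.k_l (by rw [hs]; exact H'.k_n)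
    (by rw [hl]; exact H'.k_l) H.l_n.symm
  apply K.w_inj
  funext j
  have hcase : ∀ j, j = H.k ∨ j = K.nrm H.s ∨ j = H.l := by
    have h1 := H.k_n
    have h2 := H.l_n
    have h3 := H.k_l
    have key : ∀ a b c : Fin 3, a ≠ b → c ≠ b → a ≠ c → ∀ j, j = a ∨ j = b ∨ j = c := by decide
    exact key _ _ _ h1 h2 h3
  rcases hcase j with rfl | rfl | rfl
  · rw [H.side, hk, H'.side, hβ, hs]
  · rw [H.nrm, hs, H'.nrm]
  · rw [w_mid hρ D (hang_mem' H) H.l_n H.lo H.hi, hl, hs,
      w_mid hρ D (hang_mem' H') H'.l_n H'.lo H'.hi]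

/-- the distance of a hanging vertex from the corners of the square -/
theorem hang_dist (G : Geo B) (H : Hang K) {R : K.S → ℝ}
    (hw : ∀ s i, K.w i ∈ K.sq s → 2 * R s ≤ G.be i) :
    K.slo H.s H.l + G.a H.s + R H.s + G.be H.i ≤ K.w H.i H.l ∧
      K.w H.i H.l + G.be H.i + R H.s + G.a H.s ≤ K.shi H.s H.l := by
  have hcase : ∀ j, j = H.k ∨ j = K.nrm H.s ∨ j = H.l := by
    have h1 := H.k_n
    have h2 := H.l_n
    have h3 := H.k_l
    have key : ∀ a b c : Fin 3, a ≠ b → c ≠ b → a ≠ c → ∀ j, j = a ∨ j = b ∨ j = c := by decide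
    exact key _ _ _ h1 h2 h3
  have hmem := hang_mem' H
  have key : ∀ t, (t = K.slo H.s H.l ∨ t = K.shi H.s H.l) →
      G.a H.s + R H.s + G.be H.i ≤ |K.w H.i H.l - t| := by
    intro t ht
    set x : V := Function.update (K.w H.i) H.l t with hx
    have xl : x H.l = t := by rw [hx, Function.update_self]
    have xo : ∀ j, j ≠ H.l → x j = K.w H.i j := fun j hj => by rw [hx, Function.update_of_ne hj]
    have htl : K.slo H.s H.l ≤ t ∧ t ≤ K.shi H.s H.l := by
      have := K.s_lt H.s H.l H.l_n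
      rcases ht with rfl | rfl <;> constructor <;> linarith
    have hxs : x ∈ K.sq H.s := by
      refine ⟨fun j => ?_, fun j => ?_⟩ <;> by_cases hj : j = H.l
      · subst hj; rw [xl]; exact htl.1
      · rw [xo j hj]; exact hmem.1 j
      · subst hj; rw [xl]; exact htl.2
      · rw [xo j hj]; exact hmem.2 j
    obtain ⟨e, j, he, hj, hjx⟩ := corner hxs fun k hk => by
      rcases hcase k with rfl | rfl | rfl
      · rw [xo _ H.k_l]
        have := H.side
        split_ifs at this
        · exact Or.inr this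
        · exact Or.inl this
      · exact absurd rfl hk
      · rw [xl]; exact ht
    have hne : H.i ≠ j := by
      intro h
      have h1 : K.w j H.l = t := by rw [hjx, xl]
      rw [← h] at h1
      have h2 := H.lo
      have h3 := H.hi
      rcases ht with h4 | h4 <;> linarith
    have h1 := vdist S₀ hne (l := H.l) fun k hk => by rw [hjx, xo k hk]
    have h2 : K.w j H.l = t := by rw [hjx, xl]
    rw [h2] at h1
    have hjs : K.w j ∈ K.sq H.s := by rw [hjx]; exact hxs
    have h3 := hw H.s j hjs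
    have h4 := G.be_wv j
    have h5 := Wd.wv_le j
    have h6 := G.be_wv H.i
    have h7 := Wd.wv_le H.i
    have h8 := G.a_u H.s
    have h9 := G.u_T H.s e he
    have h10 : 8 * B.T e ≤ Wd.wv j := by
      rcases hj with rfl | rfl
      · exact B.T_le_a e
      · exact B.T_le_b e
    have h11 := S₀.r_pos H.i
    have h12 := S₀.r_pos j
    linarith
  have k1 := key _ (Or.inl rfl)
  have k2 := key _ (Or.inr rfl)
  rw [abs_of_pos (by linarith [H.lo])] at k1
  rw [abs_of_neg (by linarith [H.hi])] at k2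
  constructor <;> linarith

/-- the side of an edge of a square -/
noncomputable def hangOf {e : K.G} {s : K.S} (he : K.edge e ⊆ K.sq s) {i : K.W}
    (hi : i = K.a e ∨ i = K.b e) (h1 : K.slo s (K.dir e) < K.w i (K.dir e))
    (h2 : K.w i (K.dir e) < K.shi s (K.dir e)) {k : Fin 3} (hk : k ≠ K.nrm s)
    (hkd : k ≠ K.dir e) : Hang K := by
  classical
  exact
  { i := i
    s := s
    k := k
    l := K.dir e
    β := decide (K.w (K.a e) k = K.shi s k)
    k_n := hk
    l_n := (nrm_ne_dir he).symm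
    k_l := hkd
    nrm := by
      have his : K.w i ∈ K.sq s := by
        rcases hi with rfl | rfl
        · exact he (TM.wa_mem K e)
        · exact he (TM.wb_mem K e)
      exact TM.nrm_eq his
    side := by
      have hie : K.w i ∈ K.edge e := by
        rcases hi with rfl | rfl
        · exact TM.wa_mem K e
        · exact TM.wb_mem K e
      rw [edge_coord hie hkd]
      rcases edge_side he hk hkd with h3 | h3
      · rw [if_neg]
        · exact h3
        · rw [decide_eq_true_eq]
          have := K.s_lt s k hk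
          intro h4
          linarith
      · rw [if_pos]
        · exact h3
        · rw [decide_eq_true_eq]; exact h3
    lo := h1
    hi := h2 }

/-- the set of the marked points -/
def markSet (G : Geo B) (s : K.S) (l : Fin 3) : Set ℝ :=
  {q | ∃ H : Hang K, H.s = s ∧ H.l = l ∧
    (q = K.w H.i H.l - G.be H.i ∨ q = K.w H.i H.l + G.be H.i)}

open Classical in
/-- the width of the mark on the side `β` -/
noncomputable def bmark (G : Geo B) (s : K.S) (l : Fin 3) (β : Bool) : ℝ :=
  if h : ∃ H : Hang K, H.s = s ∧ H.l = l ∧ H.β = β then G.be h.choose.i else 0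

open Classical in
theorem markSet_sub (hρ : SizeFn Λ ρ) (D : Cells ρ v K) (G : Geo B) (s : K.S) (l : Fin 3) :
    markSet G s l ⊆ (({(K.slo s l + K.shi s l) / 2 - bmark G s l true,
      (K.slo s l + K.shi s l) / 2 + bmark G s l true,
      (K.slo s l + K.shi s l) / 2 - bmark G s l false,
      (K.slo s l + K.shi s l) / 2 + bmark G s l false} : Finset ℝ) : Set ℝ) := by
  rintro q ⟨H, hs, hl, hq⟩
  have hm := w_mid hρ D (hang_mem' H) H.l_n H.lo H.hi
  have hex : ∃ H' : Hang K, H'.s = s ∧ H'.l = l ∧ H'.β = H.β := ⟨H, hs, hl, rfl⟩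
  have hb : bmark G s l H.β = G.be H.i := by
    unfold bmark
    rw [dif_pos hex]
    obtain ⟨h1, h2, h3⟩ := hex.choose_spec
    rw [hang_eq hρ D (h1.trans hs.symm) (h2.trans hl.symm) h3]
  rw [hm, ← hb, hs, hl] at hq
  simp only [Finset.coe_insert, Finset.coe_singleton, mem_insert_iff, mem_singleton_iff]
  cases hβ : H.β
  · rw [hβ] at hq
    rcases hq with h | h
    · exact Or.inr (Or.inr (Or.inl h))
    · exact Or.inr (Or.inr (Or.inr h))
  · rw [hβ] at hq
    rcases hq with h | h
    · exact Or.inl h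
    · exact Or.inr (Or.inl h)

open Classical in
/-- **[MARKS]** -/
theorem exists_marks (hρ : SizeFn Λ ρ) (D : Cells ρ v K) (G : Geo B) {J R : K.S → ℝ}
    (hJ0 : ∀ s, 0 ≤ J s) (hJR : ∀ s, J s ≤ R s)
    (hw : ∀ s i, K.w i ∈ K.sq s → 2 * R s ≤ G.be i)
    (hbe : ∀ s i i', K.w i ∈ K.sq s → K.w i' ∈ K.sq s →
      G.be i = G.be i' ∨ 2 * R s ≤ |G.be i - G.be i'|) : ∃ Q, Marks G J R Q := by
  have hfin : ∀ s β, (markSet G s (tg s β)).Finite := fun s β =>
    (Finset.finite_toSet _).subset (markSet_sub hρ D G s (tg s β))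
  have hmem : ∀ s β q, q ∈ (hfin s β).toFinset ↔ q ∈ markSet G s (tg s β) := fun s β q =>
    (hfin s β).mem_toFinset
  refine ⟨fun s β => (hfin s β).toFinset, ⟨fun s β => ?_, fun s β q hq => ?_, fun s β q hq => ?_,
    fun s β q hq q' hq' hne => ?_, fun s β q hq => ?_, fun s β b hb t ht => ?_⟩⟩
  · have h1 := Finset.card_le_card (s := (hfin s β).toFinset) (t := {(K.slo s (tg s β) +
      K.shi s (tg s β)) / 2 - bmark G s (tg s β) true, (K.slo s (tg s β) + K.shi s (tg s β)) / 2 +
      bmark G s (tg s β) true, (K.slo s (tg s β) + K.shi s (tg s β)) / 2 - bmark G s (tg s β) false,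
      (K.slo s (tg s β) + K.shi s (tg s β)) / 2 + bmark G s (tg s β) false}) (by
        intro q hq
        exact Finset.mem_coe.1 (markSet_sub hρ D G s (tg s β) ((hmem s β q).1 hq)))
    exact h1.trans Finset.card_le_four
  · obtain ⟨H, hs, hl, h⟩ := (hmem s β q).1 hq
    obtain ⟨h1, h2⟩ := hang_dist G H hw
    have hb := G.be_pos H.i
    rw [hl, hs] at h1
    rw [hl] at h
    rcases h with h | h <;> rw [h] <;> linarith
  · obtain ⟨H, hs, hl, h⟩ := (hmem s β q).1 hq
    obtain ⟨h1, h2⟩ := hang_dist G H hw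
    have hb := G.be_pos H.i
    rw [hl, hs] at h2
    rw [hl] at h
    rcases h with h | h <;> rw [h] <;> linarith
  · obtain ⟨H, hs, hl, h⟩ := (hmem s β q).1 hq
    obtain ⟨H', hs', hl', h'⟩ := (hmem s β q').1 hq'
    have hm := w_mid hρ D (hang_mem' H) H.l_n H.lo H.hi
    have hm' := w_mid hρ D (hang_mem' H') H'.l_n H'.lo H'.hi
    rw [hm, hl, hs] at h
    rw [hm', hl', hs'] at h'
    have k1 := hw s H.i (hs ▸ hang_mem' H)
    have k2 := hw s H'.i (hs' ▸ hang_mem' H')
    have k3 := hbe s H.i H'.i (hs ▸ hang_mem' H) (hs' ▸ hang_mem' H')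
    have hR : 0 ≤ R s := (hJ0 s).trans (hJR s)
    rcases h with h | h <;> rcases h' with h' | h' <;> rw [h, h'] at hne ⊢
    · rcases k3 with k3 | k3
      · exact absurd (by rw [k3]) hne
      · rw [show (K.slo s (tg s β) + K.shi s (tg s β)) / 2 - G.be H.i -
          ((K.slo s (tg s β) + K.shi s (tg s β)) / 2 - G.be H'.i) = -(G.be H.i - G.be H'.i) by
            ring, abs_neg]
        exact k3
    · rw [le_abs]; right; linarith
    · rw [le_abs]; left; linarith
    · rcases k3 with k3 | k3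
      · exact absurd (by rw [k3]) hne
      · rw [show (K.slo s (tg s β) + K.shi s (tg s β)) / 2 + G.be H.i -
          ((K.slo s (tg s β) + K.shi s (tg s β)) / 2 + G.be H'.i) = G.be H.i - G.be H'.i by
            ring]
        exact k3
  · exact (hmem s β q).1 hq
  · rcases b with e | H
    · obtain ⟨hes, hd⟩ := hb
      have hd' : (TBx.ax (.inl e : TBx K)) = K.dir e := rfl
      rw [hd'] at ht
      have e1 : G.tlo true (.inl e) (K.dir e) = K.w (K.a e) (K.dir e) + G.be (K.a e) := by
        show (if K.dir e = K.dir e then _ else _) = _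
        rw [if_pos rfl]
      have e2 : G.thi true (.inl e) (K.dir e) = K.w (K.b e) (K.dir e) - G.be (K.b e) := by
        show (if K.dir e = K.dir e then _ else _) = _
        rw [if_pos rfl]
      rw [e1, e2] at ht
      obtain ⟨k, hk, hkd⟩ : ∃ k, k ≠ K.nrm s ∧ k ≠ K.dir e := by
        have : ∀ a b : Fin 3, ∃ k, k ≠ a ∧ k ≠ b := by decide
        exact this _ _
      have hwa := hes (TM.wa_mem K e)
      have hwb := hes (TM.wb_mem K e)
      have hab := K.ab_dir e
      have hlo := hwa.1 (K.dir e)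
      have hhi := hwb.2 (K.dir e)
      have a1 := G.be_a s _ hwa
      have a2 := G.be_a s _ hwb
      have w1 := hw s _ hwa
      have w2 := hw s _ hwb
      have b1 := G.be_pos (K.a e)
      have b2 := G.be_pos (K.b e)
      have hJ := hJR s
      rw [hmem s β t, ← hd]
      rcases ht with ht | ht
      · rcases hlo.lt_or_eq with h1 | h1
        · refine Or.inr (Or.inr ?_)
          refine ⟨hangOf hes (Or.inl rfl) h1 (hab.trans_le hhi) hk hkd, rfl, rfl, Or.inr ?_⟩
          exact ht
        · left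
          rw [ht, ← h1]
          linarith
      · rcases hhi.lt_or_eq with h1 | h1
        · refine Or.inr (Or.inr ?_)
          refine ⟨hangOf hes (Or.inr rfl) (hlo.trans_lt hab) h1 hk hkd, rfl, rfl, Or.inl ?_⟩
          exact ht
        · right; left
          rw [ht, h1]
          linarith
    · obtain ⟨hs, hl⟩ := hb
      refine Or.inr (Or.inr ((hmem s β t).2 ⟨H, hs, hl, ?_⟩))
      have e1 : G.tlo true (.inr H) H.l = K.w H.i H.l - G.be H.i := by
        show (if H.l = H.l then _ else _) = _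
        rw [if_pos rfl]
      have e2 : G.thi true (.inr H) H.l = K.w H.i H.l + G.be H.i := by
        show (if H.l = H.l then _ else _) = _
        rw [if_pos rfl]
      rcases ht with ht | ht
      · left; rw [ht, ← e1]; rfl
      · right; rw [ht, ← e2]; rfl

end Vale.Agent.P073.H805
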