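import Vale.Agent.P073.H237.NearDef

/-!
# P073, block H805: `Near` at a side of the box
-/

open Set Metric Topology Filter

namespace P073.H936.K3.BoxK

open P073 P073.H936 P073.H880 P073.H669 P073.H579

variable {ι : Type*} {E : Type} [NormedAddCommGroup E] [NormedSpace ℝ E]
  {side : ι → Bool} {ax : Bool → Fin 3} {lo hi : Fin 3 → ℝ} {c w : ι → ℝ} {U : Set E} {Q : Type}
  {D : BoxK side ax lo hi c w U Q} {X : Bool}

/-- the part of the box where the coordinate of the other family is in `A` -/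
def slabT (ax : Bool → Fin 3) (lo hi : Fin 3 → ℝ) (X : Bool) (A : Set ℝ) : Set (Fin 3 → ℝ) :=
  {y | y ∈ Icc lo hi ∧ y (ax (!X)) ∈ A}

/-- **`Near` for a slab** `{y u ∈ A}`, `A` an interval which contains one of the ends -/
theorem near_slab {A : Set ℝ} (hA : A.OrdConnected)
    (hend : lo (ax (!X)) ∈ A ∨ hi (ax (!X)) ∈ A)
    (hfar : ∀ j, side j ≠ X → ∀ t ∈ A, w j < |t - c j|)
    (hcell : ∀ q, (∃ x ∈ D.K.C q, D.h.toFun x (ax (!X)) ∈ A) → ∀ j, side j ≠ X →
      ∀ x ∈ D.K.C q, w j < |D.h.toFun x (ax (!X)) - c j|) :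
    D.Near X (slabT ax lo hi X A) := by
  have hax : ax (!X) ≠ ax X := by
    have h2 := D.H.axne
    cases X
    · exact h2
    · exact h2.symm
  have hs : ∀ j, side j ≠ X → side j = !X := fun j hj => by
    cases X <;> cases h : side j <;> simp_all
  have hlh := D.H.lohi
  have hconv : Convex ℝ A := hA.convex
  refine ⟨fun y hy => hy.1, ?_, ?_, ?_, ?_, ?_⟩
  · intro i _
    have e : slabT ax lo hi X A ∩ {y | y (ax X) = c i} =
        Icc lo hi ∩ ((fun y : Fin 3 → ℝ => y (ax (!X))) ⁻¹' A) ∩ {y | y (ax X) = c i} := rfl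
    rw [e]
    refine Convex.isPreconnected (((convex_Icc lo hi).inter ?_).inter ?_)
    · exact hconv.is_linear_preimage
        (⟨fun _ _ => rfl, fun _ _ => rfl⟩ : IsLinearMap ℝ fun y : Fin 3 → ℝ => y (ax (!X)))
    · exact (convex_singleton (c i)).is_linear_preimage
        (⟨fun _ _ => rfl, fun _ _ => rfl⟩ : IsLinearMap ℝ fun y : Fin 3 → ℝ => y (ax X))
  · intro i hi'
    have hok := D.H.ok i
    have hp := hok.pos
    have h1 := hok.lo
    have h2 := hok.hi
    rw [hi'] at h1 h2
    have key : ∀ t, (t = lo (ax (!X)) ∨ t = hi (ax (!X))) → t ∈ A →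
        (slabT ax lo hi X A ∩ {y | y (ax X) = c i} ∩ frontier (Icc lo hi)).Nonempty := by
      intro t ht htA
      set y : Fin 3 → ℝ := Function.update (Function.update lo (ax X) (c i)) (ax (!X)) t with hy
      have y1 : y (ax (!X)) = t := by rw [hy, Function.update_self]
      have y2 : y (ax X) = c i := by
        rw [hy, Function.update_of_ne hax.symm, Function.update_self]
      have y3 : ∀ l, l ≠ ax X → l ≠ ax (!X) → y l = lo l := fun l h3 h4 => by
        rw [hy, Function.update_of_ne h4, Function.update_of_ne h3]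
      have ht' : lo (ax (!X)) ≤ t ∧ t ≤ hi (ax (!X)) := by
        rcases ht with rfl | rfl
        · exact ⟨le_rfl, (hlh _).le⟩
        · exact ⟨(hlh _).le, le_rfl⟩
      have hyI : y ∈ Icc lo hi := by
        refine ⟨fun l => ?_, fun l => ?_⟩ <;> by_cases hl : l = ax (!X)
        · rw [hl, y1]; exact ht'.1
        · by_cases hl' : l = ax X
          · rw [hl', y2]; linarith
          · rw [y3 l hl' hl]
        · rw [hl, y1]; exact ht'.2
        · by_cases hl' : l = ax X
          · rw [hl', y2]; linarith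
          · rw [y3 l hl' hl]; exact (hlh l).le
      refine ⟨y, ⟨⟨hyI, by rw [y1]; exact htA⟩, y2⟩, ?_⟩
      rw [frontier, isClosed_Icc.closure_eq]
      refine ⟨hyI, fun hint => ?_⟩
      have h5 : y ∈ interior (Icc lo hi) := hint
      rw [← pi_univ_Icc, interior_pi_set Set.finite_univ] at h5
      have h6 : y (ax (!X)) ∈ interior (Icc (lo (ax (!X))) (hi (ax (!X)))) := h5 _ (mem_univ _)
      rw [interior_Icc, y1] at h6
      rcases ht with rfl | rfl
      · exact absurd h6.1 (lt_irrefl _)
      · exact absurd h6.2 (lt_irrefl _)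
    rcases hend with h | h
    · exact key _ (Or.inl rfl) h
    · exact key _ (Or.inr rfl) h
  · intro y hy y' hy' hl
    refine ⟨hy', ?_⟩
    rw [hl _ hax]
    exact hy.2
  · intro j hj y hy
    rw [hs j hj]
    exact hfar j hj _ hy.2
  · intro q hq j hj x hx
    rw [hs j hj]
    obtain ⟨_, ⟨x', hx', rfl⟩, hT⟩ := hq
    exact hcell q ⟨x', hx', hT.2⟩ j hj x hx

end P073.H936.K3.BoxK
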