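import Vale.Agent.P073.H805.PlateC
import Vale.Agent.P073.H267.Geo3
import Vale.Agent.P073.H193.Edg

/-!
# P073, H805: **[P-IN]** (A14.20), the first half of round P: the plates of the tiling

`RIn`: the state of the mesh before the exchange (output of round T, levels in the plates).
`plc`: the plates (half plates at the squares with one protected side).
-/

set_option linter.unusedSectionVars false

open Set Metric Topology Filter

namespace Vale.Agent.P073.H805

open _root_.P073 _root_.P073.TR _root_.P073.H579 _root_.P073.PA691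
open _root_.P073.H805 (Plate HasPat Clean Reg PlateIn PlatesOut pFam SameLev Crosses hasPat_clean
  hasPat_inj exists_plates)
open Vale.Agent.P073.H238 (PFace meshFace mesh_sub)
open Vale.Agent.P073.H73 (Mesh)
open Vale.Agent.P073.St (V)
open Vale.Agent.P073.H471 (Rad Wid Boxes Near)
open Vale.Agent.P073.H267 (Geo)
open Vale.Agent.P073.H193 (Edges)

/-- the first tangential direction -/
def t1 (n : Fin 3) : Fin 3 := n + 1

/-- the second tangential direction -/
def t2 (n : Fin 3) : Fin 3 := n + 2

theorem t1_ne (n : Fin 3) : t1 n ≠ n := by revert n; decide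

theorem t2_ne (n : Fin 3) : t2 n ≠ n := by revert n; decide

theorem t1_ne_t2 (n : Fin 3) : t1 n ≠ t2 n := by revert n; decide

theorem t_cases {n k : Fin 3} (h : k ≠ n) : k = t1 n ∨ k = t2 n := by revert n k; decide

/-- the sets of the mesh: faces, cells, edges -/
def mFam {Ω : Set V} (M : Mesh Ω) (E : Edges M) : M.κ ⊕ (M.ι ⊕ E.ε) → Set V :=
  Sum.elim M.F (Sum.elim M.Q E.seg)

section mesh

variable {Ω : Set V} {M : Mesh Ω} {E : Edges M}

/-- a face which meets a cell in a relative interior point is contained in the cell -/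
theorem face_sub_of_mem {k : M.κ} {i : M.ι} {x : V} (hx : x ∈ intrinsicInterior ℝ (M.F k))
    (hi : x ∈ M.Q i) : M.F k ⊆ M.Q i := by
  have hxF := intrinsicInterior_subset hx
  have h1 : x ∈ frontier (M.Q i) := by
    rw [(Vale.Agent.P073.H244.cell_closed M i).frontier_eq]
    exact ⟨hi, Set.disjoint_left.1 (Vale.Agent.P073.H244.face_disjoint M k i) hxF⟩
  obtain ⟨l, hxl, hl⟩ := M.bd i x h1
  by_cases hkl : k = l
  · rw [hkl]; exact hl
  · exact absurd hxl (Set.disjoint_left.1 (M.fdisj k l hkl) hx)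

theorem relint_nonempty (k : M.κ) : (intrinsicInterior ℝ (M.F k)).Nonempty := by
  rw [(meshFace M k).intrinsicInterior_eq]
  exact (meshFace M k).int.image _

theorem isCompact_seg (a b : V) : IsCompact (segment ℝ a b) := by
  rw [segment_eq_image]
  exact isCompact_Icc.image (by fun_prop)

theorem mFam_closed (g : M.κ ⊕ (M.ι ⊕ E.ε)) : IsClosed (mFam M E g) := by
  rcases g with k | i | e
  · exact (meshFace M k).isCompact.isClosed
  · exact Vale.Agent.P073.H244.cell_closed M i
  · exact (isCompact_seg (E.a e) (E.b e)).isClosed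

theorem mFam_cone (g : M.κ ⊕ (M.ι ⊕ E.ε)) (x : V) : LocConeAt (mFam M E g) x := by
  rcases g with k | i | e
  · exact (Vale.Agent.P073.H244.conBall_face M k).locCone x
  · exact (Vale.Agent.P073.H244.conBall_cell M i).locCone x
  · exact _root_.P073.H339.locCone_segment (E.a e) (E.b e) x

theorem mFam_fin (hΩ : IsOpen Ω) (M : Mesh Ω) (E : Edges M) :
    ∀ x ∈ Ω, ∃ O ∈ 𝓝 x, {g | (mFam M E g ∩ O).Nonempty}.Finite := by
  intro x hx
  obtain ⟨r, hr, hb⟩ := Metric.nhds_basis_closedBall.mem_iff.1 (hΩ.mem_nhds hx)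
  refine ⟨closedBall x r, closedBall_mem_nhds x hr, ?_⟩
  have hc := isCompact_closedBall x r
  refine (((M.ffin _ hb hc).image Sum.inl).union
    ((((M.fin _ hb hc).image Sum.inl).union ((E.fin _ hb hc).image Sum.inr)).image
      Sum.inr)).subset ?_
  rintro (k | i | e) hg
  · exact Or.inl ⟨k, hg, rfl⟩
  · exact Or.inr ⟨Sum.inl i, Or.inl ⟨i, hg, rfl⟩, rfl⟩
  · exact Or.inr ⟨Sum.inr e, Or.inr ⟨e, hg, rfl⟩, rfl⟩

theorem mFam_face (M : Mesh Ω) (E : Edges M) (k : M.κ) : ∃ g, mFam M E g = M.F k :=
  ⟨Sum.inl k, rfl⟩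

theorem mFam_mesh (M : Mesh Ω) (E : Edges M) (k : M.κ) (g : M.κ ⊕ (M.ι ⊕ E.ε)) :
    M.F k ⊆ mFam M E g ∨ Disjoint (intrinsicInterior ℝ (M.F k)) (mFam M E g) := by
  rcases g with l | i | e
  · by_cases h : k = l
    · subst h; exact Or.inl Subset.rfl
    · exact Or.inr (M.fdisj k l h)
  · by_cases h : Disjoint (intrinsicInterior ℝ (M.F k)) (M.Q i)
    · exact Or.inr h
    · obtain ⟨x, hx, hxi⟩ := Set.not_disjoint_iff.1 h
      exact Or.inl (face_sub_of_mem hx hxi)
  · exact Or.inr (E.rel e k).symm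

end mesh

/-! ### the geometry of the tiling -/

variable {Λ : Set V} {v : V} {K : BoxCx Λ v} {S : Rad K} {W : Wid K S} {B : Boxes W}
  {G : Geo B}

theorem near_of_PB {c : ℝ} (hc : 1 / 2 ≤ c) {s : K.S} {y : V} (hy : y ∈ G.PB c s) :
    Near K s y :=
  Vale.Agent.P073.H471.near_self (Vale.Agent.P073.H471.Zs_subset (Geo.PB_subset hc s hy))

theorem isOpen_near (s : K.S) : IsOpen {z | Near K s z} := by
  have e : {z | Near K s z} = (⋂ k : Fin 3, {z : V | k ≠ K.nrm s → K.slo s k < z k ∧
      z k < K.shi s k}) ∩ {z : V | K.lo (K.sm s) (K.nrm s) < z (K.nrm s)} ∩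
      {z : V | z (K.nrm s) < K.hi (K.sp s) (K.nrm s)} := by
    ext z
    simp only [mem_ofPred_eq, mem_inter_iff, mem_iInter]
    exact ⟨fun h => ⟨⟨h.tan, h.lo⟩, h.hi⟩, fun h => ⟨h.1.1, h.1.2, h.2⟩⟩
  rw [e]
  refine ((isOpen_iInter_of_finite fun k => ?_).inter
    (isOpen_lt continuous_const (continuous_apply _))).inter
    (isOpen_lt (continuous_apply _) continuous_const)
  by_cases hk : k = K.nrm s
  · simp [hk]
  · simp only [ne_eq, hk, not_false_eq_true, forall_const]
    exact (isOpen_lt continuous_const (continuous_apply _)).inter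
      (isOpen_lt (continuous_apply _) continuous_const)

/-- the tile on the side `β` of the square -/
def side (K : BoxCx Λ v) (s : K.S) (β : Bool) : K.T := if β then K.sp s else K.sm s

/-- the side of the point -/
theorem mem_int_side {s : K.S} {y : V} (h : Near K s y) {β : Bool}
    (hβ : if β then K.slo s (K.nrm s) < y (K.nrm s) else y (K.nrm s) < K.slo s (K.nrm s)) :
    y ∈ interior (K.cube (side K s β)) := by
  have key : ∀ q : K.T, (∀ k, K.lo q k < y k ∧ y k < K.hi q k) → y ∈ interior (K.cube q) := by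
    intro q hq
    show y ∈ interior (Icc (K.lo q) (K.hi q))
    rw [TM.interior_Icc3]
    exact hq
  rcases h.cases with ⟨h1, h2⟩ | h1 | ⟨h1, h2⟩
  · cases β
    · exact key _ h2
    · simp only [if_true] at hβ; exact absurd h1 (not_lt.2 hβ.le)
  · exfalso
    have h3 : y (K.nrm s) = K.slo s (K.nrm s) := h1.1
    cases β
    · simp only [Bool.false_eq_true, if_false] at hβ; linarith
    · simp only [if_true] at hβ; linarith
  · cases β
    · simp only [Bool.false_eq_true, if_false] at hβ; exact absurd h1 (not_lt.2 hβ.le)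
    · exact key _ h2

end Vale.Agent.P073.H805
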