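import Vale.Agent.P073.H805.PInA

/-!
# P073, H805: **[P-IN]** (A14.20), the plates
-/

set_option linter.unusedSectionVars false

open Set Metric Topology Filter

namespace Vale.Agent.P073.H805

open _root_.P073 _root_.P073.TR _root_.P073.H579 _root_.P073.PA691
open _root_.P073.H805 (Plate HasPat Clean Reg PlateIn PlatesOut pFam SameLev Crosses hasPat_clean
  hasPat_inj exists_plates)
open Vale.Agent.P073.H238 (PFace meshFace mesh_sub)
open Vale.Agent.P073.H73 (Mesh)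
open Vale.Agent.P073.St (V)
open Vale.Agent.P073.H471 (Rad Wid Boxes Near)
open Vale.Agent.P073.H267 (Geo)
open Vale.Agent.P073.H193 (Edges)

variable {Ω Λ : Set V} {v : V} {K : BoxCx Λ v} {S : Rad K} {W : Wid K S} {B : Boxes W}
  {G : Geo B} {M : Mesh Ω} {h : ConHomeo Ω Λ} {Pr : Set M.ι} {Act : Set M.κ}
  {L : K.S → Fin 3 → Finset ℝ}

/-- the plate of a square -/
noncomputable def pl (G : Geo B) (L : K.S → Fin 3 → Finset ℝ) (s : K.S) : Plate where
  lo := G.plo 1 s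
  hi := G.phi 1 s
  i := t1 (K.nrm s)
  j := t2 (K.nrm s)
  a := L s (t1 (K.nrm s))
  b := L s (t2 (K.nrm s))
  s := G.p s / 4

/-- half a plate -/
noncomputable def plh (G : Geo B) (L : K.S → Fin 3 → Finset ℝ) (s : K.S) (β : Bool) : Plate where
  lo := G.plo' 1 s β
  hi := G.phi' 1 s β
  i := t1 (K.nrm s)
  j := t2 (K.nrm s)
  a := L s (t1 (K.nrm s))
  b := L s (t2 (K.nrm s))
  s := G.p s / 4

/-- the tile on the side `β` of the square is contained in the image of a protected cell -/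
def Inn (h : ConHomeo Ω Λ) (Pr : Set M.ι) (s : K.S) (β : Bool) : Prop :=
  ∃ i ∈ Pr, K.cube (side K s β) ⊆ h.toFun '' M.Q i

/-- indices of the plates -/
abbrev Gam (K : BoxCx Λ v) (h : ConHomeo Ω Λ) (Pr : Set M.ι) : Type :=
  {s : K.S // ¬ (Inn h Pr s true ∧ Inn h Pr s false)}

open Classical in
/-- the plates: half plates at the squares with one protected side -/
noncomputable def plc (G : Geo B) (L : K.S → Fin 3 → Finset ℝ) (h : ConHomeo Ω Λ)
    (Pr : Set M.ι) (c : Gam K h Pr) : Plate :=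
  if Inn h Pr c.1 true then plh G L c.1 false
  else if Inn h Pr c.1 false then plh G L c.1 true else pl G L c.1

theorem plc_cases (c : Gam K h Pr) :
    (plc G L h Pr c = pl G L c.1 ∧ ∀ β, ¬ Inn h Pr c.1 β) ∨
    ∃ β, plc G L h Pr c = plh G L c.1 β ∧ Inn h Pr c.1 (!β) ∧ ¬ Inn h Pr c.1 β := by
  classical
  by_cases h1 : Inn h Pr c.1 true
  · right
    have h2 : ¬ Inn h Pr c.1 false := fun h2 => c.2 ⟨h1, h2⟩
    exact ⟨false, by simp [plc, h1], h1, h2⟩
  · by_cases h2 : Inn h Pr c.1 false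
    · right
      exact ⟨true, by simp [plc, h1, h2], h2, h1⟩
    · left
      refine ⟨by simp [plc, h1, h2], ?_⟩
      rintro (_ | _)
      · exact h2
      · exact h1

/-- the box of a plate -/
theorem plc_box (c : Gam K h Pr) :
    Icc (plc G L h Pr c).lo (plc G L h Pr c).hi ⊆ G.PB 1 c.1 := by
  rcases plc_cases (G := G) (L := L) c with ⟨h1, -⟩ | ⟨β, h1, -⟩
  · rw [h1]; exact Subset.rfl
  · rw [h1]; exact Geo.PBh_subset

theorem plc_dir (c : Gam K h Pr) : (plc G L h Pr c).i = t1 (K.nrm c.1) ∧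
    (plc G L h Pr c).j = t2 (K.nrm c.1) ∧ (plc G L h Pr c).a = L c.1 (t1 (K.nrm c.1)) ∧
    (plc G L h Pr c).b = L c.1 (t2 (K.nrm c.1)) ∧ (plc G L h Pr c).s = G.p c.1 / 4 := by
  rcases plc_cases (G := G) (L := L) c with ⟨h1, -⟩ | ⟨β, h1, -⟩
  · rw [h1]; exact ⟨rfl, rfl, rfl, rfl, rfl⟩
  · rw [h1]; exact ⟨rfl, rfl, rfl, rfl, rfl⟩

/-- tangential corners -/
theorem plc_tan (c : Gam K h Pr) {k : Fin 3} (hk : k ≠ K.nrm c.1) :
    (plc G L h Pr c).lo k = K.slo c.1 k + G.p c.1 ∧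
      (plc G L h Pr c).hi k = K.shi c.1 k - G.p c.1 := by
  rcases plc_cases (G := G) (L := L) c with ⟨h1, -⟩ | ⟨β, h1, -⟩
  · rw [h1]
    show G.plo 1 c.1 k = _ ∧ G.phi 1 c.1 k = _
    simp [Geo.plo, Geo.phi, hk]
  · rw [h1]
    show G.plo' 1 c.1 β k = _ ∧ G.phi' 1 c.1 β k = _
    simp [Geo.plo', Geo.phi', hk]

theorem hasPat_plc (c : Gam K h Pr) {A : Set V} {g : V → V} :
    HasPat A g (plc G L h Pr c) ↔ HasPat A g (pl G L c.1) := by
  rcases plc_cases (G := G) (L := L) c with ⟨h1, -⟩ | ⟨β, h1, -⟩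
  · rw [h1]
  · rw [h1]; exact Iff.rfl

theorem clean_plc (c : Gam K h Pr) {A : Set V} {g : V → V} :
    Clean g (plc G L h Pr c) A ↔ Clean g (pl G L c.1) A := by
  rcases plc_cases (G := G) (L := L) c with ⟨h1, -⟩ | ⟨β, h1, -⟩
  · rw [h1]
  · rw [h1]; exact Iff.rfl

/-- **input of the first half of round P**: `Pr` protected cells, `Act` active faces, `L s l` the
levels in the plate of `s` in the direction `l` -/
structure RIn (G : Geo B) (M : Mesh Ω) (h : ConHomeo Ω Λ) (Pr : Set M.ι) (Act : Set M.κ)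
    (L : K.S → Fin 3 → Finset ℝ) (E : Edges M) : Prop where
  /-- the faces in a plate are near the square -/
  nrm : ∀ k ∈ Act, ∀ s, ∀ x ∈ M.F k, h.toFun x ∈ G.PB (3 / 4) s →
    |h.toFun x (K.nrm s) - K.slo s (K.nrm s)| ≤ B.τ s / 4
  osc : ∀ k ∈ Act, ∀ s, ∀ x ∈ M.F k, h.toFun x ∈ G.PB (1 / 2) s → ∀ y ∈ M.F k,
    ‖h.toFun x - h.toFun y‖ ≤ 4 * G.oS s
  tiles : ∀ i ∈ Pr, ∀ q, K.cube q ⊆ h.toFun '' M.Q i ∨
    Disjoint (interior (K.cube q)) (h.toFun '' M.Q i)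
  flat : ∀ i ∈ Pr, ∀ k, M.F k ⊆ M.Q i → ∀ s, ∀ x ∈ M.F k, h.toFun x ∈ G.PB 1 s →
    h.toFun '' M.F k ⊆ K.sq s
  win : ∀ s l, l ≠ K.nrm s → ∀ t ∈ L s l, K.slo s l + G.a s ≤ t ∧ t ≤ K.shi s l - G.a s
  /-- faces which are close to a side of a square have no circles -/
  noc : ∀ k ∈ Act, (∀ i ∈ Pr, ¬ M.F k ⊆ M.Q i) → ∀ s (j l : Fin 3) (β : Bool), j ≠ K.nrm s →
    l ≠ K.nrm s → j ≠ l → (∀ x ∈ M.F k, h.toFun x ∈ G.PB (3 / 4) s ∧
      (if β then K.shi s j - 3 / 2 * G.p s ≤ h.toFun x j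
        else h.toFun x j ≤ K.slo s j + 3 / 2 * G.p s)) →
    ∀ t ∈ L s l, ∀ σ : Set V, IsCircle σ → σ ⊆ M.F k → ¬ ∀ x ∈ σ, h.toFun x l = t
  reg1 : ∀ s l, l ≠ K.nrm s → ∀ x ∈ Ω, h.toFun x l ∈ L s l →
    Reg (fun y => h.toFun y l) (pFam h (mFam M E) (plc G L h Pr)) x
  reg2 : ∀ s, ∀ x ∈ Ω, h.toFun x (t1 (K.nrm s)) ∈ L s (t1 (K.nrm s)) →
    h.toFun x (t2 (K.nrm s)) ∈ L s (t2 (K.nrm s)) →
    Reg (fun y => (h.toFun y (t1 (K.nrm s)), h.toFun y (t2 (K.nrm s))))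
      (pFam h (mFam M E) (plc G L h Pr)) x

section

variable {E : Edges M}

theorem oS_pos (G : Geo B) (s : K.S) : 0 < G.oS s :=
  (G.om_pos (K.sm s)).trans_le (G.om_oS _ s (Or.inl rfl))

theorem oS_p (G : Geo B) (s : K.S) : 8000 * G.oS s ≤ G.p s := by
  have h1 := G.oS_τ s
  have h2 := G.τ_p s
  linarith

/-- the numbers of the plates -/
theorem plc_ok (H : RIn G M h Pr Act L E) (c : Gam K h Pr) : (plc G L h Pr c).Ok Λ := by
  obtain ⟨e1, e2, e3, e4, e5⟩ := plc_dir (G := G) (L := L) c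
  have hp := Geo.p_pos (G := G) c.1
  have hτ := B.τ_pos c.1
  have hpa := Geo.p_a (G := G) c.1
  have hau := G.a_u c.1
  have n1 := t1_ne (K.nrm c.1)
  have n2 := t2_ne (K.nrm c.1)
  refine ⟨fun l => ?_, (plc_box c).trans (Geo.PB_sub (by norm_num) c.1), ?_, ?_, ?_, ?_⟩
  · by_cases hl : l = K.nrm c.1
    · rcases plc_cases (G := G) (L := L) c with ⟨h1, -⟩ | ⟨β, h1, -⟩
      · rw [h1, hl]
        show G.plo 1 c.1 (K.nrm c.1) < G.phi 1 c.1 (K.nrm c.1)
        simp only [Geo.plo, Geo.phi, if_true]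
        linarith
      · rw [h1, hl]
        show G.plo' 1 c.1 β (K.nrm c.1) < G.phi' 1 c.1 β (K.nrm c.1)
        cases β <;> simp [Geo.plo', Geo.phi', hτ]
    · obtain ⟨h1, h2⟩ := plc_tan (G := G) (L := L) c hl
      rw [h1, h2]
      have := G.size hl
      linarith
  · rw [e1, e2]; exact t1_ne_t2 _
  · rw [e5]; linarith
  · intro k hk
    rw [e3] at hk
    have h1 := H.win c.1 _ n1 k hk
    rw [e1, e5, (plc_tan c n1).1, (plc_tan c n1).2]
    constructor <;> linarith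
  · intro k hk
    rw [e4] at hk
    have h1 := H.win c.1 _ n2 k hk
    rw [e2, e5, (plc_tan c n2).1, (plc_tan c n2).2]
    constructor <;> linarith

theorem plc_lf (G : Geo B) (L : K.S → Fin 3 → Finset ℝ) (h : ConHomeo Ω Λ) (Pr : Set M.ι) :
    ∀ y ∈ Λ, ∃ O ∈ 𝓝 y,
      {c : Gam K h Pr | (Icc (plc G L h Pr c).lo (plc G L h Pr c).hi ∩ O).Nonempty}.Finite := by
  intro y hy
  obtain ⟨O, hO, hf⟩ := Geo.lf_PB G (c := 1) (by norm_num) y hy
  refine ⟨O, hO, Set.Finite.of_finite_image (f := Subtype.val) (hf.subset ?_)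
    Subtype.val_injective.injOn⟩
  rintro _ ⟨c, ⟨z, hz, hzO⟩, rfl⟩
  exact ⟨z, plc_box c hz, hzO⟩

theorem plc_dis (c d : Gam K h Pr) (hcd : c ≠ d) :
    Disjoint (Icc (plc G L h Pr c).lo (plc G L h Pr c).hi)
      (Icc (plc G L h Pr d).lo (plc G L h Pr d).hi) :=
  (Geo.disjoint_PB (G := G) (c := 1) (by norm_num) fun h1 => hcd (Subtype.ext h1)).mono
    (plc_box c) (plc_box d)

/-! ### protected cells -/

theorem image_open (hΛ : IsOpen Λ) (h : ConHomeo Ω Λ) {O : Set V} (hO : IsOpen O) (hOΩ : O ⊆ Ω) :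
    IsOpen (h.toFun '' O) := by
  have e : h.toFun '' O = Λ ∩ h.invFun ⁻¹' O := by
    ext y
    constructor
    · rintro ⟨x, hx, rfl⟩
      refine ⟨h.mapsTo (hOΩ hx), ?_⟩
      show h.invFun (h.toFun x) ∈ O
      rw [h.left_inv (hOΩ hx)]; exact hx
    · rintro ⟨hy, hyO⟩
      exact ⟨_, hyO, h.right_inv hy⟩
  rw [e]
  exact h.cont_inv.isOpen_inter_preimage hΛ hO

theorem cell_closure (M : Mesh Ω) (i : M.ι) : closure (interior (M.Q i)) = M.Q i := by
  obtain ⟨n, ν, t, he⟩ := (M.poly i).half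
  have hc : Convex ℝ (M.Q i) := by
    rw [he]
    have : {x : V | ∀ i, ν i x ≤ t i} = ⋂ i, {x | ν i x ≤ t i} := by ext x; simp
    rw [this]
    exact convex_iInter fun i => convex_halfSpace_le (ν i).toLinearMap.isLinear (t i)
  rw [hc.closure_interior_eq_closure_of_nonempty_interior (M.poly i).int,
    (M.poly i).cpt.isClosed.closure_eq]

/-- a point of a protected cell near a square -/
theorem inn_of_tiles (hΩ : IsOpen Ω) (hΛ : IsOpen Λ) {i : M.ι}
    (ht : ∀ q, K.cube q ⊆ h.toFun '' M.Q i ∨ Disjoint (interior (K.cube q)) (h.toFun '' M.Q i))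
    {s : K.S} {x : V} (hx : x ∈ M.Q i) (hn : Near K s (h.toFun x)) :
    (∀ β, (if β then K.slo s (K.nrm s) < h.toFun x (K.nrm s)
      else h.toFun x (K.nrm s) < K.slo s (K.nrm s)) →
      K.cube (side K s β) ⊆ h.toFun '' M.Q i) ∧
    ∃ β, K.cube (side K s β) ⊆ h.toFun '' M.Q i := by
  have key : ∀ y ∈ h.toFun '' M.Q i, Near K s y → ∀ β,
      (if β then K.slo s (K.nrm s) < y (K.nrm s) else y (K.nrm s) < K.slo s (K.nrm s)) →
      K.cube (side K s β) ⊆ h.toFun '' M.Q i := by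
    intro y hy hny β hβ
    refine (ht _).resolve_right fun hd => ?_
    exact Set.disjoint_left.1 hd (mem_int_side hny hβ) hy
  refine ⟨key _ (mem_image_of_mem _ hx) hn, ?_⟩
  -- a point off the plane
  have hxc : x ∈ closure (interior (M.Q i)) := by rw [cell_closure]; exact hx
  have hxΩ := M.sub i hx
  have h1 : h.toFun ⁻¹' {z | Near K s z} ∈ 𝓝 x :=
    (h.cont.continuousAt (hΩ.mem_nhds hxΩ)) ((isOpen_near s).mem_nhds hn)
  obtain ⟨x', hx'N, hx'⟩ := mem_closure_iff_nhds.1 hxc _ h1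
  have hO : IsOpen (h.toFun '' interior (M.Q i)) :=
    image_open hΛ h isOpen_interior (interior_subset.trans (M.sub i))
  have hsub : h.toFun '' interior (M.Q i) ⊆ h.toFun '' M.Q i := image_mono interior_subset
  obtain ⟨z, hz, hzN, hzn⟩ : ∃ z ∈ h.toFun '' M.Q i, Near K s z ∧
      z (K.nrm s) ≠ K.slo s (K.nrm s) := by
    by_cases hne : h.toFun x' (K.nrm s) = K.slo s (K.nrm s)
    · have hc : Tendsto (fun ε : ℝ => Function.update (h.toFun x') (K.nrm s)
          (h.toFun x' (K.nrm s) + ε)) (𝓝[>] 0) (𝓝 (h.toFun x')) := by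
        have hcc : Continuous fun ε : ℝ => Function.update (h.toFun x') (K.nrm s)
          (h.toFun x' (K.nrm s) + ε) :=
          (continuous_const (y := h.toFun x')).update _ (continuous_const.add continuous_id)
        have h2 := hcc.tendsto 0
        rw [add_zero, Function.update_eq_self] at h2
        exact h2.mono_left nhdsWithin_le_nhds
      have h3 := hc.eventually (Filter.inter_mem (hO.mem_nhds (mem_image_of_mem _ hx'))
        ((isOpen_near s).mem_nhds hx'N))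
      obtain ⟨ε, ⟨h4, h5⟩, hε⟩ := (h3.and self_mem_nhdsWithin).exists
      refine ⟨_, hsub h4, h5, ?_⟩
      rw [Function.update_self, hne]
      have : (0:ℝ) < ε := hε
      linarith
    · exact ⟨_, hsub (mem_image_of_mem _ hx'), hx'N, hne⟩
  rcases lt_or_gt_of_ne hzn with h4 | h4
  · exact ⟨false, key z hz hzN false (by simpa using h4)⟩
  · exact ⟨true, key z hz hzN true (by simpa using h4)⟩

/-- a point of a protected cell in a plate -/
theorem RIn.inn_of_mem (H : RIn G M h Pr Act L E) (hΩ : IsOpen Ω) (hΛ : IsOpen Λ) {i : M.ι}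
    (hi : i ∈ Pr) {s : K.S} {x : V} (hx : x ∈ M.Q i) (hn : Near K s (h.toFun x)) :
    (∀ β, (if β then K.slo s (K.nrm s) < h.toFun x (K.nrm s)
      else h.toFun x (K.nrm s) < K.slo s (K.nrm s)) →
      K.cube (side K s β) ⊆ h.toFun '' M.Q i) ∧
    ∃ β, K.cube (side K s β) ⊆ h.toFun '' M.Q i :=
  inn_of_tiles hΩ hΛ (H.tiles i hi) hx hn

/-- **the open plates miss the protected cells** -/
theorem RIn.prot_off (H : RIn G M h Pr Act L E) (hΩ : IsOpen Ω) (hΛ : IsOpen Λ) {i : M.ι}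
    (hi : i ∈ Pr) {x : V} (hx : x ∈ M.Q i) (c : Gam K h Pr) :
    h.toFun x ∉ interior (Icc (plc G L h Pr c).lo (plc G L h Pr c).hi) := by
  intro hint
  have hy := plc_box c (interior_subset hint)
  have hn := near_of_PB (c := 1) (by norm_num) hy
  obtain ⟨h1, β', h2⟩ := H.inn_of_mem hΩ hΛ hi hx hn
  rcases plc_cases (G := G) (L := L) c with ⟨h3, h4⟩ | ⟨β, h3, -, h4⟩
  · exact h4 β' ⟨i, hi, h2⟩
  · refine h4 ⟨i, hi, h1 β ?_⟩
    rw [h3] at hint
    have h5 := Vale.Agent.P073.H267.Geo.interior_Icc_lt (lo := G.plo' 1 c.1 β)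
      (hi := G.phi' 1 c.1 β) hint (K.nrm c.1)
    cases β
    · simpa [Geo.plo', Geo.phi'] using h5.2
    · simpa [Geo.plo', Geo.phi'] using h5.1

end

end Vale.Agent.P073.H805
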