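import Vale.Agent.P073.H805.PInB

/-!
# P073, H805: **[P-IN]** (A14.20), faces in and near the plates
-/

set_option linter.unusedSectionVars false

open Set Metric Topology Filter

namespace Vale.Agent.P073.H805

open _root_.P073 _root_.P073.TR _root_.P073.H579 _root_.P073.PA691
open _root_.P073.H805 (Plate HasPat Clean Reg PlateIn PlatesOut pFam SameLev Crosses hasPat_clean
  hasPat_inj exists_plates)
open Vale.Agent.P073.H238 (PFace meshFace mesh_sub)
open Vale.Agent.P073.H73 (Mesh)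
open Vale.Agent.P073.St (V)
open Vale.Agent.P073.H471 (Rad Wid Boxes Near)
open Vale.Agent.P073.H267 (Geo)
open Vale.Agent.P073.H193 (Edges)

variable {Ω Λ : Set V} {v : V} {K : BoxCx Λ v} {S : Rad K} {W : Wid K S} {B : Boxes W}
  {G : Geo B} {M : Mesh Ω} {h : ConHomeo Ω Λ} {Pr : Set M.ι} {Act : Set M.κ}
  {L : K.S → Fin 3 → Finset ℝ} {E : Edges M}

/-- a point near an open square is in no other square -/
theorem near_sq {s s' : K.S} {y : V} (h : Near K s y) (hy : y ∈ K.sq s') : s = s' := by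
  by_contra hne
  have hsub := TM.sq_subset K s'
  have key : ∀ p, (∀ k, K.lo p k < y k ∧ y k < K.hi p k) → False := by
    intro p hp
    have h1 : K.sm s' = p := by
      by_contra h2; exact K.dis p _ (Ne.symm h2) y hp (hsub.1 hy)
    have h2 : K.sp s' = p := by
      by_contra h2; exact K.dis p _ (Ne.symm h2) y hp (hsub.2 hy)
    exact Vale.Agent.P073.H471.sm_ne_sp s' (h1.trans h2.symm)
  rcases h.cases with ⟨-, h1⟩ | h1 | ⟨-, h1⟩
  · exact key _ h1
  · exact K.sqo_disj s s' hne y h1.1 h1.2 hy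
  · exact key _ h1

theorem sq_sub_side (s : K.S) (β : Bool) : K.sq s ⊆ K.cube (side K s β) := by
  cases β
  · exact (TM.sq_subset K s).1
  · exact (TM.sq_subset K s).2

/-- unprotected faces -/
def Unp (M : Mesh Ω) (Pr : Set M.ι) (k : M.κ) : Prop := ∀ i ∈ Pr, ¬ M.F k ⊆ M.Q i

/-- the position relative to the square -/
def Pos (K : BoxCx Λ v) (s : K.S) (β : Bool) (y : V) : Prop :=
  if β then K.slo s (K.nrm s) ≤ y (K.nrm s) else y (K.nrm s) ≤ K.slo s (K.nrm s)

def PosS (K : BoxCx Λ v) (s : K.S) (β : Bool) (y : V) : Prop :=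
  if β then K.slo s (K.nrm s) < y (K.nrm s) else y (K.nrm s) < K.slo s (K.nrm s)

theorem posS_of {s : K.S} {β : Bool} {y : V} (h : Pos K s β y)
    (hne : y (K.nrm s) ≠ K.slo s (K.nrm s)) : PosS K s β y := by
  cases β
  · simp only [Pos, PosS, Bool.false_eq_true, if_false] at h ⊢
    exact lt_of_le_of_ne h hne
  · simp only [Pos, PosS, if_true] at h ⊢
    exact lt_of_le_of_ne h (Ne.symm hne)

theorem pos_of_not {s : K.S} {β : Bool} {y : V} (h : ¬ PosS K s (!β) y) : Pos K s β y := by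
  cases β
  · simp only [Pos, PosS, Bool.not_false, if_true, Bool.false_eq_true, if_false] at h ⊢
    exact not_lt.1 h
  · simp only [Pos, PosS, Bool.not_true, Bool.false_eq_true, if_false, if_true] at h ⊢
    exact not_lt.1 h

/-- points of faces are not in the interior of the image of a cell -/
theorem notMem_int (hΩ : IsOpen Ω) {k : M.κ} {i : M.ι} {x : V} (hx : x ∈ M.F k) {q : K.T}
    (hq : K.cube q ⊆ h.toFun '' M.Q i) : h.toFun x ∉ interior (K.cube q) := by
  intro hint
  have hxΩ := mesh_sub M k hx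
  have h1 : h.toFun ⁻¹' interior (K.cube q) ∈ 𝓝 x :=
    (h.cont.continuousAt (hΩ.mem_nhds hxΩ)) (isOpen_interior.mem_nhds hint)
  have h2 : x ∈ interior (M.Q i) := by
    rw [mem_interior_iff_mem_nhds]
    filter_upwards [h1, hΩ.mem_nhds hxΩ] with y hy hyΩ
    obtain ⟨z, hz, hzy⟩ := hq (interior_subset hy)
    have := h.injOn (M.sub i hz) hyΩ hzy
    rw [← this]; exact hz
  exact Set.disjoint_left.1 (Vale.Agent.P073.H244.face_disjoint M k i) hx h2

/-- near a square with a protected side the face is on the other side -/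
theorem half_pos (hΩ : IsOpen Ω) {k : M.κ} {i : M.ι} {s : K.S} {β : Bool}
    (hq : K.cube (side K s (!β)) ⊆ h.toFun '' M.Q i) {x : V} (hx : x ∈ M.F k)
    (hn : Near K s (h.toFun x)) : Pos K s β (h.toFun x) :=
  pos_of_not fun h1 => notMem_int hΩ hx hq (mem_int_side hn h1)

theorem half_posS (hΩ : IsOpen Ω) {k : M.κ} (hu : Unp M Pr k) {i : M.ι} (hi : i ∈ Pr) {s : K.S}
    {β : Bool} (hq : K.cube (side K s (!β)) ⊆ h.toFun '' M.Q i) {x : V}
    (hx : x ∈ intrinsicInterior ℝ (M.F k)) (hn : Near K s (h.toFun x)) :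
    PosS K s β (h.toFun x) := by
  have hxF := intrinsicInterior_subset hx
  refine posS_of (half_pos hΩ hq hxF hn) fun he => ?_
  have h1 : h.toFun x ∈ K.sq s := by
    refine ⟨fun l => ?_, fun l => ?_⟩
    · by_cases hl : l = K.nrm s
      · rw [hl]; exact he.ge
      · exact (hn.tan l hl).1.le
    · by_cases hl : l = K.nrm s
      · rw [hl, he]; exact TM.slo_le_shi K s _
      · exact (hn.tan l hl).2.le
  obtain ⟨z, hz, hzx⟩ := hq (sq_sub_side s _ h1)
  have := h.injOn (M.sub i hz) (mesh_sub M k hxF) hzx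
  exact hu i hi (face_sub_of_mem hx (this ▸ hz))

theorem closure_relint (k : M.κ) : closure (intrinsicInterior ℝ (M.F k)) = M.F k := by
  have F := meshFace M k
  refine Subset.antisymm (closure_minimal intrinsicInterior_subset F.isCompact.isClosed) ?_
  rw [F.intrinsicInterior_eq]
  intro x hx
  obtain ⟨c, hc, rfl⟩ : x ∈ F.ch '' F.C := by rw [← F.eq']; exact hx
  have h1 : c ∈ closure (interior F.C) := by
    rw [F.convex.closure_interior_eq_closure_of_nonempty_interior F.int]
    exact subset_closure hc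
  exact (image_closure_subset_closure_image F.continuous_ch) (mem_image_of_mem _ h1)

/-- every neighbourhood of a point of a face contains points of the relative interior -/
theorem exists_relint {k : M.κ} {x : V} (hx : x ∈ M.F k) {O : Set V} (hO : O ∈ 𝓝 x) :
    ∃ y ∈ intrinsicInterior ℝ (M.F k), y ∈ O := by
  have h1 : x ∈ closure (intrinsicInterior ℝ (M.F k)) := by
    rw [closure_relint]; exact hx
  obtain ⟨y, hyO, hy⟩ := mem_closure_iff_nhds.1 h1 O hO
  exact ⟨y, hy, hyO⟩

/-- a square near an unprotected face has a plate -/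
theorem not_both (hΩ : IsOpen Ω) {k : M.κ} (hu : Unp M Pr k) {s : K.S} {x : V} (hx : x ∈ M.F k)
    (hn : Near K s (h.toFun x)) : ¬ (Inn h Pr s true ∧ Inn h Pr s false) := by
  rintro ⟨⟨i, hi, h1⟩, ⟨i', hi', h2⟩⟩
  have hxΩ := mesh_sub M k hx
  obtain ⟨y, hy, hyn⟩ := exists_relint hx ((h.cont.continuousAt (hΩ.mem_nhds hxΩ))
    ((isOpen_near s).mem_nhds hn))
  have k1 := half_posS (β := false) hΩ hu hi h1 hy hyn
  have k2 := half_posS (β := true) hΩ hu hi' h2 hy hyn
  simp only [PosS, Bool.false_eq_true, if_false, if_true] at k1 k2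
  exact lt_asymm k1 k2

section

variable (H : RIn G M h Pr Act L E)

include H

/-- **faces which meet a plate** -/
theorem RIn.near {k : M.κ} (hk : k ∈ Act) {s : K.S} {x : V} (hx : x ∈ M.F k)
    (hxs : h.toFun x ∈ G.PB (3 / 4) s) {y : V} (hy : y ∈ M.F k) :
    |h.toFun y (K.nrm s) - K.slo s (K.nrm s)| < B.τ s ∧ ‖h.toFun x - h.toFun y‖ ≤ 4 * G.oS s ∧
    (h.toFun x ∈ G.PB 1 s → h.toFun y ∈ G.PB (3 / 4) s) := by
  have ho := H.osc k hk s x hx (by
    rw [Geo.mem_PB] at hxs ⊢
    refine ⟨fun l hl => ?_, hxs.2⟩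
    have := hxs.1 l hl
    have hp := Geo.p_pos (G := G) s
    constructor <;> linarith) y hy
  have hcoord : ∀ l, |h.toFun x l - h.toFun y l| ≤ 4 * G.oS s := fun l =>
    (norm_le_pi_norm (h.toFun x - h.toFun y) l).trans ho
  have hτ := B.τ_pos s
  have hp := Geo.p_pos (G := G) s
  have hop := oS_p G s
  have hoτ := G.oS_τ s
  have ho0 := oS_pos G s
  -- the point `x`
  have hxn := H.nrm k hk s x hx hxs
  have hyn : |h.toFun y (K.nrm s) - K.slo s (K.nrm s)| < B.τ s := by
    have h1 := abs_le.1 (hcoord (K.nrm s))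
    have h2 := abs_le.1 hxn
    rw [abs_lt]
    constructor <;> linarith
  refine ⟨hyn, ho, fun hx1 => ?_⟩
  rw [Geo.mem_PB] at hx1 ⊢
  refine ⟨fun l hl => ?_, hyn.le⟩
  have h1 := hx1.1 l hl
  have h2 := abs_le.1 (hcoord l)
  constructor <;> linarith

omit H in
theorem sub_of_fin {s : Set ℝ} (h : IsPreconnected s) (hf : s.Finite) : s.Subsingleton := by
  intro a ha b hb
  by_contra hne
  rcases lt_or_gt_of_ne hne with h1 | h1
  · exact Icc_infinite h1 (hf.subset (h.ordConnected.out ha hb))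
  · exact Icc_infinite h1 (hf.subset (h.ordConnected.out hb ha))

omit H in
theorem conn_circle {σ : Set V} (h : IsCircle σ) : IsPreconnected σ ∧ σ.Nonempty := by
  obtain ⟨φ⟩ := h
  rw [← φ.image_eq]
  have hrank : 1 < Module.rank ℝ (ℝ × ℝ) := by
    rw [rank_prod', Module.rank_self]; norm_num
  refine ⟨(isPreconnected_sphere hrank 0 1).image _ φ.cont, Nonempty.image _ ⟨(1, 0), ?_⟩⟩
  rw [mem_sphere_zero_iff_norm]
  simp [Prod.norm_def]

/-- the face is near the side `β` of the square in the direction `j` -/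
def SideNear (G : Geo B) (h : ConHomeo Ω Λ) (s : K.S) (j : Fin 3) (β : Bool) (c : ℝ)
    (x : V) : Prop :=
  if β then K.shi s j - c * G.p s ≤ h.toFun x j else h.toFun x j ≤ K.slo s j + c * G.p s

/-- **faces near a side are clean** -/
theorem RIn.clean {k : M.κ} (hk : k ∈ Act) (hu : Unp M Pr k) {s : K.S} {j : Fin 3} {β : Bool}
    (hj : j ≠ K.nrm s) (hA : ∀ x ∈ M.F k, h.toFun x ∈ G.PB (3 / 4) s ∧
      SideNear G h s j β (3 / 2) x) : Clean h.toFun (pl G L s) (M.F k) := by
  have hp := Geo.p_pos (G := G) s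
  have hpa := Geo.p_a (G := G) s
  -- no point of the face is on a level in the direction `j`
  have hno : ∀ x ∈ M.F k, h.toFun x j ∉ L s j := by
    intro x hx hxL
    have h1 := H.win s j hj _ hxL
    have h2 := (hA x hx).2
    cases β
    · simp only [SideNear, Bool.false_eq_true, if_false] at h2
      linarith
    · simp only [SideNear, if_true] at h2
      linarith
  -- circles
  have hcirc : ∀ l, l ≠ K.nrm s → ∀ σ : Set V, IsCircle σ → σ ⊆ M.F k →
      ¬ ∀ x ∈ σ, h.toFun x l ∈ L s l := by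
    intro l hl σ hσ hσk hall
    obtain ⟨hpre, x0, hx0⟩ := conn_circle hσ
    by_cases hjl : j = l
    · subst hjl
      exact hno x0 (hσk hx0) (hall x0 hx0)
    · have hc : ContinuousOn (fun x => h.toFun x l) σ :=
        ((continuous_apply l).comp_continuousOn h.cont).mono
          (hσk.trans (mesh_sub M k))
      have hsub : ((fun x => h.toFun x l) '' σ).Subsingleton := by
        refine sub_of_fin (hpre.image _ hc) ?_
        exact (L s l).finite_toSet.subset (by rintro _ ⟨x, hx, rfl⟩; exact hall x hx)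
      refine H.noc k hk hu s j l β hj hl hjl (fun x hx => ⟨(hA x hx).1, (hA x hx).2⟩)
        (h.toFun x0 l) (hall x0 hx0) σ hσ hσk fun x hx => ?_
      exact hsub (mem_image_of_mem _ hx) (mem_image_of_mem _ hx0)
  refine ⟨fun x hx h1 h2 => ?_, fun σ hσ hσk => ⟨hcirc _ (t1_ne _) σ hσ hσk,
    hcirc _ (t2_ne _) σ hσ hσk⟩⟩
  rcases t_cases hj with rfl | rfl
  · exact hno x hx h1
  · exact hno x hx h2

omit H in
/-- the normal direction of the plates -/
theorem plc_nrm (c : Gam K h Pr) :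
    (plc G L h Pr c).lo (K.nrm c.1) = K.slo c.1 (K.nrm c.1) - B.τ c.1 ∧
      (plc G L h Pr c).hi (K.nrm c.1) = K.slo c.1 (K.nrm c.1) + B.τ c.1 ∨
    ∃ β, Inn h Pr c.1 (!β) ∧
      (plc G L h Pr c).lo (K.nrm c.1) =
        (if β then K.slo c.1 (K.nrm c.1) else K.slo c.1 (K.nrm c.1) - B.τ c.1) ∧
      (plc G L h Pr c).hi (K.nrm c.1) =
        (if β then K.slo c.1 (K.nrm c.1) + B.τ c.1 else K.slo c.1 (K.nrm c.1)) := by
  rcases plc_cases (G := G) (L := L) c with ⟨h1, -⟩ | ⟨β, h1, h2, -⟩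
  · left
    rw [h1]
    show G.plo 1 c.1 (K.nrm c.1) = _ ∧ G.phi 1 c.1 (K.nrm c.1) = _
    simp [Geo.plo, Geo.phi]
  · right
    refine ⟨β, h2, ?_⟩
    rw [h1]
    show G.plo' 1 c.1 β (K.nrm c.1) = _ ∧ G.phi' 1 c.1 β (K.nrm c.1) = _
    simp [Geo.plo', Geo.phi']

omit H in
/-- position in the box of the plate, normal direction -/
theorem nrm_box (hΩ : IsOpen Ω) {k : M.κ} (hu : Unp M Pr k) (c : Gam K h Pr) {x : V}
    (hx : x ∈ M.F k) (hn : Near K c.1 (h.toFun x))
    (hτ : |h.toFun x (K.nrm c.1) - K.slo c.1 (K.nrm c.1)| < B.τ c.1) :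
    ((plc G L h Pr c).lo (K.nrm c.1) ≤ h.toFun x (K.nrm c.1) ∧
      h.toFun x (K.nrm c.1) ≤ (plc G L h Pr c).hi (K.nrm c.1)) ∧
    (x ∈ intrinsicInterior ℝ (M.F k) →
      (plc G L h Pr c).lo (K.nrm c.1) < h.toFun x (K.nrm c.1) ∧
      h.toFun x (K.nrm c.1) < (plc G L h Pr c).hi (K.nrm c.1)) := by
  have h0 := abs_lt.1 hτ
  rcases plc_nrm (G := G) (L := L) c with ⟨h1, h2⟩ | ⟨β, ⟨i, hi, hq⟩, h1, h2⟩
  · rw [h1, h2]
    refine ⟨⟨?_, ?_⟩, fun _ => ⟨?_, ?_⟩⟩ <;> linarith
  · have k1 := half_pos hΩ hq hx hn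
    refine ⟨?_, fun hxr => ?_⟩
    · rw [h1, h2]
      cases β
      · simp only [Pos, Bool.false_eq_true, if_false] at k1 ⊢
        exact ⟨by linarith, k1⟩
      · simp only [Pos, if_true] at k1 ⊢
        exact ⟨k1, by linarith⟩
    · have k2 := half_posS hΩ hu hi hq hxr hn
      rw [h1, h2]
      cases β
      · simp only [PosS, Bool.false_eq_true, if_false] at k2 ⊢
        exact ⟨by linarith, k2⟩
      · simp only [PosS, if_true] at k2 ⊢
        exact ⟨k2, by linarith⟩

/-- **faces inside a plate** -/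
theorem RIn.inner (hΩ : IsOpen Ω) {k : M.κ} (hu : Unp M Pr k) (c : Gam K h Pr)
    (hA : ∀ x ∈ M.F k, h.toFun x ∈ G.PB (3 / 4) c.1 ∧
      |h.toFun x (K.nrm c.1) - K.slo c.1 (K.nrm c.1)| < B.τ c.1)
    (ht : ∀ x ∈ M.F k, ∀ l, l ≠ K.nrm c.1 → K.slo c.1 l + G.p c.1 < h.toFun x l ∧
      h.toFun x l < K.shi c.1 l - G.p c.1) :
    M.F k ⊆ (plc G L h Pr c).U h ∧
      Disjoint (intrinsicInterior ℝ (M.F k)) ((plc G L h Pr c).B h) := by
  have ok := plc_ok H c
  refine ⟨fun x hx => ?_, Set.disjoint_left.2 fun x hx hB => ?_⟩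
  · obtain ⟨h1, h2⟩ := hA x hx
    have h3 := (nrm_box (G := G) (L := L) hΩ hu c hx
      (near_of_PB (c := 3 / 4) (by norm_num) h1) h2).1
    rw [ok.mem_U]
    refine ⟨mesh_sub M k hx, fun l => ?_, fun l => ?_⟩
    · by_cases hl : l = K.nrm c.1
      · rw [hl]; exact h3.1
      · rw [(plc_tan c hl).1]; exact (ht x hx l hl).1.le
    · by_cases hl : l = K.nrm c.1
      · rw [hl]; exact h3.2
      · rw [(plc_tan c hl).2]; exact (ht x hx l hl).2.le
  · have hxF := intrinsicInterior_subset hx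
    obtain ⟨h1, h2⟩ := hA x hxF
    have h3 := (nrm_box (G := G) (L := L) hΩ hu c hxF
      (near_of_PB (c := 3 / 4) (by norm_num) h1) h2).2 hx
    obtain ⟨-, l, hl⟩ := mem_frontier_box.1 ((ok.mem_B.1 hB).2)
    by_cases hln : l = K.nrm c.1
    · rw [hln] at hl
      rcases hl with hl | hl
      · exact h3.1.ne' hl
      · exact h3.2.ne hl
    · rw [(plc_tan c hln).1, (plc_tan c hln).2] at hl
      rcases hl with hl | hl
      · exact (ht x hxF l hln).1.ne' hl
      · exact (ht x hxF l hln).2.ne hl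

/-- points of the plate near a side are in the margin -/
theorem RIn.margin (c : Gam K h Pr) {x : V} {j : Fin 3} {β : Bool} (hj : j ≠ K.nrm c.1)
    (hs : SideNear G h c.1 j β (5 / 4) x) (hxU : x ∈ (plc G L h Pr c).U h) :
    x ∈ (plc G L h Pr c).Y h := by
  have ok := plc_ok H c
  obtain ⟨hxΩ, hxb⟩ := ok.mem_U.1 hxU
  rw [ok.mem_Y]
  refine ⟨hxΩ, hxb, ?_⟩
  obtain ⟨e1, e2, -, -, e5⟩ := plc_dir (G := G) (L := L) c
  have n1 := t1_ne (K.nrm c.1)
  have n2 := t2_ne (K.nrm c.1)
  rw [e1, e2, e5, (plc_tan c n1).1, (plc_tan c n1).2, (plc_tan c n2).1, (plc_tan c n2).2]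
  rcases t_cases hj with rfl | rfl
  · cases β
    · simp only [SideNear, Bool.false_eq_true, if_false] at hs
      left; linarith
    · simp only [SideNear, if_true] at hs
      right; left; linarith
  · cases β
    · simp only [SideNear, Bool.false_eq_true, if_false] at hs
      right; right; left; linarith
    · simp only [SideNear, if_true] at hs
      right; right; right; linarith

/-- points of the margin are near a side -/
theorem RIn.of_margin (c : Gam K h Pr) {x : V} (hx : x ∈ (plc G L h Pr c).Y h) :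
    ∃ j, j ≠ K.nrm c.1 ∧ ∃ β, SideNear G h c.1 j β (5 / 4) x := by
  have ok := plc_ok H c
  obtain ⟨hxΩ, hxb, hm⟩ := ok.mem_Y.1 hx
  obtain ⟨e1, e2, -, -, e5⟩ := plc_dir (G := G) (L := L) c
  have n1 := t1_ne (K.nrm c.1)
  have n2 := t2_ne (K.nrm c.1)
  rw [e1, e2, e5, (plc_tan c n1).1, (plc_tan c n1).2, (plc_tan c n2).1, (plc_tan c n2).2] at hm
  rcases hm with hm | hm | hm | hm
  · refine ⟨_, n1, false, ?_⟩
    simp only [SideNear, Bool.false_eq_true, if_false]; linarith
  · refine ⟨_, n1, true, ?_⟩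
    simp only [SideNear, if_true]; linarith
  · refine ⟨_, n2, false, ?_⟩
    simp only [SideNear, Bool.false_eq_true, if_false]; linarith
  · refine ⟨_, n2, true, ?_⟩
    simp only [SideNear, if_true]; linarith

omit H in
theorem sideNear_of {s : K.S} {j : Fin 3} {β : Bool} {x y : V} {c : ℝ}
    (hx : SideNear G h s j β c x) (ho : ‖h.toFun x - h.toFun y‖ ≤ 4 * G.oS s) {c' : ℝ}
    (hc : c + 1 / 1000 ≤ c') : SideNear G h s j β c' y := by
  have h1 := abs_le.1 ((norm_le_pi_norm (h.toFun x - h.toFun y) j).trans ho)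
  simp only [Pi.sub_apply] at h1
  have hop := oS_p G s
  have hp := Geo.p_pos (G := G) s
  have h2 : c * G.p s + 4 * G.oS s ≤ c' * G.p s := by
    have : (c + 1 / 1000) * G.p s ≤ c' * G.p s := mul_le_mul_of_nonneg_right hc hp.le
    linarith
  cases β
  · simp only [SideNear, Bool.false_eq_true, if_false] at hx ⊢
    linarith
  · simp only [SideNear, if_true] at hx ⊢
    linarith

/-- **the input of [PLATE-MESH]** -/
theorem RIn.plateIn (hΩ : IsOpen Ω) (hΛ : IsOpen Λ) :
    PlateIn h M (mFam M E) (plc G L h Pr) Act where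
  ok := plc_ok H
  lf := plc_lf G L h Pr
  dis := fun c d hcd => (plc_dis c d hcd).mono_left interior_subset
  closed := mFam_closed
  cone := fun g x _ => mFam_cone g x
  fin := mFam_fin hΩ M E
  face := mFam_face M E
  mesh := mFam_mesh M E
  regi := by
    intro c x hx hxa
    obtain ⟨e1, -, e3, -, -⟩ := plc_dir (G := G) (L := L) c
    rw [e1, e3] at hxa
    rw [e1]
    exact H.reg1 c.1 _ (t1_ne _) x hx hxa
  regj := by
    intro c x hx hxa
    obtain ⟨-, e2, -, e4, -⟩ := plc_dir (G := G) (L := L) c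
    rw [e2, e4] at hxa
    rw [e2]
    exact H.reg1 c.1 _ (t2_ne _) x hx hxa
  regij := by
    intro c x hx hxa hxb
    obtain ⟨e1, e2, e3, e4, -⟩ := plc_dir (G := G) (L := L) c
    rw [e1, e3] at hxa
    rw [e2, e4] at hxb
    rw [e1, e2]
    exact H.reg2 c.1 x hx hxa hxb
  touch := by
    intro c k hk hU hB hY
    have ok := plc_ok H c
    have hu : Unp M Pr k := by
      intro i hi hki
      obtain ⟨x, hx⟩ := relint_nonempty (M := M) k
      have hxF := intrinsicInterior_subset hx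
      have h1 := H.prot_off hΩ hΛ hi (hki hxF) c
      have h2 := (ok.mem_U.1 (hU hxF)).2
      refine Set.disjoint_left.1 hB hx (ok.mem_B.2 ⟨mesh_sub M k hxF, ?_⟩)
      rw [isClosed_Icc.frontier_eq]
      exact ⟨h2, h1⟩
    obtain ⟨x, hxF, hxY⟩ := hY
    obtain ⟨j, hj, β, hs⟩ := H.of_margin c hxY
    have hx1 : h.toFun x ∈ G.PB 1 c.1 := plc_box c (ok.mem_U.1 (hU hxF)).2
    rw [clean_plc]
    refine H.clean hk hu hj (β := β) fun y hy => ?_
    have hx34 : h.toFun x ∈ G.PB (3 / 4) c.1 := by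
      rw [Geo.mem_PB] at hx1 ⊢
      refine ⟨fun l hl => ?_, hx1.2⟩
      have := hx1.1 l hl
      have hp := Geo.p_pos (G := G) c.1
      constructor <;> linarith
    obtain ⟨-, h2, h3⟩ := H.near hk hxF hx34 hy
    exact ⟨h3 hx1, sideNear_of hs h2 (by norm_num)⟩

end

end Vale.Agent.P073.H805
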