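import Vale.Agent.P073.H805.PInC

/-!
# P073, H805: **[P-IN]** (A14.20), the patterns of the active faces after the exchange
-/

set_option linter.unusedSectionVars false

open Set Metric Topology Filter

namespace Vale.Agent.P073.H805

open _root_.P073 _root_.P073.TR _root_.P073.H579 _root_.P073.PA691
open _root_.P073.H805 (Plate HasPat Clean Reg PlateIn PlatesOut pFam SameLev Crosses hasPat_clean
  hasPat_inj exists_plates)
open Vale.Agent.P073.H238 (PFace meshFace mesh_sub)
open Vale.Agent.P073.H73 (Mesh)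
open Vale.Agent.P073.St (V)
open Vale.Agent.P073.H471 (Rad Wid Boxes Near)
open Vale.Agent.P073.H267 (Geo)
open Vale.Agent.P073.H193 (Edges)

variable {Ω Λ : Set V} {v : V} {K : BoxCx Λ v} {S : Rad K} {W : Wid K S} {B : Boxes W}
  {G : Geo B} {M : Mesh Ω} {h h2 : ConHomeo Ω Λ} {Pr : Set M.ι} {Act : Set M.κ}
  {L : K.S → Fin 3 → Finset ℝ} {E : Edges M}

theorem PB_mono {c c' : ℝ} (hc : c' ≤ c) (s : K.S) : G.PB c s ⊆ G.PB c' s := by
  intro y hy
  rw [Geo.mem_PB] at hy ⊢
  have hp := Geo.p_pos (G := G) s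
  have h1 : c' * G.p s ≤ c * G.p s := mul_le_mul_of_nonneg_right hc hp.le
  refine ⟨fun l hl => ?_, hy.2⟩
  have := hy.1 l hl
  constructor <;> linarith

theorem PB_eq {c c' : ℝ} (hc : 1 / 2 ≤ c) (hc' : 1 / 2 ≤ c') {s s' : K.S} {y : V}
    (hy : y ∈ G.PB c s) (hy' : y ∈ G.PB c' s') : s = s' := by
  by_contra hne
  exact Set.disjoint_left.1 (Geo.disjoint_PB (G := G) (c := 1 / 2) le_rfl hne)
    (PB_mono hc s hy) (PB_mono hc' s' hy')

section

variable (O : PlatesOut h h2 M (mFam M E) (plc G L h Pr) Act)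

include O

theorem off_of {x : V} (hx : x ∈ Ω) (hxo : ∀ s, h.toFun x ∉ G.PB 1 s) :
    h2.toFun x = h.toFun x :=
  O.off x hx fun c hc => hxo c.1 (plc_box c (interior_subset hc))

/-- a point which is not fixed is in a plate -/
theorem plate_of_ne {x : V} (hx : x ∈ Ω) (hne : h2.toFun x ≠ h.toFun x) :
    ∃ c : Gam K h Pr, h.toFun x ∈ interior (Icc (plc G L h Pr c).lo (plc G L h Pr c).hi) := by
  by_contra hcon
  push Not at hcon
  exact hne (O.off x hx hcon)

theorem box_of (s : K.S) {x : V} (hx : x ∈ Ω) :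
    h2.toFun x ∈ G.PB 1 s ↔ h.toFun x ∈ G.PB 1 s := by
  by_cases hne : h2.toFun x = h.toFun x
  · rw [hne]
  · obtain ⟨c, hc⟩ := plate_of_ne O hx hne
    have h1 := interior_subset hc
    have h3 := plc_box c ((O.box c x hx).2 h1)
    have h4 := plc_box c h1
    constructor
    · intro h5
      rw [← PB_eq (by norm_num) (by norm_num) h3 h5]; exact h4
    · intro h5
      rw [← PB_eq (by norm_num) (by norm_num) h4 h5]; exact h3

/-- no point is moved to the bottom and the top -/
theorem tau_of (s : K.S) {y : V} (hy : y ∈ Ω) (hys : h.toFun y ∈ G.PB (3 / 4) s)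
    (hτ : |h.toFun y (K.nrm s) - K.slo s (K.nrm s)| < B.τ s) :
    h2.toFun y ∈ G.PB (3 / 4) s ∧ |h2.toFun y (K.nrm s) - K.slo s (K.nrm s)| < B.τ s := by
  by_cases hne : h2.toFun y = h.toFun y
  · rw [hne]; exact ⟨hys, hτ⟩
  · obtain ⟨c, hc⟩ := plate_of_ne O hy hne
    have h1 := interior_subset hc
    have h3 := (O.box c y hy).2 h1
    have e : c.1 = s := PB_eq (G := G) (by norm_num) (by norm_num) (plc_box c h1) hys
    subst e
    have h4 := plc_box c h3
    refine ⟨PB_mono (by norm_num) _ h4, lt_of_le_of_ne (Geo.mem_PB.1 h4).2 fun h5 => ?_⟩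
    have hzΛ := h2.mapsTo hy
    have hx0 := h.mapsTo_inv hzΛ
    have h6 : h.toFun (h.invFun (h2.toFun y)) = h2.toFun y := h.right_inv hzΛ
    have h7 : h2.toFun (h.invFun (h2.toFun y)) = h.toFun (h.invFun (h2.toFun y)) := by
      refine O.off _ hx0 fun d hd => ?_
      rw [h6] at hd
      have h8 := interior_subset hd
      have e2 : d.1 = c.1 := PB_eq (G := G) (by norm_num) (by norm_num) (plc_box d h8) h4
      have e3 : d = c := Subtype.ext e2
      subst e3
      have h9 := Vale.Agent.P073.H267.Geo.interior_Icc_lt hd (K.nrm d.1)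
      rcases plc_nrm (G := G) (L := L) d with ⟨k1, k2⟩ | ⟨β, -, k1, k2⟩
      · rw [k1, k2] at h9
        have : |h2.toFun y (K.nrm d.1) - K.slo d.1 (K.nrm d.1)| < B.τ d.1 := by
          rw [abs_lt]; constructor <;> linarith [h9.1, h9.2]
        exact absurd h5 this.ne
      · rw [k1, k2] at h9
        have hτ0 := B.τ_pos d.1
        have : |h2.toFun y (K.nrm d.1) - K.slo d.1 (K.nrm d.1)| < B.τ d.1 := by
          cases β
          · simp only [Bool.false_eq_true, if_false] at h9
            rw [abs_lt]; constructor <;> linarith [h9.1, h9.2]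
          · simp only [if_true] at h9
            rw [abs_lt]; constructor <;> linarith [h9.1, h9.2]
        exact absurd h5 this.ne
    rw [h6] at h7
    have h8 := h2.injOn hx0 hy h7
    rw [h8] at h6
    exact hne h6.symm

variable (H : RIn G M h Pr Act L E)

include H

theorem prot_of (hΩ : IsOpen Ω) (hΛ : IsOpen Λ) {i : M.ι} (hi : i ∈ Pr) :
    EqOn h2.toFun h.toFun (M.Q i) := fun x hx =>
  O.off x (M.sub i hx) fun c => H.prot_off hΩ hΛ hi hx c

/-- the face stays near the square -/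
theorem RIn.near2 {k : M.κ} (hk : k ∈ Act) {s : K.S} {x : V} (hx : x ∈ M.F k)
    (hxs : h.toFun x ∈ G.PB 1 s) {y : V} (hy : y ∈ M.F k) :
    h2.toFun y ∈ G.PB (3 / 4) s ∧ |h2.toFun y (K.nrm s) - K.slo s (K.nrm s)| < B.τ s := by
  obtain ⟨h1, -, h3⟩ := H.near hk hx (PB_mono (by norm_num) s hxs) hy
  exact tau_of O s (mesh_sub M k hy) (h3 hxs) h1

/-- levels on the margins -/
theorem RIn.lev_of (s : K.S) {l : Fin 3} (hl : l ≠ K.nrm s) {x : V} (hx : x ∈ Ω)
    (hs : ∃ j, j ≠ K.nrm s ∧ ∃ β, SideNear G h s j β (5 / 4) x)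
    (hxs : h.toFun x ∈ G.PB (3 / 4) s) {t : ℝ} (ht : t ∈ L s l) :
    (h2.toFun x l = t ↔ h.toFun x l = t) ∧ (h2.toFun x l < t ↔ h.toFun x l < t) ∧
      (t < h2.toFun x l ↔ t < h.toFun x l) := by
  by_cases hne : h2.toFun x = h.toFun x
  · rw [hne]; exact ⟨Iff.rfl, Iff.rfl, Iff.rfl⟩
  · obtain ⟨c, hc⟩ := plate_of_ne O hx hne
    have ok := plc_ok H c
    have h1 := interior_subset hc
    have e : c.1 = s := PB_eq (G := G) (by norm_num) (by norm_num) (plc_box c h1) hxs
    subst e
    obtain ⟨j, hj, β, hs⟩ := hs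
    have hY := H.margin c hj hs (ok.mem_U.2 ⟨hx, h1⟩)
    obtain ⟨e1, e2, e3, e4, -⟩ := plc_dir (G := G) (L := L) c
    rcases t_cases hl with rfl | rfl
    · have h5 := O.levi c t (by rw [e3]; exact ht) x hY
      rw [e1] at h5
      exact h5
    · have h5 := O.levj c t (by rw [e4]; exact ht) x hY
      rw [e2] at h5
      exact h5

/-- **the pattern of an active face which meets a plate** -/
theorem RIn.pat_of (hΩ : IsOpen Ω) (hΛ : IsOpen Λ) {k : M.κ} (hk : k ∈ Act) {s : K.S} {x : V}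
    (hx : x ∈ M.F k) (hxs : h.toFun x ∈ G.PB 1 s) : HasPat (M.F k) h2.toFun (pl G L s) := by
  have hx34 := PB_mono (G := G) (by norm_num : (3:ℝ) / 4 ≤ 1) s hxs
  by_cases hu : Unp M Pr k
  · set c : Gam K h Pr := ⟨s, not_both hΩ hu hx (near_of_PB (by norm_num) hxs)⟩ with hc
    have hcs : c.1 = s := rfl
    have hA : ∀ y ∈ M.F k, h.toFun y ∈ G.PB (3 / 4) s ∧
        |h.toFun y (K.nrm s) - K.slo s (K.nrm s)| < B.τ s := fun y hy =>
      ⟨(H.near hk hx hx34 hy).2.2 hxs, (H.near hk hx hx34 hy).1⟩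
    by_cases ht : ∀ y ∈ M.F k, ∀ l, l ≠ K.nrm s → K.slo s l + G.p s < h.toFun y l ∧
        h.toFun y l < K.shi s l - G.p s
    · obtain ⟨h1, h3⟩ := H.inner hΩ hu c hA ht
      exact (hasPat_plc c).1 (O.inner c k hk h1 h3)
    · push Not at ht
      obtain ⟨y, hy, l, hl, hyl⟩ := ht
      obtain ⟨β, hβ⟩ : ∃ β, SideNear G h s l β 1 y := by
        by_cases h1 : K.slo s l + G.p s < h.toFun y l
        · refine ⟨true, ?_⟩
          simp only [SideNear, if_true]
          linarith [hyl h1]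
        · refine ⟨false, ?_⟩
          simp only [SideNear, Bool.false_eq_true, if_false]
          linarith
      have hS : ∀ z ∈ M.F k, ∀ c', (1:ℝ) + 1 / 1000 ≤ c' → SideNear G h s l β c' z :=
        fun z hz c' hc' => sideNear_of hβ
          (H.osc k hk s y hy (PB_mono (by norm_num) s (hA y hy).1) z hz) hc'
      refine (hasPat_plc c).1 (O.side c k ?_ ?_ ?_)
      · rintro z ⟨hz, hzU⟩
        exact Or.inl (H.margin c hl (hS z hz _ (by norm_num)) hzU)
      · rintro d hd z ⟨hz, hzU⟩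
        exfalso
        have h1 := plc_box d ((plc_ok H d).mem_U.1 hzU).2
        exact hd (Subtype.ext (PB_eq (G := G) (by norm_num) (by norm_num) h1 (hA z hz).1))
      · rw [clean_plc]
        exact H.clean hk hu hl (β := β) fun z hz => ⟨(hA z hz).1, hS z hz _ (by norm_num)⟩
  · -- protected faces
    unfold Unp at hu
    push Not at hu
    obtain ⟨i, hi, hki⟩ := hu
    have heq : ∀ y ∈ M.F k, h2.toFun y = h.toFun y := fun y hy =>
      prot_of O H hΩ hΛ hi (hki hy)
    have hs' := H.flat i hi k hki s x hx hxs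
    have hn : ∀ y ∈ M.F k, h.toFun y (K.nrm s) = K.slo s (K.nrm s) := by
      intro y hy
      have h1 := hs' (mem_image_of_mem _ hy)
      have h3 := K.s_flat s
      exact le_antisymm ((h1.2 _).trans h3.ge) (h1.1 _)
    have h1 : HasPat (M.F k) h.toFun (pl G L s) := by
      refine hasPat_inj (M := M) (k := k) (F := pFam h (mFam M E) (plc G L h Pr)) hΩ h
        (P := pl G L s) (t1_ne_t2 _) ⟨Sum.inl (Sum.inl k), rfl⟩ ?_ ?_ ?_ ?_
      · exact fun y hy hya => H.reg1 s _ (t1_ne _) y (mesh_sub M k hy) hya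
      · exact fun y hy hya => H.reg1 s _ (t2_ne _) y (mesh_sub M k hy) hya
      · exact fun y hy hya hyb => H.reg2 s y (mesh_sub M k hy) hya hyb
      · intro y hy z hz h5 h6
        refine h.injOn (mesh_sub M k hy) (mesh_sub M k hz) (funext fun l => ?_)
        by_cases hl : l = K.nrm s
        · rw [hl, hn y hy, hn z hz]
        · rcases t_cases hl with rfl | rfl
          · exact h5
          · exact h6
    refine h1.congr fun l z _ y hy => ?_
    rw [heq y hy]
    exact ⟨Iff.rfl, Iff.rfl, Iff.rfl⟩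

end

end Vale.Agent.P073.H805
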