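import Vale.Agent.P073.H805.PInD
import Vale.Agent.P073.H805.EdgeIn
import Vale.Agent.P073.H193.EdgCx

/-!
# P073, H805: **[P-IN]** (A14.20), the edges of the active faces
-/

set_option linter.unusedSectionVars false

open Set Metric Topology Filter

namespace Vale.Agent.P073.H805

open _root_.P073 _root_.P073.TR _root_.P073.H579 _root_.P073.PA691
open _root_.P073.H805 (Plate HasPat Clean Reg PlateIn PlatesOut pFam SameLev Crosses hasPat_clean
  hasPat_inj exists_plates crosses_of_box ptsI ptsJ)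
open Vale.Agent.P073.H238 (PFace meshFace mesh_sub)
open Vale.Agent.P073.H73 (Mesh)
open Vale.Agent.P073.St (V)
open Vale.Agent.P073.H471 (Rad Wid Boxes Near)
open Vale.Agent.P073.H267 (Geo)
open Vale.Agent.P073.H193 (Edges)

/-- at most one coordinate is on a level, on a segment -/
theorem not_two {ι : Type*} {F : ι → Set V} {a b x : V} {m : ι} (hm : F m = segment ℝ a b)
    (hx : x ∈ segment ℝ a b) {u : V → ℝ × ℝ} (h : Reg u F x) : False := by
  obtain ⟨σ, r, hb⟩ := h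
  have h1 := _root_.P073.H84.FlowBox.finrank_le hb (i := m) (by rw [hm]; exact hx)
    (Submodule.span ℝ {b - a}) (Filter.Eventually.of_forall fun y hy => by
      rw [hm, segment_eq_image_lineMap] at hy
      rw [segment_eq_image_lineMap] at hx
      obtain ⟨t, -, rfl⟩ := hy
      obtain ⟨t', -, rfl⟩ := hx
      rw [Submodule.mem_span_singleton]
      refine ⟨t - t', ?_⟩
      simp only [AffineMap.lineMap_apply, vsub_eq_sub, vadd_eq_add]
      module)
  have h2 : Module.finrank ℝ (ℝ × ℝ) = 2 := by simp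
  have h3 := finrank_span_le_card (R := ℝ) ({b - a} : Set V)
  rw [h2] at h1
  have h4 := h1.trans h3
  simp at h4

/-- the levels of a plate -/
def lvs {Λ : Set V} {v : V} {K : BoxCx Λ v} (L : K.S → Fin 3 → Finset ℝ) (s : K.S) :
    Fin 3 → Finset ℝ := fun l => if l = K.nrm s then ∅ else L s l

variable {Ω Λ : Set V} {v : V} {K : BoxCx Λ v} {S : Rad K} {W : Wid K S} {B : Boxes W}
  {G : Geo B} {M : Mesh Ω} {h h2 : ConHomeo Ω Λ} {Pr : Set M.ι} {Act : Set M.κ}
  {L : K.S → Fin 3 → Finset ℝ} {E : Edges M}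

theorem lvs_eq (G : Geo B) (L : K.S → Fin 3 → Finset ℝ) (s : K.S) : (pl G L s).lv = lvs L s := by
  funext l
  unfold Plate.lv lvs pl
  by_cases hl : l = K.nrm s
  · have h1 : l ≠ t1 (K.nrm s) := by rw [hl]; exact (t1_ne _).symm
    have h2 : l ≠ t2 (K.nrm s) := by rw [hl]; exact (t2_ne _).symm
    simp [hl, (t1_ne (K.nrm s)).symm, (t2_ne (K.nrm s)).symm]
  · rcases t_cases hl with rfl | rfl
    · simp [t1_ne]
    · simp [t2_ne, (t1_ne_t2 (K.nrm s)).symm]

theorem mem_lvs {s : K.S} {l : Fin 3} {t : ℝ} : t ∈ lvs L s l ↔ l ≠ K.nrm s ∧ t ∈ L s l := by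
  unfold lvs
  split_ifs with h <;> simp [h]

section

variable (H : RIn G M h Pr Act L E)

include H

theorem RIn.off_h (s : K.S) {e : E.ε} {x : V} (hx : x ∈ E.seg e) (hxΩ : x ∈ Ω) {l l' : Fin 3}
    (h1 : h.toFun x l ∈ lvs L s l) (h3 : h.toFun x l' ∈ lvs L s l') : l = l' := by
  rw [mem_lvs] at h1 h3
  have key : h.toFun x (t1 (K.nrm s)) ∈ L s (t1 (K.nrm s)) →
      h.toFun x (t2 (K.nrm s)) ∈ L s (t2 (K.nrm s)) → False := fun k1 k2 =>
    not_two (m := Sum.inl (Sum.inr (Sum.inr e))) (a := E.a e) (b := E.b e) rfl hx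
      (H.reg2 s x hxΩ k1 k2)
  rcases t_cases h1.1 with rfl | rfl <;> rcases t_cases h3.1 with h4 | h4
  · exact h4.symm
  · rw [h4] at h3
    exact (key h1.2 h3.2).elim
  · rw [h4] at h3
    exact (key h3.2 h1.2).elim
  · exact h4.symm

theorem RIn.cross_h (s : K.S) {e : E.ε} {x : V} (hx : x ∈ E.seg e) (hxΩ : x ∈ Ω) {l : Fin 3}
    (h1 : h.toFun x l ∈ lvs L s l) : Crosses (E.seg e) (fun y => h.toFun y l) x := by
  rw [mem_lvs] at h1
  obtain ⟨σ, r, hb⟩ := H.reg1 s l h1.1 x hxΩ h1.2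
  have h3 := crosses_of_box hb (m := Sum.inl (Sum.inr (Sum.inr e)))
    (n := Sum.inl (Sum.inr (Sum.inr e))) hx hx
  exact h3.mono inter_subset_left

omit H in
theorem pts_eq (c : Gam K h Pr) (w : V → V) (A : Set V) :
    {x | x ∈ A ∧ ∃ l, w x l ∈ lvs L c.1 l} =
      ptsI w (plc G L h Pr c) A ∪ ptsJ w (plc G L h Pr c) A := by
  obtain ⟨e1, e2, e3, e4, -⟩ := plc_dir (G := G) (L := L) c
  ext x
  simp only [ptsI, ptsJ, mem_ofPred_eq, mem_union, e1, e2, e3, e4]
  constructor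
  · rintro ⟨hx, l, hl⟩
    rw [mem_lvs] at hl
    rcases t_cases hl.1 with rfl | rfl
    · exact Or.inl ⟨hx, hl.2⟩
    · exact Or.inr ⟨hx, hl.2⟩
  · rintro (⟨hx, h1⟩ | ⟨hx, h1⟩)
    · exact ⟨hx, _, mem_lvs.2 ⟨t1_ne _, h1⟩⟩
    · exact ⟨hx, _, mem_lvs.2 ⟨t2_ne _, h1⟩⟩

/-- the edges of a mesh under a conical homeomorphism: input of `exists_edgeIn` -/
structure EdgeOk (w : V → V) (L : K.S → Fin 3 → Finset ℝ) (s : K.S) (A : Set V) : Prop where
  off : ∀ x ∈ A, ∀ l l', w x l ∈ lvs L s l → w x l' ∈ lvs L s l' → l = l'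
  cross : ∀ x ∈ A, ∀ l, w x l ∈ lvs L s l → Crosses A (fun y => w y l) x

theorem RIn.edgeOk_h (s : K.S) {e : E.ε} (he : E.seg e ⊆ Ω) : EdgeOk h.toFun L s (E.seg e) :=
  ⟨fun _ hx _ _ h1 h3 => H.off_h s hx (he hx) h1 h3, fun _ hx _ h1 => H.cross_h s hx (he hx) h1⟩

omit H in
/-- the crossing points -/
theorem EdgeOk.edgeIn {w : V → V} {s : K.S} {e : E.ε} (Q : EdgeOk w L s (E.seg e))
    (hi : InjOn w (E.seg e)) (hc : ContinuousOn w (E.seg e)) (hk : ConicalOn w (E.seg e)) :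
    {x | x ∈ E.seg e ∧ ∃ l, w x l ∈ lvs L s l}.Finite ∧
    ∃ (t : ℕ → ℝ) (cd : ℕ → Fin 3) (lev ε : ℕ → ℝ),
      (∀ i < {x | x ∈ E.seg e ∧ ∃ l, w x l ∈ lvs L s l}.ncard, t i ∈ Ioo (0:ℝ) 1) ∧
      (∀ i < {x | x ∈ E.seg e ∧ ∃ l, w x l ∈ lvs L s l}.ncard,
        ∀ i' < {x | x ∈ E.seg e ∧ ∃ l, w x l ∈ lvs L s l}.ncard, i < i' → t i < t i') ∧
      FaceIn ({x | x ∈ E.seg e ∧ ∃ l, w x l ∈ lvs L s l}.ncard) (E.seg e) w
        (fun l => (lvs L s l : Set ℝ)) (fun i x => (segC (E.ne e)).invFun x - t i) cd lev ε :=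
  _root_.P073.H805.exists_edgeIn (segC (E.ne e)) hi hc hk Q.off Q.cross

omit H in
/-- a vertex is on no level -/
theorem EdgeOk.ends {w : V → V} {s : K.S} {e : E.ε} (Q : EdgeOk w L s (E.seg e))
    (hk : ConicalOn w (E.seg e)) (l : Fin 3) :
    w (E.a e) l ∉ lvs L s l ∧ w (E.b e) l ∉ lvs L s l := by
  have hkj : ConicalOn (fun y => w y l) (E.seg e) := by
    intro x hx
    obtain ⟨r, hr, hr'⟩ := hk x hx
    refine ⟨r, hr, fun v hv hv' t ht => ?_⟩
    obtain ⟨h1, h3⟩ := hr' v hv hv' t ht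
    refine ⟨h1, ?_⟩
    show w (x + t • v) l = _
    rw [h3]; rfl
  have i0 : (0:ℝ) ∈ Icc (0:ℝ) 1 := ⟨le_refl _, zero_le_one⟩
  have i1 : (1:ℝ) ∈ Icc (0:ℝ) 1 := ⟨zero_le_one, le_refl _⟩
  have ea : (segC (E.ne e)).toFun 0 = E.a e := by rw [segC_toFun]; simp
  have eb : (segC (E.ne e)).toFun 1 = E.b e := by rw [segC_toFun]; simp
  refine ⟨fun h1 => ?_, fun h1 => ?_⟩
  · have hx : E.a e ∈ E.seg e := left_mem_segment ℝ _ _
    have h3 := (Crosses.local (segC (E.ne e)) hkj hx (Q.cross _ hx l h1)).1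
    rw [(congrArg (segC (E.ne e)).invFun ea.symm).trans ((segC (E.ne e)).left_inv i0)] at h3
    exact lt_irrefl _ h3.1
  · have hx : E.b e ∈ E.seg e := right_mem_segment ℝ _ _
    have h3 := (Crosses.local (segC (E.ne e)) hkj hx (Q.cross _ hx l h1)).1
    rw [(congrArg (segC (E.ne e)).invFun eb.symm).trans ((segC (E.ne e)).left_inv i1)] at h3
    exact lt_irrefl _ h3.2

/-- **the edges of an active face after the exchange** -/
theorem RIn.edge_of (O : PlatesOut h h2 M (mFam M E) (plc G L h Pr) Act) (hΩ : IsOpen Ω)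
    (hΛ : IsOpen Λ) {k : M.κ} (hk : k ∈ Act) {s : K.S} {x : V}
    (hx : x ∈ M.F k) (hxs : h.toFun x ∈ G.PB 1 s) {e : E.ε} (he : E.seg e ⊆ M.F k) :
    EdgeOk h2.toFun L s (E.seg e) ∧
      {x | x ∈ E.seg e ∧ ∃ l, h2.toFun x l ∈ lvs L s l}.ncard ≤
        {x | x ∈ E.seg e ∧ ∃ l, h.toFun x l ∈ lvs L s l}.ncard := by
  have hx34 := PB_mono (G := G) (by norm_num : (3:ℝ) / 4 ≤ 1) s hxs
  have heΩ : E.seg e ⊆ Ω := he.trans (mesh_sub M k)
  have Q := H.edgeOk_h s heΩ
  by_cases hb : Inn h Pr s true ∧ Inn h Pr s false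
  · -- the face is protected
    have hu : ¬ Unp M Pr k := fun hu => not_both hΩ hu hx (near_of_PB (by norm_num) hxs) hb
    unfold Unp at hu
    push Not at hu
    obtain ⟨i, hi, hki⟩ := hu
    have heq : ∀ y ∈ E.seg e, h2.toFun y = h.toFun y := fun y hy =>
      prot_of O H hΩ hΛ hi (hki (he hy))
    refine ⟨⟨fun y hy l l' h1 h3 => ?_, fun y hy l h1 => ?_⟩, le_of_eq ?_⟩
    · rw [heq y hy] at h1 h3
      exact Q.off y hy l l' h1 h3
    · rw [heq y hy] at h1
      have h3 := Q.cross y hy l h1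
      refine h3.congr_nhds (by rw [heq y hy]) (Filter.Eventually.of_forall fun z hz => ?_)
      rw [heq z hz]
    · congr 1
      ext y
      exact and_congr_right fun hy => by rw [heq y hy]
  · set c : Gam K h Pr := ⟨s, hb⟩ with hc
    have hcs : c.1 = s := rfl
    obtain ⟨e1, e2, e3, e4, -⟩ := plc_dir (G := G) (L := L) c
    have hd : ∀ d, d ≠ c → mFam M E (Sum.inr (Sum.inr e)) ∩ (plc G L h Pr d).U h ⊆
        (plc G L h Pr d).B h := by
      rintro d hd z ⟨hz, hzU⟩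
      exfalso
      have hz' : z ∈ M.F k := he hz
      have h1 := plc_box d ((plc_ok H d).mem_U.1 hzU).2
      exact hd (Subtype.ext (PB_eq (G := G) (by norm_num) (by norm_num) h1
        ((H.near hk hx hx34 hz').2.2 hxs)))
    have cross2 : ∀ y ∈ E.seg e, ∀ l, h2.toFun y l ∈ lvs L s l →
        Crosses (E.seg e) (fun y => h2.toFun y l) y := by
      intro y hy l hl
      rw [mem_lvs] at hl
      rcases t_cases hl.1 with rfl | rfl
      · have := O.crossi c (Sum.inr (Sum.inr e)) hd y hy (heΩ hy) (by rw [e1, e3]; exact hl.2)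
        rw [e1] at this
        exact this
      · have := O.crossj c (Sum.inr (Sum.inr e)) hd y hy (heΩ hy) (by rw [e2, e4]; exact hl.2)
        rw [e2] at this
        exact this
    have hP : {x | x ∈ E.seg e ∧ ∃ l, h.toFun x l ∈ lvs L s l}.Finite :=
      (Q.edgeIn (h.injOn.mono heΩ) (h.cont.mono heΩ)
        (h.conical.mono ((convex_segment _ _).conicalSet) heΩ)).1
    have hoff1 : ∀ y ∈ mFam M E (Sum.inr (Sum.inr e)),
        h.toFun y (plc G L h Pr c).i ∈ (plc G L h Pr c).a →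
        h.toFun y (plc G L h Pr c).j ∉ (plc G L h Pr c).b := by
      intro y hy h1 h3
      rw [e1, e3] at h1
      rw [e2, e4] at h3
      exact t1_ne_t2 _ (Q.off y hy _ _ (mem_lvs.2 ⟨t1_ne _, h1⟩) (mem_lvs.2 ⟨t2_ne _, h3⟩))
    have hPe := pts_eq (G := G) (L := L) c h.toFun (E.seg e)
    rw [hcs] at hPe
    obtain ⟨k0, k1, k2, k3⟩ := O.count c (Sum.inr (Sum.inr e)) hd heΩ hoff1
      (hP.subset (by rw [hPe]; exact subset_union_left))
      (hP.subset (by rw [hPe]; exact subset_union_right))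
    have hPe2 := pts_eq (G := G) (L := L) c h2.toFun (E.seg e)
    rw [hcs] at hPe2
    have dis : ∀ w : V → V, (∀ y ∈ E.seg e, w y (plc G L h Pr c).i ∈ (plc G L h Pr c).a →
        w y (plc G L h Pr c).j ∉ (plc G L h Pr c).b) →
        Disjoint (ptsI w (plc G L h Pr c) (E.seg e)) (ptsJ w (plc G L h Pr c) (E.seg e)) := by
      intro w hw
      rw [Set.disjoint_left]
      rintro y ⟨hy, h1⟩ ⟨-, h3⟩
      exact hw y hy h1 h3
    refine ⟨⟨fun y hy l l' h1 h3 => ?_, cross2⟩, ?_⟩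
    · rw [mem_lvs] at h1 h3
      have key : h2.toFun y (t1 (K.nrm s)) ∈ L s (t1 (K.nrm s)) →
          h2.toFun y (t2 (K.nrm s)) ∈ L s (t2 (K.nrm s)) → False := fun j1 j2 =>
        k0 y hy (by rw [e1, e3]; exact j1) (by rw [e2, e4]; exact j2)
      rcases t_cases h1.1 with rfl | rfl <;> rcases t_cases h3.1 with h4 | h4
      · exact h4.symm
      · rw [h4] at h3
        exact (key h1.2 h3.2).elim
      · rw [h4] at h3
        exact (key h3.2 h1.2).elim
      · exact h4.symm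
    · rw [hPe, hPe2, ncard_union_eq (dis _ k0) k1 k2,
        ncard_union_eq (dis _ hoff1) (hP.subset (by rw [hPe]; exact subset_union_left))
          (hP.subset (by rw [hPe]; exact subset_union_right))]
      exact k3

end

end Vale.Agent.P073.H805
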