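import Vale.Agent.P073.H805.FB

/-!
# P073, H805: the exchange function and its regularity
-/

open Set Metric Topology Filter

namespace P073.H805

open P073 P073.TR

variable {E : Type*} [NormedAddCommGroup E] [NormedSpace ℝ E] {ι : Type*}

/-- the exchange function -/
def xf (η K ε M δ a b c : ℝ) : ℝ := min a (max (-η) (max (-(K * (b + ε))) (-(M * (c + δ)))))

section real

variable {η K ε M δ a b c : ℝ}

theorem xf_le : xf η K ε M δ a b c ≤ a := min_le_left _ _

theorem min_le_xf : min a (-η) ≤ xf η K ε M δ a b c :=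
  min_le_min le_rfl (le_max_left _ _)

theorem xf_eq_of (h : a ≤ -η ∨ a ≤ -(K * (b + ε)) ∨ a ≤ -(M * (c + δ))) :
    xf η K ε M δ a b c = a := by
  apply min_eq_left
  rcases h with h | h | h
  · exact h.trans (le_max_left _ _)
  · exact h.trans ((le_max_left _ _).trans (le_max_right _ _))
  · exact h.trans ((le_max_right _ _).trans (le_max_right _ _))

theorem neg_mul_nonneg_iff {K t : ℝ} (hK : 0 < K) : 0 ≤ -(K * t) ↔ t ≤ 0 := by
  constructor
  · intro h; by_contra hc; push Not at hc; have := mul_pos hK hc; linarith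
  · intro h; have := mul_nonneg hK.le (neg_nonneg.2 h); linarith

theorem neg_mul_nonpos_iff {K t : ℝ} (hK : 0 < K) : -(K * t) ≤ 0 ↔ 0 ≤ t := by
  constructor
  · intro h; by_contra hc; push Not at hc; have := mul_pos hK (neg_pos.2 hc); linarith
  · intro h; have := mul_nonneg hK.le h; linarith

theorem neg_mul_eq_zero_iff {K t : ℝ} (hK : 0 < K) : -(K * t) = 0 ↔ t = 0 := by
  constructor
  · intro h
    exact le_antisymm ((neg_mul_nonneg_iff hK).1 h.ge) ((neg_mul_nonpos_iff hK).1 h.le)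
  · rintro rfl; simp

theorem neg_mul_pos_iff {K t : ℝ} (hK : 0 < K) : 0 < -(K * t) ↔ t < 0 := by
  rw [← not_le, neg_mul_nonpos_iff hK, not_le]

theorem neg_mul_neg_iff {K t : ℝ} (hK : 0 < K) : -(K * t) < 0 ↔ 0 < t := by
  rw [← not_le, neg_mul_nonneg_iff hK, not_le]

theorem xf_neg_iff (hη : 0 < η) (hK : 0 < K) (hM : 0 < M) :
    xf η K ε M δ a b c < 0 ↔ a < 0 ∨ (-ε < b ∧ -δ < c) := by
  unfold xf
  rw [min_lt_iff, max_lt_iff, max_lt_iff, neg_mul_neg_iff hK, neg_mul_neg_iff hM]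
  constructor
  · rintro (h | ⟨-, h1, h2⟩)
    · exact Or.inl h
    · exact Or.inr ⟨by linarith, by linarith⟩
  · rintro (h | ⟨h1, h2⟩)
    · exact Or.inl h
    · exact Or.inr ⟨by linarith, by linarith, by linarith⟩

theorem xf_pos_iff (hη : 0 < η) (hK : 0 < K) (hM : 0 < M) :
    0 < xf η K ε M δ a b c ↔ 0 < a ∧ (b < -ε ∨ c < -δ) := by
  unfold xf
  rw [lt_min_iff, lt_max_iff, lt_max_iff, neg_mul_pos_iff hK, neg_mul_pos_iff hM]
  constructor
  · rintro ⟨h, h1 | h1 | h1⟩
    · linarith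
    · exact ⟨h, Or.inl (by linarith)⟩
    · exact ⟨h, Or.inr (by linarith)⟩
  · rintro ⟨h, h1 | h1⟩
    · exact ⟨h, Or.inr (Or.inl (by linarith))⟩
    · exact ⟨h, Or.inr (Or.inr (by linarith))⟩

theorem xf_eq_zero_iff (hη : 0 < η) (hK : 0 < K) (hM : 0 < M) :
    xf η K ε M δ a b c = 0 ↔ (a = 0 ∧ (b ≤ -ε ∨ c ≤ -δ)) ∨ (0 ≤ a ∧ b = -ε ∧ -δ ≤ c) ∨
      (0 ≤ a ∧ -ε ≤ b ∧ c = -δ) := by
  have h1 := xf_neg_iff (ε := ε) (δ := δ) (a := a) (b := b) (c := c) hη hK hM
  have h2 := xf_pos_iff (ε := ε) (δ := δ) (a := a) (b := b) (c := c) hη hK hM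
  constructor
  · intro h
    have n1 : ¬ (a < 0 ∨ (-ε < b ∧ -δ < c)) := fun hh => by
      have := h1.2 hh; rw [h] at this; exact lt_irrefl _ this
    have n2 : ¬ (0 < a ∧ (b < -ε ∨ c < -δ)) := fun hh => by
      have := h2.2 hh; rw [h] at this; exact lt_irrefl _ this
    push Not at n1 n2
    obtain ⟨n1a, n1b⟩ := n1
    rcases eq_or_lt_of_le n1a with ha | ha
    · left
      refine ⟨ha.symm, ?_⟩
      rcases le_or_gt b (-ε) with hb | hb
      · exact Or.inl hb
      · exact Or.inr (n1b hb)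
    · obtain ⟨n2a, n2b⟩ := n2 ha
      right
      rcases eq_or_lt_of_le n2a with hb | hb
      · exact Or.inl ⟨n1a, hb.symm, n2b⟩
      · exact Or.inr ⟨n1a, n2a, le_antisymm (n1b hb) n2b⟩
  · intro h
    have n1 : ¬ (a < 0 ∨ (-ε < b ∧ -δ < c)) := by
      rintro (hh | ⟨hh1, hh2⟩)
      · rcases h with ⟨h, -⟩ | ⟨h, -⟩ | ⟨h, -⟩ <;> linarith
      · rcases h with ⟨-, h | h⟩ | ⟨-, h, -⟩ | ⟨-, -, h⟩ <;> linarith
    have n2 : ¬ (0 < a ∧ (b < -ε ∨ c < -δ)) := by
      rintro ⟨hh, hh1 | hh1⟩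
      · rcases h with ⟨h, -⟩ | ⟨-, h, -⟩ | ⟨-, h, -⟩ <;> linarith
      · rcases h with ⟨h, -⟩ | ⟨-, -, h⟩ | ⟨-, -, h⟩ <;> linarith
    exact le_antisymm (not_lt.1 fun hh => n2 (h2.1 hh)) (not_lt.1 fun hh => n1 (h1.1 hh))

end real

theorem Reg.swap {F G : Type*} [NormedAddCommGroup F] [NormedSpace ℝ F] [NormedAddCommGroup G]
    [NormedSpace ℝ G] [FiniteDimensional ℝ F] [FiniteDimensional ℝ G] {u : E → F} {v : E → G}
    {M : ι → Set E} {x : E}
    (h : Reg (fun y => (u y, v y)) M x) (hu : ContinuousAt u x) (hv : ContinuousAt v x) :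
    Reg (fun y => (v y, u y)) M x :=
  h.comp (hu.prodMk hv) (g := fun z : F × G => (z.2, z.1))
    ((LinearMap.snd ℝ G F).prod (LinearMap.fst ℝ G F)) one_pos (fun y s _ _ => by
      apply Prod.ext <;> simp)

theorem Reg.swap₁₂ {u v f : E → ℝ} {M : ι → Set E} {x : E}
    (h : Reg (fun y => ((u y, v y), f y)) M x) (hu : ContinuousAt u x) (hv : ContinuousAt v x)
    (hf : ContinuousAt f x) : Reg (fun y => ((v y, u y), f y)) M x :=
  h.comp ((hu.prodMk hv).prodMk hf) (g := fun z : (ℝ × ℝ) × ℝ => ((z.1.2, z.1.1), z.2))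
    (((LinearMap.snd ℝ ℝ ℝ ∘ₗ LinearMap.fst ℝ (ℝ × ℝ) ℝ).prod
      (LinearMap.fst ℝ ℝ ℝ ∘ₗ LinearMap.fst ℝ (ℝ × ℝ) ℝ)).prod
      (LinearMap.snd ℝ (ℝ × ℝ) ℝ)) one_pos (fun y s _ _ => by
        apply Prod.ext
        · apply Prod.ext <;> simp
        · simp)

theorem Reg.fst {F G : Type*} [NormedAddCommGroup F] [NormedSpace ℝ F] [NormedAddCommGroup G]
    [NormedSpace ℝ G] [FiniteDimensional ℝ F] {u : E → F} {v : E → G}
    {M : ι → Set E} {x : E}
    (h : Reg (fun y => (u y, v y)) M x) (hu : ContinuousAt u x) (hv : ContinuousAt v x) :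
    Reg u M x :=
  h.comp (hu.prodMk hv) (g := fun z : F × G => z.1)
    (LinearMap.inl ℝ F G) one_pos (fun y s _ _ => by simp)

theorem Reg.snd {F G : Type*} [NormedAddCommGroup F] [NormedSpace ℝ F] [NormedAddCommGroup G]
    [NormedSpace ℝ G] [FiniteDimensional ℝ G] {u : E → F} {v : E → G}
    {M : ι → Set E} {x : E}
    (h : Reg (fun y => (u y, v y)) M x) (hu : ContinuousAt u x) (hv : ContinuousAt v x) :
    Reg v M x :=
  h.comp (hu.prodMk hv) (g := fun z : F × G => z.2)
    (LinearMap.inr ℝ F G) one_pos (fun y s _ _ => by simp)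

theorem sc_add {M : ℝ} (hM : M ≠ 0) (t s δ : ℝ) :
    -(M * (t + -(1 / M) * s + δ)) = -(M * (t + δ)) + s := by
  field_simp
  ring

/-- scaling -/
theorem Reg.smul_add {v : E → ℝ} {M : ι → Set E} {x : E} (h : Reg v M x)
    (hv : ContinuousAt v x) {K : ℝ} (hK : K ≠ 0) (ε : ℝ) : Reg (fun y => -(K * (v y + ε))) M x :=
  h.comp hv (g := fun z : ℝ => -(K * (z + ε))) ((-(1 / K)) • LinearMap.id) one_pos
    (fun y s _ _ => by
      simp only [LinearMap.smul_apply, LinearMap.id_apply, smul_eq_mul]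
      field_simp
      ring)

omit [NormedSpace ℝ E] in
theorem cont_neg_mul {v : E → ℝ} {x : E} (hv : ContinuousAt v x) (K ε : ℝ) :
    ContinuousAt (fun y => -(K * (v y + ε))) x :=
  (continuousAt_const.mul (hv.add continuousAt_const)).neg

/-- **regularity of the exchange function at its zeros** -/
theorem reg_xf {η K ε M δ : ℝ} (hη : 0 < η) (hK : 0 < K) (hM : 0 < M) {u v f : E → ℝ}
    {F : ι → Set E} {x : E} (hu : ContinuousAt u x) (hv : ContinuousAt v x)
    (hf : ContinuousAt f x) (h0 : xf η K ε M δ (u x) (v x) (f x) = 0)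
    (H1 : u x = 0 → Reg u F x) (H2 : v x = -ε → Reg v F x) (H3 : f x = -δ → Reg f F x)
    (H12 : u x = 0 → v x = -ε → Reg (fun y => (u y, v y)) F x)
    (H13 : u x = 0 → f x = -δ → Reg (fun y => (u y, f y)) F x)
    (H23 : v x = -ε → f x = -δ → Reg (fun y => (v y, f y)) F x)
    (H123 : u x = 0 → v x = -ε → f x = -δ → Reg (fun y => ((u y, v y), f y)) F x) :
    Reg (fun y => xf η K ε M δ (u y) (v y) (f y)) F x := by
  have cB := cont_neg_mul hv K ε
  have cC := cont_neg_mul hf M δ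
  have cm : ContinuousAt (fun y => max (-η) (max (-(K * (v y + ε))) (-(M * (f y + δ))))) x :=
    continuousAt_const.max (cB.max cC)
  have hBK : ∀ t : ℝ, -(K * (t + ε)) = 0 ↔ t = -ε := fun t => by
    rw [neg_mul_eq_zero_iff hK]; constructor <;> intro h <;> linarith
  have hCM : ∀ t : ℝ, -(M * (t + δ)) = 0 ↔ t = -δ := fun t => by
    rw [neg_mul_eq_zero_iff hM]; constructor <;> intro h <;> linarith
  set A := u x with hA
  set B := -(K * (v x + ε)) with hB
  set C := -(M * (f x + δ)) with hC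
  have h0' : min A (max (-η) (max B C)) = 0 := h0
  have hA0 : 0 ≤ A := by rw [← h0']; exact min_le_left _ _
  have hm0 : 0 ≤ max B C := by
    have h1 : 0 ≤ max (-η) (max B C) := by rw [← h0']; exact min_le_right _ _
    rcases le_max_iff.1 h1 with h | h
    · linarith
    · exact h
  rcases eq_or_lt_of_le hm0 with hm | hm
  swap
  · -- m > 0, hence A = 0
    have hA1 : A = 0 := by
      rcases min_choice A (max (-η) (max B C)) with h | h
      · rw [← h, h0']
      · rw [h0'] at h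
        have : max B C ≤ max (-η) (max B C) := le_max_right _ _
        linarith
    have hlt : u x < max (-η) (max (-(K * (v x + ε))) (-(M * (f x + δ)))) := by
      rw [← hA, hA1]
      exact lt_of_lt_of_le hm (le_max_right _ _)
    refine (H1 hA1).congr_fun ?_
    filter_upwards [hu.eventually_lt cm hlt] with y hy
    exact min_eq_left hy.le
  -- m = 0
  have hev : ∀ᶠ y in 𝓝 x, -η < max (-(K * (v y + ε))) (-(M * (f y + δ))) := by
    have : ContinuousAt (fun y => max (-(K * (v y + ε))) (-(M * (f y + δ)))) x := cB.max cC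
    exact this.eventually_const_lt (by show -η < max B C; rw [← hm]; linarith)
  rcases lt_trichotomy B C with hBC | hBC | hBC
  · -- C = 0, B < 0
    have hC0 : C = 0 := by rw [hm, max_eq_right hBC.le]
    have hfx : f x = -δ := (hCM _).1 hC0
    have hev2 : ∀ᶠ y in 𝓝 x, -(K * (v y + ε)) < -(M * (f y + δ)) := cB.eventually_lt cC hBC
    rcases eq_or_lt_of_le hA0 with hA1 | hA1
    · -- A = 0
      have h13 := H13 hA1.symm hfx
      have := h13.comp (hu.prodMk hf) (g := fun z : ℝ × ℝ => min z.1 (-(M * (z.2 + δ))))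
        (LinearMap.id.prod ((-(1 / M)) • LinearMap.id)) one_pos (fun y s _ _ => by
          show min (y.1 + s) (-(M * (y.2 + -(1 / M) * s + δ))) = min y.1 (-(M * (y.2 + δ))) + s
          rw [sc_add hM.ne', ← min_add_add_right])
      refine this.congr_fun ?_
      filter_upwards [hev, hev2] with y h1 h2
      rw [max_eq_right h2.le] at h1
      simp only [xf]
      rw [max_eq_right h2.le, max_eq_right h1.le]
    · have h3 := (H3 hfx).smul_add hf hM.ne' δ
      refine h3.congr_fun ?_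
      have hev3 : ∀ᶠ y in 𝓝 x, -(M * (f y + δ)) < u y := cC.eventually_lt hu (by
        show C < A; rw [hC0]; exact hA1)
      filter_upwards [hev, hev2, hev3] with y h1 h2 h3
      rw [max_eq_right h2.le] at h1
      simp only [xf]
      rw [max_eq_right h2.le, max_eq_right h1.le, min_eq_right h3.le]
  · -- B = C = 0
    have hC0 : C = 0 := by rw [hm, hBC, max_self]
    have hB0 : B = 0 := by rw [hBC, hC0]
    have hfx : f x = -δ := (hCM _).1 hC0
    have hvx : v x = -ε := (hBK _).1 hB0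
    rcases eq_or_lt_of_le hA0 with hA1 | hA1
    · have h123 := H123 hA1.symm hvx hfx
      have := h123.comp ((hu.prodMk hv).prodMk hf)
        (g := fun z : (ℝ × ℝ) × ℝ => min z.1.1 (max (-(K * (z.1.2 + ε))) (-(M * (z.2 + δ)))))
        ((LinearMap.id.prod ((-(1 / K)) • LinearMap.id)).prod ((-(1 / M)) • LinearMap.id)) one_pos
        (fun y s _ _ => by
          show min (y.1.1 + s) (max (-(K * (y.1.2 + -(1 / K) * s + ε)))
            (-(M * (y.2 + -(1 / M) * s + δ)))) =
            min y.1.1 (max (-(K * (y.1.2 + ε))) (-(M * (y.2 + δ)))) + s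
          rw [sc_add hM.ne', sc_add hK.ne', ← min_add_add_right, ← max_add_add_right])
      refine this.congr_fun ?_
      filter_upwards [hev] with y h1
      simp only [xf]
      rw [max_eq_right h1.le]
    · have h23 := H23 hvx hfx
      have := h23.comp (hv.prodMk hf)
        (g := fun z : ℝ × ℝ => max (-(K * (z.1 + ε))) (-(M * (z.2 + δ))))
        (((-(1 / K)) • LinearMap.id).prod ((-(1 / M)) • LinearMap.id)) one_pos
        (fun y s _ _ => by
          show max (-(K * (y.1 + -(1 / K) * s + ε))) (-(M * (y.2 + -(1 / M) * s + δ))) =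
            max (-(K * (y.1 + ε))) (-(M * (y.2 + δ))) + s
          rw [sc_add hM.ne', sc_add hK.ne', ← max_add_add_right])
      refine this.congr_fun ?_
      have hev3 : ∀ᶠ y in 𝓝 x, max (-(K * (v y + ε))) (-(M * (f y + δ))) < u y :=
        (cB.max cC).eventually_lt hu (by show max B C < A; rw [← hm]; exact hA1)
      filter_upwards [hev, hev3] with y h1 h3
      simp only [xf]
      rw [max_eq_right h1.le, min_eq_right h3.le]
  · -- B = 0, C < 0
    have hB0 : B = 0 := by rw [hm, max_eq_left hBC.le]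
    have hvx : v x = -ε := (hBK _).1 hB0
    have hev2 : ∀ᶠ y in 𝓝 x, -(M * (f y + δ)) < -(K * (v y + ε)) := cC.eventually_lt cB hBC
    rcases eq_or_lt_of_le hA0 with hA1 | hA1
    · have h12 := H12 hA1.symm hvx
      have := h12.comp (hu.prodMk hv) (g := fun z : ℝ × ℝ => min z.1 (-(K * (z.2 + ε))))
        (LinearMap.id.prod ((-(1 / K)) • LinearMap.id)) one_pos (fun y s _ _ => by
          show min (y.1 + s) (-(K * (y.2 + -(1 / K) * s + ε))) = min y.1 (-(K * (y.2 + ε))) + s
          rw [sc_add hK.ne', ← min_add_add_right])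
      refine this.congr_fun ?_
      filter_upwards [hev, hev2] with y h1 h2
      rw [max_eq_left h2.le] at h1
      simp only [xf]
      rw [max_eq_left h2.le, max_eq_right h1.le]
    · have h3 := (H2 hvx).smul_add hv hK.ne' ε
      refine h3.congr_fun ?_
      have hev3 : ∀ᶠ y in 𝓝 x, -(K * (v y + ε)) < u y := cB.eventually_lt hu (by
        show B < A; rw [hB0]; exact hA1)
      filter_upwards [hev, hev2, hev3] with y h1 h2 h3
      rw [max_eq_left h2.le] at h1
      simp only [xf]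
      rw [max_eq_left h2.le, max_eq_right h1.le, min_eq_right h3.le]

/-- common zeros of the two exchange functions -/
theorem xf_both_zero_iff {η K ε M δ a b c : ℝ} (hη : 0 < η) (hK : 0 < K) (hM : 0 < M)
    (hε : 0 < ε) (hδ : 0 < δ) :
    (xf η K ε M δ a b c = 0 ∧ xf η K ε M (2 * δ) b a c = 0) ↔
      (a = 0 ∧ b = 0 ∧ c ≤ -(2 * δ)) ∨ (a = 0 ∧ 0 ≤ b ∧ c = -(2 * δ)) := by
  rw [xf_eq_zero_iff hη hK hM, xf_eq_zero_iff hη hK hM]
  constructor
  · rintro ⟨⟨h1, h2⟩ | ⟨h1, h2, h3⟩ | ⟨h1, h2, h3⟩, ⟨g1, g2⟩ | ⟨g1, g2, g3⟩ | ⟨g1, g2, g3⟩⟩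
    · left
      refine ⟨h1, g1, ?_⟩
      rcases g2 with g2 | g2
      · linarith
      · exact g2
    · linarith
    · right; exact ⟨h1, g1, g3⟩
    · linarith
    · linarith
    · linarith
    · rcases g2 with g2 | g2 <;> linarith
    · linarith
    · linarith
  · rintro (⟨h1, h2, h3⟩ | ⟨h1, h2, h3⟩)
    · exact ⟨Or.inl ⟨h1, Or.inr (by linarith)⟩, Or.inl ⟨h2, Or.inr h3⟩⟩
    · refine ⟨Or.inl ⟨h1, Or.inr (by linarith)⟩, Or.inr (Or.inr ⟨h2, by linarith, h3⟩)⟩

/-- regularity of the pair at common zeros -/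
theorem reg_xf_pair {η K ε M δ : ℝ} (hη : 0 < η) (hK : 0 < K) (hM : 0 < M) (hε : 0 < ε)
    (hδ : 0 < δ) {u v f : E → ℝ}
    {F : ι → Set E} {x : E} (hu : ContinuousAt u x) (hv : ContinuousAt v x)
    (hf : ContinuousAt f x) (h0 : xf η K ε M δ (u x) (v x) (f x) = 0)
    (h0' : xf η K ε M (2 * δ) (v x) (u x) (f x) = 0)
    (H12 : u x = 0 → v x = 0 → Reg (fun y => (u y, v y)) F x)
    (H13 : u x = 0 → f x = -(2 * δ) → Reg (fun y => (u y, f y)) F x)
    (H123 : u x = 0 → v x = 0 → f x = -(2 * δ) → Reg (fun y => ((u y, v y), f y)) F x) :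
    Reg (fun y => (xf η K ε M δ (u y) (v y) (f y), xf η K ε M (2 * δ) (v y) (u y) (f y))) F x := by
  -- near x the first function is u
  have cC1 := cont_neg_mul hf M δ
  have cC2 := cont_neg_mul hf M (2 * δ)
  have cB2 := cont_neg_mul hu K ε
  have hcase := (xf_both_zero_iff hη hK hM hε hδ).1 ⟨h0, h0'⟩
  have hu0 : u x = 0 := by rcases hcase with h | h <;> exact h.1
  have hf0 : f x ≤ -(2 * δ) := by
    rcases hcase with h | h
    · exact h.2.2
    · exact h.2.2.le
  have e1 : ∀ᶠ y in 𝓝 x, xf η K ε M δ (u y) (v y) (f y) = u y := by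
    have hlt : u x < -(M * (f x + δ)) := by
      rw [hu0, neg_mul_pos_iff hM]; linarith
    filter_upwards [hu.eventually_lt cC1 hlt] with y hy
    exact xf_eq_of (Or.inr (Or.inr hy.le))
  rcases eq_or_lt_of_le hf0 with hf1 | hf1
  · -- f x = -2δ
    have hv0 : 0 ≤ v x := by
      rcases hcase with h | h
      · exact h.2.1.ge
      · exact h.2.1
    -- near x the lower bound is -(M (f + 2δ))
    have e2 : ∀ᶠ y in 𝓝 x, xf η K ε M (2 * δ) (v y) (u y) (f y) =
        min (v y) (-(M * (f y + 2 * δ))) := by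
      have g1 : ∀ᶠ y in 𝓝 x, -η < -(M * (f y + 2 * δ)) := cC2.eventually_const_lt (by
        show -η < -(M * (f x + 2 * δ))
        rw [hf1]; simp only [neg_add_cancel, mul_zero, neg_zero]; linarith)
      have g2 : ∀ᶠ y in 𝓝 x, -(K * (u y + ε)) < -(M * (f y + 2 * δ)) := by
        refine cB2.eventually_lt cC2 ?_
        show -(K * (u x + ε)) < -(M * (f x + 2 * δ))
        rw [hf1, hu0]
        simp only [neg_add_cancel, mul_zero, neg_zero, zero_add]
        have := mul_pos hK hε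
        linarith
      filter_upwards [g1, g2] with y a1 a2
      unfold xf
      rw [max_eq_right a2.le, max_eq_right a1.le]
    rcases eq_or_lt_of_le hv0 with hv1 | hv1
    · have h123 := H123 hu0 hv1.symm hf1
      have := h123.comp ((hu.prodMk hv).prodMk hf)
        (g := fun z : (ℝ × ℝ) × ℝ => (z.1.1, min z.1.2 (-(M * (z.2 + 2 * δ)))))
        (((LinearMap.fst ℝ ℝ ℝ).prod (LinearMap.snd ℝ ℝ ℝ)).prod
          ((-(1 / M)) • LinearMap.snd ℝ ℝ ℝ)) one_pos
        (fun y s _ _ => by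
          show (y.1.1 + s.1, min (y.1.2 + s.2) (-(M * (y.2 + -(1 / M) * s.2 + 2 * δ)))) =
            (y.1.1 + s.1, min y.1.2 (-(M * (y.2 + 2 * δ))) + s.2)
          rw [sc_add hM.ne', ← min_add_add_right])
      refine this.congr_fun ?_
      filter_upwards [e1, e2] with y a1 a2
      rw [a1, a2]
    · have h13 := H13 hu0 hf1
      have := h13.comp (hu.prodMk hf)
        (g := fun z : ℝ × ℝ => (z.1, -(M * (z.2 + 2 * δ))))
        ((LinearMap.fst ℝ ℝ ℝ).prod ((-(1 / M)) • LinearMap.snd ℝ ℝ ℝ)) one_pos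
        (fun y s _ _ => by
          show (y.1 + s.1, -(M * (y.2 + -(1 / M) * s.2 + 2 * δ))) =
            (y.1 + s.1, -(M * (y.2 + 2 * δ)) + s.2)
          rw [sc_add hM.ne'])
      refine this.congr_fun ?_
      have g3 : ∀ᶠ y in 𝓝 x, -(M * (f y + 2 * δ)) < v y := cC2.eventually_lt hv (by
        show -(M * (f x + 2 * δ)) < v x
        rw [hf1]; simpa using hv1)
      filter_upwards [e1, e2, g3] with y a1 a2 a3
      rw [a1, a2, min_eq_right a3.le]
  · -- f x < -2δ, both unchanged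
    have hv0 : v x = 0 := by
      rcases hcase with h | h
      · exact h.2.1
      · exact absurd h.2.2 hf1.ne
    refine (H12 hu0 hv0).congr_fun ?_
    have hlt : v x < -(M * (f x + 2 * δ)) := by
      rw [hv0, neg_mul_pos_iff hM]; linarith
    filter_upwards [e1, hv.eventually_lt cC2 hlt] with y a1 a2
    rw [a1, xf_eq_of (Or.inr (Or.inr a2.le))]

end P073.H805
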