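import Vale.Agent.P073.H805.Shift
import Vale.Agent.P073.H805.Xf

/-!
# P073, H805: (PAR), a bigon in a plane persists in the parallel planes
-/

set_option linter.unusedSectionVars false

open Set Metric Topology Filter

namespace P073.H805

open P073 P073.TR P073.H936

variable {E : Type*} [NormedAddCommGroup E] [NormedSpace ℝ E] {ι : Type*}

/-- uniform radius of flow boxes on a compact set -/
theorem exists_unif {F : Type*} [NormedAddCommGroup F] [NormedSpace ℝ F] {w : E → F}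
    {M : ι → Set E} {K : Set E} (hK : IsCompact K) (h : ∀ x ∈ K, Reg w M x) :
    ∃ r > 0, ∀ x ∈ K, ∃ σ : F →ₗ[ℝ] E, FlowBox w M x σ r := by
  refine hK.induction_on (p := fun s => ∃ r > 0, ∀ x ∈ s, ∃ σ : F →ₗ[ℝ] E, FlowBox w M x σ r)
    ⟨1, one_pos, fun x hx => absurd hx (notMem_empty x)⟩ ?_ ?_ ?_
  · rintro s t hst ⟨r, hr, H⟩
    exact ⟨r, hr, fun x hx => H x (hst hx)⟩
  · rintro s t ⟨r, hr, H⟩ ⟨r', hr', H'⟩
    refine ⟨min r r', lt_min hr hr', ?_⟩
    rintro x (hx | hx)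
    · obtain ⟨σ, hσ⟩ := H x hx
      exact ⟨σ, hσ.mono (lt_min hr hr') (min_le_left _ _)⟩
    · obtain ⟨σ, hσ⟩ := H' x hx
      exact ⟨σ, hσ.mono (lt_min hr hr') (min_le_right _ _)⟩
  · intro x hx
    obtain ⟨σ, r, hσ⟩ := h x hx
    have hr := hσ.pos
    refine ⟨ball x (r / 2), mem_nhdsWithin_of_mem_nhds (ball_mem_nhds x (half_pos hr)), r / 2,
      half_pos hr, fun y hy => ⟨σ, half_pos hr, fun w s hw hs => ?_, fun i w s hw hs => ?_⟩⟩
    all_goals
      have hy' : ‖y - x‖ < r / 2 := by rwa [← dist_eq_norm]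
      have h1 : ‖y - x + w‖ < r := (norm_add_le _ _).trans_lt (by linarith)
      have h2 : ‖s‖ < r := by linarith
      have e1 : y + w = x + (y - x + w) := by abel
      rw [e1]
    · exact hσ.add _ s h1 h2
    · exact hσ.iff i _ s h1 h2

/-- uniform continuity near a compact subset of the interior -/
theorem exists_unif_cont {N K : Set E} (hK : IsCompact K) (hKN : K ⊆ interior N) {u : E → ℝ}
    (hu : ContinuousOn u N) {e : ℝ} (he : 0 < e) :
    ∃ ρ > 0, ∀ x ∈ K, ∀ z, ‖z - x‖ < ρ → z ∈ interior N ∧ |u z - u x| < e := by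
  refine hK.induction_on (p := fun s => ∃ ρ > 0, ∀ x ∈ s, ∀ z, ‖z - x‖ < ρ →
    z ∈ interior N ∧ |u z - u x| < e) ⟨1, one_pos, fun x hx => absurd hx (notMem_empty x)⟩ ?_ ?_ ?_
  · rintro s t hst ⟨r, hr, H⟩
    exact ⟨r, hr, fun x hx => H x (hst hx)⟩
  · rintro s t ⟨r, hr, H⟩ ⟨r', hr', H'⟩
    refine ⟨min r r', lt_min hr hr', ?_⟩
    rintro x (hx | hx) z hz
    · exact H x hx z (hz.trans_le (min_le_left _ _))
    · exact H' x hx z (hz.trans_le (min_le_right _ _))
  · intro x hx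
    have hxI := hKN hx
    have hc : ContinuousAt u x := (hu.mono interior_subset).continuousAt
      (isOpen_interior.mem_nhds hxI)
    have h1 : ∀ᶠ z in 𝓝 x, z ∈ interior N ∧ |u z - u x| < e / 2 := by
      have h0 : ∀ᶠ z in 𝓝 x, z ∈ interior N := isOpen_interior.mem_nhds hxI
      refine h0.and ?_
      have : ContinuousAt (fun z => |u z - u x|) x := (hc.sub continuousAt_const).abs
      exact this.eventually_lt_const (by simpa using half_pos he)
    obtain ⟨δ, hδ, hb⟩ := Metric.eventually_nhds_iff_ball.1 h1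
    refine ⟨ball x (δ / 2), mem_nhdsWithin_of_mem_nhds (ball_mem_nhds x (half_pos hδ)), δ / 2,
      half_pos hδ, fun y hy z hz => ?_⟩
    have hy' : ‖y - x‖ < δ / 2 := by rwa [← dist_eq_norm]
    have hz' : z ∈ ball x δ := by
      rw [mem_ball, dist_eq_norm]
      calc ‖z - x‖ = ‖(z - y) + (y - x)‖ := by congr 1; abel
        _ < δ := (norm_add_le _ _).trans_lt (by linarith)
    have hyb : y ∈ ball x δ := by rw [mem_ball, dist_eq_norm]; linarith
    refine ⟨(hb z hz').1, ?_⟩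
    have a1 := (hb z hz').2
    have a2 := (hb y hyb).2
    calc |u z - u y| = |(u z - u x) - (u y - u x)| := by congr 1; ring
      _ ≤ |u z - u x| + |u y - u x| := abs_sub _ _
      _ < e := by linarith

/-- flow boxes are tangent to the plane -/
theorem FlowBox.tangent {F : Type*} [NormedAddCommGroup F] [NormedSpace ℝ F]
    [FiniteDimensional ℝ F] {w : E → F}
    {M : ι → Set E} {x : E} {σ : F →ₗ[ℝ] E} {r : ℝ} (h : FlowBox w M x σ r) {L : E →ₗ[ℝ] ℝ}
    {c₀ : ℝ} (hf : ∃ i, ∀ᶠ y in 𝓝 x, (y ∈ M i ↔ L y + c₀ = 0)) (hx : L x + c₀ = 0) (s : F) :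
    L (σ s) = 0 := by
  obtain ⟨i, hi⟩ := hf
  have hσ : Continuous σ := σ.continuous_of_finiteDimensional
  have h1 : ContinuousAt (fun a : ℝ => x + 0 + σ (a • s)) 0 := by
    apply Continuous.continuousAt
    exact continuous_const.add (hσ.comp (continuous_id.smul continuous_const))
  have h2 : Tendsto (fun a : ℝ => x + 0 + σ (a • s)) (𝓝 0) (𝓝 x) := by
    have := h1.tendsto
    simpa using this
  have h3 : ∀ᶠ a : ℝ in 𝓝 0, ‖a • s‖ < r := by
    have : ContinuousAt (fun a : ℝ => ‖a • s‖) 0 := by fun_prop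
    exact this.eventually_lt_const (by simpa using h.pos)
  have h4 : ∀ᶠ a : ℝ in 𝓝[>] 0, (x + 0 + σ (a • s) ∈ M i ↔ L (x + 0 + σ (a • s)) + c₀ = 0) ∧
      ‖a • s‖ < r ∧ 0 < a :=
    ((h2.eventually hi).filter_mono nhdsWithin_le_nhds).and
      ((h3.filter_mono nhdsWithin_le_nhds).and (eventually_mem_nhdsWithin))
  obtain ⟨a, ha1, ha2, ha3⟩ := h4.exists
  have h5 : x ∈ M i := hi.self_of_nhds.2 hx
  have h6 : x + 0 + σ (a • s) ∈ M i :=
    (h.iff i 0 (a • s) (by simpa using h.pos) ha2).2 (by simpa using h5)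
  have h7 := ha1.1 h6
  simp only [add_zero, map_add, map_smul, smul_eq_mul] at h7
  have h8 : a * L (σ s) = 0 := by linarith
  exact (mul_eq_zero.1 h8).resolve_left ha3.ne'

/-- input of (PAR) -/
structure ParIn (O N : Set E) (M : ι → Set E) (u v : E → ℝ) (L : E →ₗ[ℝ] ℝ) (c₀ : ℝ) (n : E) :
    Prop where
  oO : IsOpen O
  cN : IsCompact N
  NO : N ⊆ O
  ucon : ConicalOn u O
  ucont : ContinuousOn u O
  vcon : ConicalOn v O
  vcont : ContinuousOn v O
  hn : L n = 1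
  hZ : ∀ x ∈ N, L x + c₀ = 0 → 0 ≤ u x → 0 ≤ v x → x ∈ interior N
  ru : ∀ x ∈ N, u x = 0 → Reg u M x
  rv : ∀ x ∈ N, v x = 0 → Reg v M x
  ruv : ∀ x ∈ N, u x = 0 → v x = 0 → Reg (fun y => (u y, v y)) M x
  hf : ∀ x ∈ N, L x + c₀ = 0 → ∃ i, ∀ᶠ y in 𝓝 x, (y ∈ M i ↔ L y + c₀ = 0)

/-- the planar region -/
def plC (N : Set E) (u v : E → ℝ) (L : E →ₗ[ℝ] ℝ) (c₀ θ : ℝ) : Set E :=
  {x | x ∈ N ∧ L x + c₀ = 0 ∧ -θ ≤ u x ∧ -θ ≤ v x}

theorem plC_swap (N : Set E) (u v : E → ℝ) (L : E →ₗ[ℝ] ℝ) (c₀ θ : ℝ) :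
    plC N u v L c₀ θ = plC N v u L c₀ θ := by
  ext x; simp only [plC, mem_ofPred_eq]; tauto

namespace ParIn

variable {O N : Set E} {M : ι → Set E} {u v : E → ℝ} {L : E →ₗ[ℝ] ℝ} {c₀ : ℝ} {n : E}

theorem swap (h : ParIn O N M u v L c₀ n) : ParIn O N M v u L c₀ n where
  oO := h.oO
  cN := h.cN
  NO := h.NO
  ucon := h.vcon
  ucont := h.vcont
  vcon := h.ucon
  vcont := h.ucont
  hn := h.hn
  hZ := fun x hx h0 h1 h2 => h.hZ x hx h0 h2 h1
  ru := h.rv
  rv := h.ru
  ruv := fun x hx h1 h2 => (h.ruv x hx h2 h1).swap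
    (h.ucont.continuousAt (h.oO.mem_nhds (h.NO hx)))
    (h.vcont.continuousAt (h.oO.mem_nhds (h.NO hx)))
  hf := h.hf

theorem isCompact_plC [FiniteDimensional ℝ E] (h : ParIn O N M u v L c₀ n) (θ : ℝ) :
    IsCompact (plC N u v L c₀ θ) := by
  have h1 : plC N u v L c₀ θ =
      N ∩ (fun x => (L x + c₀, u x, v x)) ⁻¹' ({0} ×ˢ Ici (-θ) ×ˢ Ici (-θ)) := by
    ext x
    simp only [plC, mem_ofPred_eq, mem_inter_iff, mem_preimage, mem_prod, mem_singleton_iff,
      mem_Ici]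
  rw [h1]
  have hcont : ContinuousOn (fun x => (L x + c₀, u x, v x)) N :=
    (L.continuous_of_finiteDimensional.add continuous_const).continuousOn.prodMk
      ((h.ucont.mono h.NO).prodMk (h.vcont.mono h.NO))
  exact h.cN.of_isClosed_subset (hcont.preimage_isClosed_of_isClosed h.cN.isClosed
    (isClosed_singleton.prod (isClosed_Ici.prod isClosed_Ici))) inter_subset_left

theorem conicalSet_plC (h : ParIn O N M u v L c₀ n) {θ : ℝ}
    (hC : plC N u v L c₀ θ ⊆ interior N) : ConicalSet (plC N u v L c₀ θ) := by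
  have hIO : interior N ⊆ O := interior_subset.trans h.NO
  have hH : ConicalSet {x : E | L x + c₀ = 0} := by
    apply Convex.conicalSet
    intro x hx y hy a b _ _ hab
    simp only [mem_ofPred_eq] at hx hy ⊢
    rw [map_add, map_smul, map_smul, smul_eq_mul, smul_eq_mul]
    have e1 : L x = -c₀ := by linarith
    have e2 : L y = -c₀ := by linarith
    rw [e1, e2]
    have : a * -c₀ + b * -c₀ = -((a + b) * c₀) := by ring
    rw [this, hab]; ring
  have h1 : ConicalSet (interior N ∩ {x : E | L x + c₀ = 0}) :=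
    isOpen_interior.conicalSet.inter hH
  have hu1 : ConicalOn u (interior N ∩ {x : E | L x + c₀ = 0}) :=
    h.ucon.mono h1 (inter_subset_left.trans hIO)
  have h2 := conicalSet_le hu1 (-θ)
  have hv1 : ConicalOn v {x | x ∈ interior N ∩ {x : E | L x + c₀ = 0} ∧ -θ ≤ u x} :=
    h.vcon.mono h2 (fun x hx => hIO hx.1.1)
  have h3 := conicalSet_le hv1 (-θ)
  have he : plC N u v L c₀ θ =
      {x | x ∈ {x | x ∈ interior N ∩ {x : E | L x + c₀ = 0} ∧ -θ ≤ u x} ∧ -θ ≤ v x} := by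
    ext x
    constructor
    · intro hx
      exact ⟨⟨⟨hC hx, hx.2.1⟩, hx.2.2.1⟩, hx.2.2.2⟩
    · rintro ⟨⟨⟨h1, h2⟩, h3⟩, h4⟩
      exact ⟨interior_subset h1, h2, h3, h4⟩
  rw [he]
  exact h3

/-- choice of `θ` -/
theorem exists_theta [FiniteDimensional ℝ E] (h : ParIn O N M u v L c₀ n) :
    ∃ θ > 0, plC N u v L c₀ θ ⊆ interior N ∧
      ∀ x ∈ N, |u x| ≤ θ → |v x| ≤ θ → Reg (fun y => (u y, v y)) M x := by
  have hK : IsCompact (N \ interior N) := h.cN.diff isOpen_interior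
  have cu := h.ucont.mono h.NO
  have cv := h.vcont.mono h.NO
  have cL : Continuous fun x => L x + c₀ := L.continuous_of_finiteDimensional.add continuous_const
  obtain ⟨e, he, huv⟩ := exists_reg_near (u := fun y => (u y, v y)) (M := M) h.cN
    (g := fun x => max |u x| |v x|) (cu.abs.sup cv.abs) (fun x hx h0 => by
      have h1 : |u x| ≤ 0 := h0 ▸ le_max_left _ _
      have h2 : |v x| ≤ 0 := h0 ▸ le_max_right _ _
      exact h.ruv x hx (abs_nonpos_iff.1 h1) (abs_nonpos_iff.1 h2))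
  have huv' : ∀ x ∈ N, |u x| ≤ e → |v x| ≤ e → Reg (fun y => (u y, v y)) M x := fun x hx h1 h2 =>
    huv x hx (by rw [abs_of_nonneg (le_max_of_le_left (abs_nonneg _))]; exact max_le h1 h2)
  by_cases hne : (N \ interior N).Nonempty
  swap
  · refine ⟨e, he, fun x hx => ?_, huv'⟩
    by_contra hx2
    exact hne ⟨x, hx.1, hx2⟩
  have hcont : ContinuousOn (fun x => min (-|L x + c₀|) (min (u x) (v x))) (N \ interior N) :=
    ((cL.abs.neg.continuousOn).inf (cu.inf cv)).mono sdiff_subset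
  obtain ⟨x₀, hx₀, hmax⟩ := hK.exists_isMaxOn hne hcont
  have hneg : min (-|L x₀ + c₀|) (min (u x₀) (v x₀)) < 0 := by
    by_contra hc0
    push Not at hc0
    have a1 : 0 ≤ -|L x₀ + c₀| := hc0.trans (min_le_left _ _)
    exact hx₀.2 (h.hZ x₀ hx₀.1 (abs_nonpos_iff.1 (by linarith))
      (hc0.trans ((min_le_right _ _).trans (min_le_left _ _)))
      (hc0.trans ((min_le_right _ _).trans (min_le_right _ _))))
  set m := min (-|L x₀ + c₀|) (min (u x₀) (v x₀)) with hm
  refine ⟨min (-m / 2) e, lt_min (by linarith) he, fun x hx => ?_, fun x hx h1 h2 =>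
    huv' x hx (h1.trans (min_le_right _ _)) (h2.trans (min_le_right _ _))⟩
  by_contra hx2
  have h1 : min (-|L x + c₀|) (min (u x) (v x)) ≤ m := hmax (⟨hx.1, hx2⟩ : x ∈ N \ interior N)
  have h3 : min (-m / 2) e ≤ -m / 2 := min_le_left _ _
  have h0 : 0 < min (-m / 2) e := lt_min (by linarith) he
  have h2 : -(min (-m / 2) e) ≤ min (-|L x + c₀|) (min (u x) (v x)) :=
    le_min (by rw [hx.2.1, abs_zero]; linarith) (le_min hx.2.2.1 hx.2.2.2)
  linarith

end ParIn

end P073.H805
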