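import Vale.Agent.P073.H805.Par

/-!
# P073, H805: (PAR), one function
-/

set_option linter.unusedSectionVars false

open Set Metric Topology Filter

namespace P073.H805

open P073 P073.TR P073.H936

variable {E : Type*} [NormedAddCommGroup E] [NormedSpace ℝ E] {ι : Type*}

/-- the family of vertical sets -/
def vfam (C : Set E) (u v : E → ℝ) (n : E) (t₀ d : ℝ) : Unit ⊕ (ℝ × ℝ) ⊕ (ℝ × ℝ) ⊕ (ℝ × ℝ) → Set E
  | Sum.inl _ => C
  | Sum.inr (Sum.inl (t, c)) => {y | t ∈ Icc 0 t₀ → u (y - t • n) - u y = c}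
  | Sum.inr (Sum.inr (Sum.inl (t, c))) => {y | t ∈ Icc 0 t₀ → |c| ≤ d → c ≤ v (y - t • n)}
  | Sum.inr (Sum.inr (Sum.inr (t, c))) => {y | t ∈ Icc 0 t₀ → |c| ≤ d → v (y - t • n) = c}

namespace ParIn

variable {O N : Set E} {M : ι → Set E} {u v : E → ℝ} {L : E →ₗ[ℝ] ℝ} {c₀ : ℝ} {n : E}

/-- the flow boxes of the family `vfam` -/
theorem exists_vfam [FiniteDimensional ℝ E] (h : ParIn O N M u v L c₀ n) {θ : ℝ} (hθ : 0 < θ)
    (hC : plC N u v L c₀ θ ⊆ interior N)
    (hθ2 : ∀ x ∈ N, |u x| ≤ θ → |v x| ≤ θ → Reg (fun y => (u y, v y)) M x) :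
    ∃ t₀ > 0, ∃ d > 0, (∀ x ∈ plC N u v L c₀ θ, ∀ t ∈ Icc 0 t₀, x - t • n ∈ interior N) ∧
      ∀ x ∈ lev (plC N u v L c₀ θ) u 0, ∃ (σ : ℝ →ₗ[ℝ] E) (r : ℝ),
        FlowBox u (vfam (plC N u v L c₀ θ) u v n t₀ d) x σ r := by
  have hCc := h.isCompact_plC θ
  set C := plC N u v L c₀ θ with hCdef
  have hCN : C ⊆ N := hC.trans interior_subset
  -- the two compact pieces of the level
  have cu : ContinuousOn u N := h.ucont.mono h.NO
  have cv : ContinuousOn v N := h.vcont.mono h.NO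
  have hK1 : IsCompact {x | x ∈ C ∧ u x = 0 ∧ |v x| ≤ θ} := by
    have : {x | x ∈ C ∧ u x = 0 ∧ |v x| ≤ θ} = C ∩ (fun x => (u x, |v x|)) ⁻¹' ({0} ×ˢ Iic θ) := by
      ext x; simp; tauto
    rw [this]
    have hc : ContinuousOn (fun x => (u x, |v x|)) C := (cu.mono hCN).prodMk (cv.mono hCN).abs
    exact hCc.of_isClosed_subset (hc.preimage_isClosed_of_isClosed hCc.isClosed
      (isClosed_singleton.prod isClosed_Iic)) inter_subset_left
  have hK2 : IsCompact {x | x ∈ C ∧ u x = 0} := by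
    have : {x | x ∈ C ∧ u x = 0} = C ∩ u ⁻¹' {0} := by ext x; simp
    rw [this]
    exact hCc.of_isClosed_subset ((cu.mono hCN).preimage_isClosed_of_isClosed hCc.isClosed
      isClosed_singleton) inter_subset_left
  obtain ⟨r1, hr1, H1⟩ := exists_unif (w := fun y => (u y, v y)) (M := M) hK1 (by
    rintro x ⟨hx, h0, h1⟩
    exact hθ2 x (hCN hx) (by rw [h0, abs_zero]; exact hθ.le) h1)
  obtain ⟨r2, hr2, H2⟩ := exists_unif (w := u) (M := M) hK2 (by
    rintro x ⟨hx, h0⟩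
    exact h.ru x (hCN hx) h0)
  obtain ⟨ρu, hρu, Hu⟩ := exists_unif_cont hCc hC cu (half_pos hθ)
  obtain ⟨ρv, hρv, Hv⟩ := exists_unif_cont hCc hC cv (half_pos hθ)
  -- common radius
  set r := min (min r1 r2) (min ρu ρv) with hr
  have hr0 : 0 < r := lt_min (lt_min hr1 hr2) (lt_min hρu hρv)
  have hrr1 : r ≤ r1 := (min_le_left _ _).trans (min_le_left _ _)
  have hrr2 : r ≤ r2 := (min_le_left _ _).trans (min_le_right _ _)
  have hrρu : r ≤ ρu := (min_le_right _ _).trans (min_le_left _ _)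
  have hrρv : r ≤ ρv := (min_le_right _ _).trans (min_le_right _ _)
  set t₀ := r / (4 * (‖n‖ + 1)) with ht₀
  have hn0 : 0 ≤ ‖n‖ := norm_nonneg n
  have ht0 : 0 < t₀ := by positivity
  have htn : ∀ t ∈ Icc 0 t₀, ‖t • n‖ ≤ r / 4 := by
    intro t ht
    rw [norm_smul, Real.norm_of_nonneg ht.1]
    calc t * ‖n‖ ≤ t₀ * (‖n‖ + 1) := by
          apply mul_le_mul ht.2 (by linarith) hn0 ht0.le
      _ = r / 4 := by rw [ht₀]; field_simp
  refine ⟨t₀, ht0, θ / 4, by linarith, ?_, ?_⟩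
  · intro x hx t ht
    refine (Hu x hx (x - t • n) ?_).1
    have := htn t ht
    have e : x - t • n - x = -(t • n) := by abel
    rw [e, norm_neg]; linarith
  rintro x ⟨hx, hx0⟩
  have hfx := h.hf x (hCN hx) hx.2.1
  -- the direction and its properties
  obtain ⟨σ, ρ, hρ, hρr, hL, hadd, hv⟩ : ∃ (σ : ℝ →ₗ[ℝ] E) (ρ : ℝ), 0 < ρ ∧ ρ ≤ r / 4 ∧
      (∀ s, L (σ s) = 0) ∧
      (∀ w s, ‖w‖ < r → ‖s‖ < ρ → u (x + w + σ s) = u (x + w) + s) ∧
      ((∀ w s, ‖w‖ < r → ‖s‖ < ρ → v (x + w + σ s) = v (x + w)) ∨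
        ((∀ w, ‖w‖ < r → θ / 2 < v (x + w)) ∧ ∀ s, ‖s‖ < ρ → ‖σ s‖ < r / 4)) := by
    by_cases hvx : |v x| ≤ θ
    · obtain ⟨σ, hσ⟩ := H1 x ⟨hx, hx0, hvx⟩
      refine ⟨σ.comp (LinearMap.inl ℝ ℝ ℝ), r / 4, by linarith, le_rfl, fun s => ?_,
        fun w s hw hs => ?_, Or.inl fun w s hw hs => ?_⟩
      · exact FlowBox.tangent hσ hfx hx.2.1 _
      · have := hσ.add w (s, 0) (hw.trans_le hrr1) (by
          rw [Prod.norm_def]; simp only [norm_zero]
          exact max_lt (by linarith) hr1)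
        have h2 := congrArg Prod.fst this
        exact h2
      · have := hσ.add w (s, 0) (hw.trans_le hrr1) (by
          rw [Prod.norm_def]; simp only [norm_zero]
          exact max_lt (by linarith) hr1)
        have h2 := congrArg Prod.snd this
        simp only [Prod.snd_add, add_zero] at h2
        exact h2
    · push Not at hvx
      have hvx' : θ < v x := by
        rcases lt_abs.1 hvx with h1 | h1
        · exact h1
        · have := hx.2.2.2; linarith
      obtain ⟨σ, hσ⟩ := H2 x ⟨hx, hx0⟩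
      have hσc : Continuous σ := σ.continuous_of_finiteDimensional
      have hev : ∀ᶠ s : ℝ in 𝓝 0, ‖σ s‖ < r / 4 := by
        have : ContinuousAt (fun s : ℝ => ‖σ s‖) 0 := by fun_prop
        exact this.eventually_lt_const (by simpa using (by linarith : 0 < r / 4))
      obtain ⟨δ, hδ, hb⟩ := Metric.eventually_nhds_iff_ball.1 hev
      refine ⟨σ, min (r / 4) δ, lt_min (by linarith) hδ, min_le_left _ _, fun s => ?_,
        fun w s hw hs => ?_, Or.inr ⟨fun w hw => ?_, fun s hs => ?_⟩⟩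
      · exact FlowBox.tangent hσ hfx hx.2.1 _
      · have : ‖s‖ < r / 4 := hs.trans_le (min_le_left _ _)
        exact hσ.add w s (hw.trans_le hrr2) (by linarith)
      · have := (Hv x hx (x + w) (by rw [add_sub_cancel_left]; linarith)).2
        have h2 := (abs_lt.1 this).1
        linarith
      · exact hb s (by rw [mem_ball_zero_iff]; exact hs.trans_le (min_le_right _ _))
  have hσc : Continuous σ := σ.continuous_of_finiteDimensional
  have hev : ∀ᶠ s : ℝ in 𝓝 0, ‖σ s‖ < r / 4 := by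
    have : ContinuousAt (fun s : ℝ => ‖σ s‖) 0 := by fun_prop
    exact this.eventually_lt_const (by simpa using (by linarith : 0 < r / 4))
  obtain ⟨δ, hδ, hb⟩ := Metric.eventually_nhds_iff_ball.1 hev
  have hρδ : 0 < min ρ δ := lt_min hρ hδ
  refine ⟨σ, min ρ δ, hρδ, fun w s hw hs => ?_, fun j w s hw hs => ?_⟩
  · have hw' : ‖w‖ < ρ := hw.trans_le (min_le_left _ _)
    exact hadd w s (by linarith) (hs.trans_le (min_le_left _ _))
  have hw1 : ‖w‖ < r / 4 := (hw.trans_le (min_le_left _ _)).trans_le hρr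
  have hs1 : ‖s‖ < ρ := hs.trans_le (min_le_left _ _)
  have hσs : ‖σ s‖ < r / 4 := hb s (by
    rw [mem_ball_zero_iff]; exact hs.trans_le (min_le_right _ _))
  -- shifted points
  have hsh : ∀ t ∈ Icc 0 t₀, ‖w - t • n‖ < r := fun t ht => by
    have := htn t ht
    exact (norm_sub_le _ _).trans_lt (by linarith)
  have hsh' : ∀ t ∈ Icc 0 t₀, ‖w + σ s - t • n‖ < r := fun t ht => by
    have h1 := htn t ht
    have h2 := norm_add_le w (σ s)
    exact (norm_sub_le _ _).trans_lt (by linarith)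
  have e1 : ∀ t : ℝ, x + w + σ s - t • n = x + (w - t • n) + σ s := fun t => by abel
  have e2 : ∀ t : ℝ, x + w - t • n = x + (w - t • n) := fun t => by abel
  have hus : u (x + w + σ s) = u (x + w) + s := hadd w s (by linarith) hs1
  -- the values of `v` at shifted points
  have hvt : ∀ t ∈ Icc 0 t₀, v (x + w + σ s - t • n) = v (x + w - t • n) ∨
      (θ / 2 < v (x + w + σ s - t • n) ∧ θ / 2 < v (x + w - t • n)) := by
    intro t ht
    rcases hv with hv | ⟨hv, -⟩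
    · left
      rw [e1, e2]
      exact hv _ s (hsh t ht) hs1
    · right
      constructor
      · have : x + w + σ s - t • n = x + (w + σ s - t • n) := by abel
        rw [this]; exact hv _ (hsh' t ht)
      · rw [e2]; exact hv _ (hsh t ht)
  rcases j with j | ⟨t, c⟩ | ⟨t, c⟩ | ⟨t, c⟩
  · -- the set C
    show x + w + σ s ∈ C ↔ x + w ∈ C
    have hws : ‖w + σ s‖ < r := (norm_add_le _ _).trans_lt (by linarith)
    have m1 := Hu x hx (x + w) (by rw [add_sub_cancel_left]; linarith)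
    have m2 := Hu x hx (x + w + σ s) (by rw [add_assoc, add_sub_cancel_left]; linarith)
    have u1 := (abs_lt.1 m1.2).1
    have u2 := (abs_lt.1 m2.2).1
    have hL' : L (x + w + σ s) + c₀ = L (x + w) + c₀ := by rw [map_add, hL, add_zero]
    have hv0 := hvt 0 ⟨le_rfl, ht0.le⟩
    simp only [zero_smul, sub_zero] at hv0
    have hvC : -θ ≤ v (x + w + σ s) ↔ -θ ≤ v (x + w) := by
      rcases hv0 with hv0 | ⟨hv0, hv1⟩
      · rw [hv0]
      · exact ⟨fun _ => by linarith, fun _ => by linarith⟩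
    constructor
    · rintro ⟨-, a2, -, a4⟩
      exact ⟨interior_subset m1.1, hL' ▸ a2, by linarith, hvC.1 a4⟩
    · rintro ⟨-, a2, -, a4⟩
      exact ⟨interior_subset m2.1, hL'.symm ▸ a2, by linarith, hvC.2 a4⟩
  · -- differences of u
    show (t ∈ Icc 0 t₀ → u (x + w + σ s - t • n) - u (x + w + σ s) = c) ↔
      (t ∈ Icc 0 t₀ → u (x + w - t • n) - u (x + w) = c)
    refine forall_congr' fun ht => ?_
    rw [e1, e2, hadd _ s (hsh t ht) hs1, hus]
    constructor <;> intro h5 <;> linarith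
  · show (t ∈ Icc 0 t₀ → |c| ≤ θ / 4 → c ≤ v (x + w + σ s - t • n)) ↔
      (t ∈ Icc 0 t₀ → |c| ≤ θ / 4 → c ≤ v (x + w - t • n))
    refine forall_congr' fun ht => forall_congr' fun hc => ?_
    rcases hvt t ht with h5 | ⟨h5, h6⟩
    · rw [h5]
    · have := (abs_le.1 hc).2
      exact ⟨fun _ => by linarith, fun _ => by linarith⟩
  · show (t ∈ Icc 0 t₀ → |c| ≤ θ / 4 → v (x + w + σ s - t • n) = c) ↔
      (t ∈ Icc 0 t₀ → |c| ≤ θ / 4 → v (x + w - t • n) = c)
    refine forall_congr' fun ht => forall_congr' fun hc => ?_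
    rcases hvt t ht with h5 | ⟨h5, h6⟩
    · rw [h5]
    · have := (abs_le.1 hc).2
      exact ⟨fun _ => by linarith, fun _ => by linarith⟩

/-- **one function**: the level `-c` of the shifted function is moved to the zero level, the
levels of the other function (shifted) are preserved -/
theorem exists_one_step [FiniteDimensional ℝ E] (h : ParIn O N M u v L c₀ n) {θ : ℝ} (hθ : 0 < θ)
    (hC : plC N u v L c₀ θ ⊆ interior N)
    (hθ2 : ∀ x ∈ N, |u x| ≤ θ → |v x| ≤ θ → Reg (fun y => (u y, v y)) M x) :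
    ∃ d > 0, (∀ x ∈ plC N u v L c₀ θ, ∀ t ∈ Icc 0 d, x - t • n ∈ interior N) ∧
      ∀ t ∈ Icc 0 d, ∀ c ∈ Icc 0 d, ∃ ρ : ConHomeo (plC N u v L c₀ θ) (plC N u v L c₀ θ),
      (∀ x ∈ plC N u v L c₀ θ, (0 ≤ u (ρ.toFun x) ↔ -c ≤ u (x - t • n)) ∧
        (u (ρ.toFun x) = 0 ↔ u (x - t • n) = -c)) ∧
      ∀ t' ∈ Icc 0 d, ∀ c', |c'| ≤ d → ∀ x ∈ plC N u v L c₀ θ,
        (c' ≤ v (ρ.toFun x - t' • n) ↔ c' ≤ v (x - t' • n)) ∧
        (v (ρ.toFun x - t' • n) = c' ↔ v (x - t' • n) = c') := by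
  obtain ⟨t₀, ht₀, d₀, hd₀, hint, hbox⟩ := h.exists_vfam hθ hC hθ2
  have hCc := h.isCompact_plC θ
  have hCcon := h.conicalSet_plC hC
  set C := plC N u v L c₀ θ with hCdef
  have hCN : C ⊆ N := hC.trans interior_subset
  have hCO : C ⊆ O := hCN.trans h.NO
  have huc : ContinuousOn u C := h.ucont.mono hCO
  have hucon : ConicalOn u C := h.ucon.mono hCcon hCO
  obtain ⟨η₀, c₁, hη₀, -, Hband⟩ := prod_band (M := vfam C u v n t₀ d₀) (W := univ) (t := 0) hCc
    (Sum.inl ()) rfl huc hucon isOpen_univ (subset_univ _) hbox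
  obtain ⟨Γ, hΓ1, -, hΓ3, -, -⟩ := Hband η₀ hη₀ le_rfl
  -- smallness of the differences
  obtain ⟨ρ₁, hρ₁, Hρ⟩ := exists_unif_cont hCc hC (h.ucont.mono h.NO)
    (show 0 < η₀ / 8 by linarith)
  set d := min (min t₀ d₀) (min (ρ₁ / (2 * (‖n‖ + 1))) (η₀ / 8)) with hd
  have hn0 : 0 ≤ ‖n‖ := norm_nonneg n
  have hd0 : 0 < d := lt_min (lt_min ht₀ hd₀) (lt_min (by positivity) (by linarith))
  have hdt : d ≤ t₀ := (min_le_left _ _).trans (min_le_left _ _)
  have hdd : d ≤ d₀ := (min_le_left _ _).trans (min_le_right _ _)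
  have hdρ : d ≤ ρ₁ / (2 * (‖n‖ + 1)) := (min_le_right _ _).trans (min_le_left _ _)
  have hdη : d ≤ η₀ / 8 := (min_le_right _ _).trans (min_le_right _ _)
  refine ⟨d, hd0, fun x hx t ht => hint x hx t ⟨ht.1, ht.2.trans hdt⟩, fun t ht c hc => ?_⟩
  have ht' : t ∈ Icc 0 t₀ := ⟨ht.1, ht.2.trans hdt⟩
  -- the shift function
  set κ : E → ℝ := fun x => u (x - t • n) + c - u x with hκ
  have hmaps : MapsTo (fun x : E => x - t • n) C O := fun x hx =>
    h.NO (interior_subset (hint x hx t ht'))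
  have hκc : ContinuousOn κ C :=
    (((h.ucont.comp (by fun_prop) hmaps)).add continuousOn_const).sub huc
  have hsub : ConicalOn (fun x : E => x - t • n) C :=
    (conicalOn_id hCcon).sub (conicalOn_const _ hCcon)
  have hκcon : ConicalOn κ C := by
    have h1 : ConicalOn (u ∘ fun x : E => x - t • n) C :=
      h.ucon.comp hsub hmaps (by fun_prop)
    exact (h1.add (conicalOn_const c hCcon)).sub hucon
  have hκη : ∀ x ∈ C, |κ x| ≤ η₀ / 4 := by
    intro x hx
    have h1 : ‖x - t • n - x‖ < ρ₁ := by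
      have e : x - t • n - x = -(t • n) := by abel
      rw [e, norm_neg, norm_smul, Real.norm_of_nonneg ht.1]
      have h2 : t ≤ ρ₁ / (2 * (‖n‖ + 1)) := ht.2.trans hdρ
      calc t * ‖n‖ ≤ ρ₁ / (2 * (‖n‖ + 1)) * (‖n‖ + 1) := by
            apply mul_le_mul h2 (by linarith) hn0 (by positivity)
        _ = ρ₁ / 2 := by field_simp
        _ < ρ₁ := by linarith
    have h3 := (Hρ x hx _ h1).2
    have h4 : |c| ≤ η₀ / 8 := by rw [abs_of_nonneg hc.1]; exact hc.2.trans hdη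
    have e : κ x = (u (x - t • n) - u x) + c := by simp only [hκ]; ring
    rw [e]
    exact (abs_add_le _ _).trans (by linarith)
  have hΓκ : ∀ z ∈ lev C u 0, ∀ s ∈ Icc (-1:ℝ) 1, κ (Γ.toFun (z, s)) = κ z := by
    intro z hz s hs
    have h1 := (hΓ3 (Sum.inr (Sum.inl (t, u (z - t • n) - u z))) z hz s hs).2
      (fun _ => rfl)
    have h2 : u (Γ.toFun (z, s) - t • n) - u (Γ.toFun (z, s)) = u (z - t • n) - u z := h1 ht'
    simp only [hκ]
    linarith
  obtain ⟨ρ, hρ1, hρ2⟩ := exists_shift (M := vfam C u v n t₀ d₀) hCc hη₀ huc hucon hκc hκcon hκη Γ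
    (fun z hz s hs => by rw [hΓ1 z hz s hs, zero_add]) hΓκ hΓ3
  refine ⟨ρ, fun x hx => ?_, fun t' ht2 c' hc' x hx => ?_⟩
  · obtain ⟨a1, a2⟩ := hρ1 x hx
    rw [a1, a2]
    simp only [hκ]
    constructor <;> constructor <;> intro h5 <;> linarith
  · have ht3 : t' ∈ Icc 0 t₀ := ⟨ht2.1, ht2.2.trans hdt⟩
    have hc3 : |c'| ≤ d₀ := hc'.trans hdd
    constructor
    · have := hρ2 (Sum.inr (Sum.inr (Sum.inl (t', c')))) x hx
      exact ⟨fun h5 => this.1 (fun _ _ => h5) ht3 hc3, fun h5 => this.2 (fun _ _ => h5) ht3 hc3⟩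
    · have := hρ2 (Sum.inr (Sum.inr (Sum.inr (t', c')))) x hx
      exact ⟨fun h5 => this.1 (fun _ _ => h5) ht3 hc3, fun h5 => this.2 (fun _ _ => h5) ht3 hc3⟩

end ParIn

end P073.H805
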