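import Vale.Agent.P073.H805.Plate

/-!
# P073, H805: **[PLATE-MESH]** (A14.17), the exchange process in the plates of a mesh

`PlateIn`: a mesh, a family of further sets (edges, cells), plates. `plateBox`: the data of
`exists_e3_all` for one plate; `plateBox_ok`.
-/

set_option linter.unusedSectionVars false

open Set Metric Topology Filter

namespace P073.H805

open P073 P073.TR P073.H579

open Vale.Agent.P073.H238 (PFace meshFace mesh_sub)
open Vale.Agent.P073.H73 (Mesh)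

open Vale.Agent.P073.St (V)

variable {Ω Λ : Set V} {Γ γ : Type}

/-- the family of sets: the mesh sets `G`, and the boxes with their boundaries -/
def pFam (h : ConHomeo Ω Λ) (G : Γ → Set V) (P : γ → Plate) : Γ ⊕ (γ × Bool) → Set V :=
  Sum.elim G fun q => bif q.2 then (P q.1).U h else (P q.1).B h

/-- no crossing points of the levels of `P` on `A`, and no circles -/
def Clean (h : V → V) (P : Plate) (A : Set V) : Prop :=
  (∀ x ∈ A, h x P.i ∈ P.a → h x P.j ∉ P.b) ∧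
    ∀ σ : Set V, IsCircle σ → σ ⊆ A → (¬ ∀ x ∈ σ, h x P.i ∈ P.a) ∧ ¬ ∀ x ∈ σ, h x P.j ∈ P.b

/-- **input of [PLATE-MESH]**; `Act` are the faces on which a pattern is wanted -/
structure PlateIn (h : ConHomeo Ω Λ) (M : Mesh Ω) (G : Γ → Set V) (P : γ → Plate)
    (Act : Set M.κ) : Prop where
  ok : ∀ c, (P c).Ok Λ
  lf : ∀ y ∈ Λ, ∃ O ∈ 𝓝 y, {c | (Icc (P c).lo (P c).hi ∩ O).Nonempty}.Finite
  dis : ∀ c d, c ≠ d → Disjoint (interior (Icc (P c).lo (P c).hi)) (Icc (P d).lo (P d).hi)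
  closed : ∀ g, IsClosed (G g)
  cone : ∀ g, ∀ x ∈ Ω, LocConeAt (G g) x
  fin : ∀ x ∈ Ω, ∃ O ∈ 𝓝 x, {g | (G g ∩ O).Nonempty}.Finite
  face : ∀ k, ∃ g, G g = M.F k
  mesh : ∀ k g, M.F k ⊆ G g ∨ Disjoint (intrinsicInterior ℝ (M.F k)) (G g)
  regi : ∀ c, ∀ x ∈ Ω, h.toFun x (P c).i ∈ (P c).a →
    Reg (fun y => h.toFun y (P c).i) (pFam h G P) x
  regj : ∀ c, ∀ x ∈ Ω, h.toFun x (P c).j ∈ (P c).b →
    Reg (fun y => h.toFun y (P c).j) (pFam h G P) x
  regij : ∀ c, ∀ x ∈ Ω, h.toFun x (P c).i ∈ (P c).a → h.toFun x (P c).j ∈ (P c).b →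
    Reg (fun y => (h.toFun y (P c).i, h.toFun y (P c).j)) (pFam h G P) x
  touch : ∀ c, ∀ k ∈ Act, M.F k ⊆ (P c).U h →
    Disjoint (intrinsicInterior ℝ (M.F k)) ((P c).B h) →
    (M.F k ∩ (P c).Y h).Nonempty → Clean h.toFun (P c) (M.F k)

/-- a locally finite family of boxes, in the domain -/
theorem lf_U {h : ConHomeo Ω Λ} (hΩ : IsOpen Ω) {P : γ → Plate} (ok : ∀ c, (P c).Ok Λ)
    (lf : ∀ y ∈ Λ, ∃ O ∈ 𝓝 y, {c | (Icc (P c).lo (P c).hi ∩ O).Nonempty}.Finite) :
    ∀ x ∈ Ω, ∃ O ∈ 𝓝 x, {c | ((P c).U h ∩ O).Nonempty}.Finite := by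
  intro x hx
  obtain ⟨O, hO, hf⟩ := lf _ (h.mapsTo hx)
  have h1 : ContinuousAt h.toFun x := h.cont.continuousAt (hΩ.mem_nhds hx)
  refine ⟨h.toFun ⁻¹' O, h1 hO, hf.subset ?_⟩
  rintro c ⟨y, hy, hyO⟩
  exact ⟨h.toFun y, ((ok c).mem_U.1 hy).2, hyO⟩

/-- finitely many members meet a compact set -/
theorem finite_meet {δ : Type*} {A : δ → Set V} (hA : ∀ x ∈ Ω, ∃ O ∈ 𝓝 x,
    {g | (A g ∩ O).Nonempty}.Finite) {K : Set V} (hK : IsCompact K) (hKΩ : K ⊆ Ω) :
    {g | (A g ∩ K).Nonempty}.Finite := by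
  choose! O hO hf using hA
  obtain ⟨t, htK, ht⟩ := hK.elim_nhds_subcover O fun x hx => hO x (hKΩ hx)
  refine (t.finite_toSet.biUnion fun x hx => hf x (hKΩ (htK x hx))).subset ?_
  rintro g ⟨x, hxg, hxK⟩
  obtain ⟨z, hz, hxz⟩ := mem_iUnion₂.1 (ht hxK)
  exact mem_biUnion (Finset.mem_coe.2 hz) ⟨x, hxg, hxz⟩

namespace PlateIn

variable {h : ConHomeo Ω Λ} {M : Mesh Ω} {G : Γ → Set V} {P : γ → Plate} {Act : Set M.κ}

theorem U_sub (H : PlateIn h M G P Act) (c : γ) : (P c).U h ⊆ Ω := fun _ hx =>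
  ((H.ok c).mem_U.1 hx).1

theorem fam_lf (H : PlateIn h M G P Act) (hΩ : IsOpen Ω) :
    ∀ x ∈ Ω, ∃ O ∈ 𝓝 x, {g | (pFam h G P g ∩ O).Nonempty}.Finite := by
  intro x hx
  obtain ⟨O, hO, hf⟩ := H.fin x hx
  obtain ⟨O', hO', hf'⟩ := lf_U hΩ H.ok H.lf x hx
  refine ⟨O ∩ O', inter_mem hO hO', ((hf.image Sum.inl).union
    ((hf'.prod (finite_univ : (univ : Set Bool).Finite)).image Sum.inr)).subset ?_⟩
  rintro (g | ⟨c, b⟩) ⟨y, hy, hyO, hyO'⟩
  · exact Or.inl ⟨g, ⟨y, hy, hyO⟩, rfl⟩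
  · refine Or.inr ⟨(c, b), ⟨⟨y, ?_, hyO'⟩, mem_univ _⟩, rfl⟩
    cases b
    · exact Plate.B_sub hy
    · exact hy

/-- the members which meet the box -/
abbrev Idx (h : ConHomeo Ω Λ) (G : Γ → Set V) (P : γ → Plate) (c : γ) : Type :=
  {g : Γ ⊕ (γ × Bool) // (pFam h G P g ∩ (P c).U h).Nonempty}

/-- the faces inside the box -/
abbrev Fac (h : ConHomeo Ω Λ) (M : Mesh Ω) (P : γ → Plate) (Act : Set M.κ) (c : γ) : Type :=
  {k : M.κ // (M.F k ⊆ (P c).U h ∧ Disjoint (intrinsicInterior ℝ (M.F k)) ((P c).B h)) ∧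
    k ∈ Act}

theorem finite_idx (H : PlateIn h M G P Act) (hΩ : IsOpen Ω) (c : γ) : Finite (Idx h G P c) :=
  (finite_meet (H.fam_lf hΩ) (H.ok c).isCompact_U (H.U_sub c)).to_subtype

theorem face_nonempty (M : Mesh Ω) (k : M.κ) : (M.F k).Nonempty := by
  obtain ⟨z, hz⟩ := (meshFace M k).int
  exact ⟨_, (meshFace M k).ch_mem (interior_subset hz)⟩

theorem finite_fac (H : PlateIn h M G P Act) (c : γ) : Finite (Fac h M P Act c) := by
  have h1 := M.ffin _ (H.U_sub c) (H.ok c).isCompact_U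
  have h2 : {k | (M.F k ⊆ (P c).U h ∧ Disjoint (intrinsicInterior ℝ (M.F k))
      ((P c).B h)) ∧ k ∈ Act}.Finite := by
    refine h1.subset ?_
    rintro k ⟨⟨hk, -⟩, -⟩
    obtain ⟨x, hx⟩ := face_nonempty M k
    exact ⟨x, hx, hk hx⟩
  exact h2.to_subtype

/-- the family of the box -/
def fm (h : ConHomeo Ω Λ) (G : Γ → Set V) (P : γ → Plate) (c : γ) (g : Idx h G P c) : Set V :=
  pFam h G P g.1

/-- the index of a face in the family -/
noncomputable def gi (H : PlateIn h M G P Act) (c : γ) (k : Fac h M P Act c) : Idx h G P c :=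
  ⟨Sum.inl (H.face k.1).choose, by
    obtain ⟨x, hx⟩ := face_nonempty M k.1
    refine ⟨x, ?_, k.2.1.1 hx⟩
    show x ∈ G _
    rw [(H.face k.1).choose_spec]; exact hx⟩

theorem fm_gi (H : PlateIn h M G P Act) (c : γ) (k : Fac h M P Act c) :
    fm h G P c (H.gi c k) = M.F k.1 := (H.face k.1).choose_spec

/-- the face as a flat face of the data -/
noncomputable def fc (H : PlateIn h M G P Act) (c : γ) (k : Fac h M P Act c) :
    Face (boxData h (fm h G P c) (P c).lo (P c).hi (P c).i (P c).j (P c).a (P c).b) where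
  i₀ := H.gi c k
  o := (meshFace M k.1).o
  L := (meshFace M k.1).L
  C := (meshFace M k.1).C
  inj := (meshFace M k.1).inj
  convex := (meshFace M k.1).convex
  compact := (meshFace M k.1).compact
  cone := (meshFace M k.1).cone
  int := (meshFace M k.1).int
  eq := (H.fm_gi c k).trans (meshFace M k.1).eq
  subU := by
    show fm h G P c (H.gi c k) ⊆ (P c).U h
    rw [H.fm_gi]; exact k.2.1.1
  intB := fun z hz hB => by
    refine Set.disjoint_left.1 k.2.1.2 ?_ hB
    rw [(meshFace M k.1).intrinsicInterior_eq]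
    exact mem_image_of_mem _ hz

/-- the data of the exchange process in the plate -/
noncomputable def ebox (H : PlateIn h M G P Act) (hΩ : IsOpen Ω) (c : γ) : EBox (E := V) h :=
  haveI := H.finite_idx hΩ c
  haveI := H.finite_fac c
  { ι := Idx h G P c
    J := Fac h M P Act c
    fin := inferInstance
    fint := Fintype.ofFinite _
    M := fm h G P c
    lo := (P c).lo
    hi := (P c).hi
    i := (P c).i
    j := (P c).j
    a := (P c).a
    b := (P c).b
    F := H.fc c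
    Y := (P c).Y h }

theorem bd_fc (H : PlateIn h M G P Act) (c : γ) (k : Fac h M P Act c) :
    (H.fc c k).bd = intrinsicFrontier ℝ (M.F k.1) :=
  (meshFace M k.1).intrinsicFrontier_eq.symm

theorem cone_fam (H : PlateIn h M G P Act) (g : Γ ⊕ (γ × Bool)) :
    ∀ x ∈ Ω, LocConeAt (pFam h G P g) x := by
  intro x hx
  have hb : ∀ c, ConBall 3 ((P c).U h) ((P c).B h) := fun c =>
    (conBall_Icc_pi three_ne_zero (H.ok c).lt).image h.symm (H.ok c).sub
  match g with
  | Sum.inl g => exact H.cone g x hx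
  | Sum.inr (c, true) => exact (hb c).locCone x
  | Sum.inr (c, false) => exact (hb c).locCone_bdry x

/-- **the hypotheses of the exchange process hold in every plate** -/
theorem ebox_ok (H : PlateIn h M G P Act) (hΩ : IsOpen Ω) (c : γ) : (H.ebox hΩ c).Ok := by
  have oc := H.ok c
  have hUU : ((P c).U h).Nonempty := by
    refine ⟨h.invFun (P c).lo, _, left_mem_Icc.2 fun l => (oc.lt l).le, rfl⟩
  have hBB : ((P c).B h).Nonempty := by
    refine ⟨h.invFun (P c).lo, _, mem_frontier_box.2 ⟨left_mem_Icc.2 fun l => (oc.lt l).le,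
      (P c).i, Or.inl rfl⟩, rfl⟩
  have re : ∀ {F : Type} [NormedAddCommGroup F] [NormedSpace ℝ F] {w : V → F} {x : V},
      Reg w (pFam h G P) x → Reg w (fm h G P c) x := fun hr =>
    hr.reindex fun g => ⟨g.1, rfl⟩
  have s0 := oc.s0
  refine ⟨⟨hΩ, fun g => H.cone_fam g.1, oc.lt, oc.sub, oc.ij, ?_, ?_, ?_, ?_, ?_, ?_, ?_⟩,
    ?_, ?_, ?_, ?_⟩
  · intro k hk
    have := oc.a_mem k hk
    show (P c).lo (P c).i < k ∧ k < (P c).hi (P c).i
    constructor <;> linarith
  · intro k hk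
    have := oc.b_mem k hk
    show (P c).lo (P c).j < k ∧ k < (P c).hi (P c).j
    constructor <;> linarith
  · obtain ⟨x, hx⟩ := hUU
    exact ⟨⟨Sum.inr (c, true), x, hx, hx⟩, rfl⟩
  · obtain ⟨x, hx⟩ := hBB
    exact ⟨⟨Sum.inr (c, false), x, hx, Plate.B_sub hx⟩, rfl⟩
  · exact fun x hx hk => re (H.regi c x (H.U_sub c hx) hk)
  · exact fun x hx hk => re (H.regj c x (H.U_sub c hx) hk)
  · exact fun x hx hk hl => re (H.regij c x (H.U_sub c hx) hk hl)
  · rintro (k : Fac h M P Act c)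
    show ConBall 2 (fm h G P c (H.gi c k)) (H.fc c k).bd
    rw [H.fm_gi, H.bd_fc]
    exact Vale.Agent.P073.H244.conBall_face M k.1
  · -- the mesh condition
    rintro (k : Fac h M P Act c) ⟨g, hg⟩
    have key : ∀ A : Set V, IsClosed A → Disjoint (intrinsicInterior ℝ (M.F k.1)) A →
        ∀ z ∈ interior (H.fc c k).C, ∀ᶠ y in 𝓝 ((H.fc c k).ch z), y ∉ A := by
      intro A hA hd z hz
      refine hA.isOpen_compl.mem_nhds fun hzA => Set.disjoint_left.1 hd ?_ hzA
      rw [(meshFace M k.1).intrinsicInterior_eq]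
      exact mem_image_of_mem _ hz
    show fm h G P c (H.gi c k) ⊆ pFam h G P g ∨
      ∀ z ∈ interior (H.fc c k).C, ∀ᶠ y in 𝓝 ((H.fc c k).ch z), y ∉ pFam h G P g
    rw [H.fm_gi]
    match g, hg with
    | Sum.inl g, _ =>
      rcases H.mesh k.1 g with h1 | h1
      · exact Or.inl h1
      · exact Or.inr (key _ (H.closed g) h1)
    | Sum.inr (d, e), _ =>
      by_cases hdc : d = c
      · subst hdc
        cases e
        · exact Or.inr (key _ (H.ok d).isCompact_B.isClosed k.2.1.2)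
        · exact Or.inl k.2.1.1
      · have h1 : Disjoint (intrinsicInterior ℝ (M.F k.1)) ((P d).U h) := by
          rw [Set.disjoint_left]
          intro x hx hxd
          have hxU : x ∈ (P c).U h := k.2.1.1 (intrinsicInterior_subset hx)
          have hxB : x ∉ (P c).B h := Set.disjoint_left.1 k.2.1.2 hx
          obtain ⟨hxΩ, hxc⟩ := oc.mem_U.1 hxU
          have h2 : h.toFun x ∈ interior (Icc (P c).lo (P c).hi) := by
            by_contra h3
            apply hxB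
            rw [oc.mem_B, isClosed_Icc.frontier_eq]
            exact ⟨hxΩ, hxc, h3⟩
          exact Set.disjoint_left.1 (H.dis c d (Ne.symm hdc)) h2 ((H.ok d).mem_U.1 hxd).2
        right
        cases e
        · exact key _ (H.ok d).isCompact_B.isClosed (h1.mono_right Plate.B_sub)
        · exact key _ (H.ok d).isCompact_U.isClosed h1
  · exact Plate.safe oc _
  · rintro (k : Fac h M P Act c) hk
    have hk' : ¬ Disjoint (fm h G P c (H.gi c k)) ((P c).Y h) := hk
    rw [H.fm_gi, Set.not_disjoint_iff_nonempty_inter] at hk'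
    obtain ⟨h1, h2⟩ := H.touch c k.1 k.2.2 k.2.1.1 k.2.1.2 hk'
    constructor
    · show Disjoint (Tu _ _ _) (Tv _ _ _)
      rw [Set.disjoint_left]
      rintro x ⟨⟨hx, -⟩, hxa⟩ ⟨-, hxb⟩
      have hx' : x ∈ fm h G P c (H.gi c k) := hx
      rw [H.fm_gi] at hx'
      exact h1 x hx' hxa hxb
    · intro σ hσ
      constructor
      · intro hs
        refine (h2 σ hσ fun x hx => ?_).1 fun x hx => (hs hx).2
        have hx' : x ∈ fm h G P c (H.gi c k) := (hs hx).1.1
        rwa [H.fm_gi] at hx'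
      · intro hs
        refine (h2 σ hσ fun x hx => ?_).2 fun x hx => (hs hx).2
        have hx' : x ∈ fm h G P c (H.gi c k) := (hs hx).1.1
        rwa [H.fm_gi] at hx'

end PlateIn

end P073.H805
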