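import Vale.Agent.P073.H936.ProdThick
import Vale.Agent.P073.H805.FB

/-!
# P073, H805: shifting a level set inside a product band
-/

set_option linter.unusedSectionVars false

open Set Metric Topology Filter

namespace P073.H805

open P073 P073.TR P073.H936

variable {E : Type*} [NormedAddCommGroup E] [NormedSpace ℝ E] {ι : Type*}

/-- the fibrewise shift of `[-1, 1]`, which takes `-κ` to `0` -/
noncomputable def fsh (κ s : ℝ) : ℝ :=
  max (min (s + κ) (min ((s + 1) / 2) (2 * s + 1))) (max ((s - 1) / 2) (2 * s - 1))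

theorem fsh_strictMono (κ : ℝ) : StrictMono (fsh κ) := by
  have h1 : StrictMono fun s : ℝ => s + κ := fun a b h => by simpa using h
  have h2 : StrictMono fun s : ℝ => (s + 1) / 2 := fun a b h => by
    show (a + 1) / 2 < (b + 1) / 2; linarith
  have h3 : StrictMono fun s : ℝ => 2 * s + 1 := fun a b h => by
    show 2 * a + 1 < 2 * b + 1; linarith
  have h4 : StrictMono fun s : ℝ => (s - 1) / 2 := fun a b h => by
    show (a - 1) / 2 < (b - 1) / 2; linarith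
  have h5 : StrictMono fun s : ℝ => 2 * s - 1 := fun a b h => by
    show 2 * a - 1 < 2 * b - 1; linarith
  intro a b hab
  unfold fsh
  refine max_lt_max (min_lt_min (h1 hab) (min_lt_min (h2 hab) (h3 hab)))
    (max_lt_max (h4 hab) (h5 hab))

theorem fsh_one {κ : ℝ} (hκ : |κ| ≤ 1 / 4) : fsh κ 1 = 1 := by
  obtain ⟨h1, h2⟩ := abs_le.1 hκ
  unfold fsh
  apply le_antisymm
  · refine max_le ((min_le_right _ _).trans ((min_le_left _ _).trans (by norm_num)))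
      (max_le (by norm_num) (by norm_num))
  · exact le_max_of_le_right (le_max_of_le_right (by norm_num))

theorem fsh_neg_one {κ : ℝ} (hκ : |κ| ≤ 1 / 4) : fsh κ (-1) = -1 := by
  obtain ⟨h1, h2⟩ := abs_le.1 hκ
  unfold fsh
  apply le_antisymm
  · refine max_le ((min_le_right _ _).trans ((min_le_right _ _).trans (by norm_num)))
      (max_le (by norm_num) (by norm_num))
  · exact le_max_of_le_right (le_max_of_le_left (by norm_num))

theorem fsh_zero {κ : ℝ} (hκ : |κ| ≤ 1 / 4) : fsh κ (-κ) = 0 := by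
  obtain ⟨h1, h2⟩ := abs_le.1 hκ
  unfold fsh
  apply le_antisymm
  · refine max_le ((min_le_left _ _).trans (by linarith)) (max_le ?_ ?_) <;> linarith
  · refine le_max_of_le_left (le_min (by linarith) (le_min ?_ ?_)) <;> linarith

theorem fsh_nonneg_iff {κ s : ℝ} (hκ : |κ| ≤ 1 / 4) : 0 ≤ fsh κ s ↔ 0 ≤ s + κ := by
  have h1 : fsh κ (-κ) ≤ fsh κ s ↔ -κ ≤ s := (fsh_strictMono κ).le_iff_le
  rw [fsh_zero hκ] at h1
  rw [h1]
  constructor <;> intro h <;> linarith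

theorem fsh_eq_zero_iff {κ s : ℝ} (hκ : |κ| ≤ 1 / 4) : fsh κ s = 0 ↔ s + κ = 0 := by
  have h1 : fsh κ s = fsh κ (-κ) ↔ s = -κ := (fsh_strictMono κ).injective.eq_iff
  rw [fsh_zero hκ] at h1
  rw [h1]
  constructor <;> intro h <;> linarith

theorem fsh_mem {κ s : ℝ} (hκ : |κ| ≤ 1 / 4) (hs : s ∈ Icc (-1:ℝ) 1) :
    fsh κ s ∈ Icc (-1:ℝ) 1 := by
  constructor
  · rw [← fsh_neg_one hκ]; exact (fsh_strictMono κ).monotone hs.1
  · rw [← fsh_one hκ]; exact (fsh_strictMono κ).monotone hs.2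

theorem continuous_fsh : Continuous fun q : ℝ × ℝ => fsh q.1 q.2 := by
  unfold fsh; fun_prop

theorem fsh_surj {κ t : ℝ} (hκ : |κ| ≤ 1 / 4) (ht : t ∈ Icc (-1:ℝ) 1) :
    ∃ s ∈ Icc (-1:ℝ) 1, fsh κ s = t := by
  have h1 : ContinuousOn (fsh κ) (Icc (-1:ℝ) 1) :=
    (continuous_fsh.comp (continuous_const.prodMk continuous_id)).continuousOn
  have h2 := intermediate_value_Icc (by norm_num : (-1:ℝ) ≤ 1) h1
  rw [fsh_one hκ, fsh_neg_one hκ] at h2
  exact h2 ht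

theorem conicalOn_fsh {X : Set E} {a b : E → ℝ} (ha : ConicalOn a X) (hb : ConicalOn b X)
    (hac : ContinuousOn a X) (hbc : ContinuousOn b X) : ConicalOn (fun x => fsh (a x) (b x)) X := by
  have hX := ha.conicalSet
  have aff : ∀ m q : ℝ, ConicalOn (fun x => m * b x + q) X ∧ ContinuousOn (fun x => m * b x + q) X :=
    fun m q => ⟨(hb.const_smul m).add (conicalOn_const q hX),
      (continuousOn_const.mul hbc).add continuousOn_const⟩
  have h1 := hb.add ha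
  have c1 : ContinuousOn (fun x => b x + a x) X := hbc.add hac
  obtain ⟨h2, c2⟩ := aff (1 / 2) (1 / 2)
  obtain ⟨h3, c3⟩ := aff 2 1
  obtain ⟨h4, c4⟩ := aff (1 / 2) (-(1 / 2))
  obtain ⟨h5, c5⟩ := aff 2 (-1)
  have key := (h1.rmin (h2.rmin h3 c2 c3) c1 (c2.inf c3)).rmax (h4.rmax h5 c4 c5)
    (c1.inf (c2.inf c3)) (c4.sup c5)
  refine key.congr fun x _ => ?_
  simp only [fsh]
  congr 1
  · congr 1
    congr 1
    ring
  · congr 1
    · ring
    

theorem conicalSet_le {C : Set E} {g : E → ℝ} (hg : ConicalOn g C) (a : ℝ) :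
    ConicalSet {x | x ∈ C ∧ a ≤ g x} := by
  rintro x ⟨hx, hxa⟩
  obtain ⟨r, hr, h⟩ := hg x hx
  refine ⟨r, hr, fun v hv hxv t ht => ?_⟩
  obtain ⟨h1, h2⟩ := h v hv hxv.1 t ht
  refine ⟨h1, ?_⟩
  rw [h2, smul_eq_mul]
  nlinarith [hxv.2, ht.1, ht.2]

theorem isClosed_le {C : Set E} {g : E → ℝ} (hC : IsClosed C) (hg : ContinuousOn g C) (a : ℝ) :
    IsClosed {x | x ∈ C ∧ a ≤ g x} := by
  have : {x | x ∈ C ∧ a ≤ g x} = C ∩ g ⁻¹' (Ici a) := rfl
  rw [this]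
  exact hg.preimage_isClosed_of_isClosed hC isClosed_Ici

/-- **shift of the zero level inside a product band** -/
theorem exists_shift {C : Set E} (hC : IsCompact C) {u κ : E → ℝ} {M : ι → Set E} {η : ℝ}
    (hη : 0 < η) (hu : ContinuousOn u C) (huc : ConicalOn u C) (hκ : ContinuousOn κ C)
    (hκc : ConicalOn κ C) (hκη : ∀ x ∈ C, |κ x| ≤ η / 4)
    (Γ : ConHomeo (lev C u 0 ×ˢ Icc (-1:ℝ) 1) (band C u 0 η))
    (hΓu : ∀ z ∈ lev C u 0, ∀ s ∈ Icc (-1:ℝ) 1, u (Γ.toFun (z, s)) = η * s)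
    (hΓκ : ∀ z ∈ lev C u 0, ∀ s ∈ Icc (-1:ℝ) 1, κ (Γ.toFun (z, s)) = κ z)
    (hΓM : ∀ i, ∀ z ∈ lev C u 0, ∀ s ∈ Icc (-1:ℝ) 1, (Γ.toFun (z, s) ∈ M i ↔ z ∈ M i)) :
    ∃ ρ : ConHomeo C C, (∀ x ∈ C, (0 ≤ u (ρ.toFun x) ↔ 0 ≤ u x + κ x) ∧
      (u (ρ.toFun x) = 0 ↔ u x + κ x = 0)) ∧ ∀ i, ∀ x ∈ C, (ρ.toFun x ∈ M i ↔ x ∈ M i) := by
  have hlc : ConicalSet (lev C u 0) := conicalSet_lev huc
  have hlC : lev C u 0 ⊆ C := fun x hx => hx.1
  have hX : IsCompact (lev C u 0 ×ˢ Icc (-1:ℝ) 1) := (isCompact_lev hC hu).prod isCompact_Icc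
  have hXc : ConicalSet (lev C u 0 ×ˢ Icc (-1:ℝ) 1) := conicalSet_prod_Icc hlc _ _
  have hκ1 : ∀ z ∈ lev C u 0, |κ z / η| ≤ 1 / 4 := by
    intro z hz
    rw [abs_div, abs_of_pos hη, div_le_iff₀ hη]
    have := hκη z (hlC hz)
    linarith
  -- the fibrewise map
  set f : E × ℝ → E × ℝ := fun q => (q.1, fsh (κ q.1 / η) q.2) with hf
  have hκf : ContinuousOn (fun q : E × ℝ => κ q.1 / η) (lev C u 0 ×ˢ Icc (-1:ℝ) 1) :=
    (hκ.comp continuousOn_fst fun q hq => hlC hq.1).div_const η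
  have hfstc : ConicalOn (fun q : E × ℝ => q.1) (lev C u 0 ×ˢ Icc (-1:ℝ) 1) :=
    conicalOn_linear (LinearMap.fst ℝ E ℝ) hXc
  have hsndc : ConicalOn (fun q : E × ℝ => q.2) (lev C u 0 ×ˢ Icc (-1:ℝ) 1) :=
    conicalOn_linear (LinearMap.snd ℝ E ℝ) hXc
  have hκfc : ConicalOn (fun q : E × ℝ => κ q.1 / η) (lev C u 0 ×ˢ Icc (-1:ℝ) 1) := by
    have h1 : ConicalOn (κ ∘ fun q : E × ℝ => q.1) (lev C u 0 ×ˢ Icc (-1:ℝ) 1) :=
      hκc.comp hfstc (fun q hq => hlC hq.1) continuousOn_fst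
    refine (h1.const_smul η⁻¹).congr fun q _ => ?_
    simp only [Function.comp_apply, smul_eq_mul]
    field_simp
  have hfcont : ContinuousOn f (lev C u 0 ×ˢ Icc (-1:ℝ) 1) :=
    continuousOn_fst.prodMk (continuous_fsh.comp_continuousOn (hκf.prodMk continuousOn_snd))
  have hfcon : ConicalOn f (lev C u 0 ×ˢ Icc (-1:ℝ) 1) :=
    hfstc.prodMk (conicalOn_fsh hκfc hsndc hκf continuousOn_snd)
  have hfinj : InjOn f (lev C u 0 ×ˢ Icc (-1:ℝ) 1) := by
    rintro ⟨z, s⟩ - ⟨z', s'⟩ - h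
    simp only [hf, Prod.mk.injEq] at h
    obtain ⟨rfl, h2⟩ := h
    rw [(fsh_strictMono _).injective h2]
  have hfimg : f '' (lev C u 0 ×ˢ Icc (-1:ℝ) 1) = lev C u 0 ×ˢ Icc (-1:ℝ) 1 := by
    apply Subset.antisymm
    · rintro _ ⟨⟨z, s⟩, ⟨hz, hs⟩, rfl⟩
      exact ⟨hz, fsh_mem (hκ1 z hz) hs⟩
    · rintro ⟨z, t⟩ ⟨hz, ht⟩
      obtain ⟨s, hs, hst⟩ := fsh_surj (hκ1 z hz) ht
      exact ⟨(z, s), ⟨hz, hs⟩, by simp only [hf, hst]⟩
  set Pm := ConHomeo.ofCompact hX f hfcont hfinj hfcon hfimg with hPm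
  have hPmf : Pm.toFun = f := ConHomeo.ofCompact_toFun _ _ _ _ _ _
  set R : ConHomeo (band C u 0 η) (band C u 0 η) := (Γ.symm.trans Pm).trans Γ with hR
  have hRf : ∀ z ∈ lev C u 0, ∀ s ∈ Icc (-1:ℝ) 1,
      R.toFun (Γ.toFun (z, s)) = Γ.toFun (z, fsh (κ z / η) s) := by
    intro z hz s hs
    show Γ.toFun (Pm.toFun (Γ.invFun (Γ.toFun (z, s)))) = _
    rw [Γ.left_inv ⟨hz, hs⟩, hPmf]
  have hex : ∀ x ∈ band C u 0 η, ∃ z ∈ lev C u 0, ∃ s ∈ Icc (-1:ℝ) 1, Γ.toFun (z, s) = x := by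
    intro x hx
    obtain ⟨⟨z, s⟩, ⟨hz, hs⟩, h⟩ := Γ.image_eq.symm ▸ hx
    exact ⟨z, hz, s, hs, h⟩
  -- the outer part
  have habs : ConicalOn (fun x => |u x|) C := by
    have := huc.rmax huc.neg hu hu.neg
    exact this.congr fun x _ => rfl
  set C2 := {x | x ∈ C ∧ η ≤ |u x|} with hC2
  have hC2c : ConicalSet C2 := conicalSet_le habs η
  have hC2cl : IsClosed C2 := isClosed_le hC.isClosed hu.abs η
  have hbcl : IsClosed (band C u 0 η) := (isCompact_band hC hu).isClosed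
  have hun : band C u 0 η ∪ C2 = C := by
    ext x
    simp only [band, hC2, mem_union, mem_ofPred_eq, sub_zero]
    constructor
    · rintro (h | h) <;> exact h.1
    · intro h
      rcases le_total |u x| η with h1 | h1
      · exact Or.inl ⟨h, h1⟩
      · exact Or.inr ⟨h, h1⟩
  have hid : ∀ x ∈ band C u 0 η ∩ C2, R.toFun x = x := by
    rintro x ⟨hx1, hx2⟩
    obtain ⟨z, hz, s, hs, rfl⟩ := hex x hx1
    rw [hRf z hz s hs]
    have h1 : η ≤ |u (Γ.toFun (z, s))| := hx2.2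
    rw [hΓu z hz s hs, abs_mul, abs_of_pos hη] at h1
    have h2 : 1 ≤ |s| := by
      by_contra hc; push Not at hc; nlinarith
    have h3 : s = 1 ∨ s = -1 := by
      rcases le_total 0 s with h | h
      · rw [abs_of_nonneg h] at h2; exact Or.inl (le_antisymm hs.2 h2)
      · rw [abs_of_nonpos h] at h2; exact Or.inr (le_antisymm (by linarith) hs.1)
    rcases h3 with rfl | rfl
    · rw [fsh_one (hκ1 z hz)]
    · rw [fsh_neg_one (hκ1 z hz)]
  have hag : EqOn R.toFun (ConHomeo.refl hC2c).toFun (band C u 0 η ∩ C2) := hid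
  have himg : band C u 0 η ∩ C2 ⊆ R.toFun '' (band C u 0 η ∩ C2) := fun x hx =>
    ⟨x, hx, hid x hx⟩
  set ρ := (ConHomeo.glue R (ConHomeo.refl hC2c) hbcl hC2cl hbcl hC2cl hag himg).cast hun hun
    with hρ
  have hρ1 : ∀ x ∈ band C u 0 η, ρ.toFun x = R.toFun x := fun x hx =>
    ConHomeo.glue_left R (ConHomeo.refl hC2c) hbcl hC2cl hbcl hC2cl hag himg hx
  have hρ2 : ∀ x ∈ C2, ρ.toFun x = x := fun x hx =>
    ConHomeo.glue_right R (ConHomeo.refl hC2c) hbcl hC2cl hbcl hC2cl hag himg hx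
  refine ⟨ρ, fun x hx => ?_, fun i x hx => ?_⟩
  · rw [← hun] at hx
    rcases hx with hx | hx
    · rw [hρ1 x hx]
      obtain ⟨z, hz, s, hs, rfl⟩ := hex x hx
      have hm := fsh_mem (hκ1 z hz) hs
      rw [hRf z hz s hs, hΓu z hz _ hm, hΓu z hz s hs, hΓκ z hz s hs]
      have e1 : η * s + κ z = η * (s + κ z / η) := by field_simp
      rw [e1]
      constructor
      · rw [mul_nonneg_iff_of_pos_left hη, mul_nonneg_iff_of_pos_left hη,
          fsh_nonneg_iff (hκ1 z hz)]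
      · rw [mul_eq_zero, mul_eq_zero, or_iff_right hη.ne', or_iff_right hη.ne',
          fsh_eq_zero_iff (hκ1 z hz)]
    · rw [hρ2 x hx]
      have h1 := abs_le.1 (hκη x hx.1)
      have h2 : η ≤ |u x| := hx.2
      rcases le_total 0 (u x) with h | h
      · rw [abs_of_nonneg h] at h2
        exact ⟨⟨fun _ => by linarith, fun _ => h⟩, ⟨fun h3 => by linarith, fun h3 => by linarith⟩⟩
      · rw [abs_of_nonpos h] at h2
        exact ⟨⟨fun h3 => by linarith, fun h3 => by linarith⟩,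
          ⟨fun h3 => by linarith, fun h3 => by linarith⟩⟩
  · rw [← hun] at hx
    rcases hx with hx | hx
    · rw [hρ1 x hx]
      obtain ⟨z, hz, s, hs, rfl⟩ := hex x hx
      rw [hRf z hz s hs, hΓM i z hz _ (fsh_mem (hκ1 z hz) hs), hΓM i z hz s hs]
    · rw [hρ2 x hx]

end P073.H805
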