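import Vale.Agent.P073.H805.CntB

/-!
# P073, H805: one step of the exchange process, the assembly

`Geo`: the geometric input (helper341). Output: the new pair is a state, in relation `Rel`, with
smaller measure, as soon as the new sheets are balls.
-/

set_option linter.unusedSectionVars false

open Set Metric Topology Filter

namespace P073.H805

open P073 P073.TR P073.H936 P073.H579

variable {E : Type*} [NormedAddCommGroup E] [NormedSpace ℝ E] {ι : Type*}

/-- change of sign and origin -/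
def aff (s a₀ : ℝ) (u : E → ℝ) : E → ℝ := fun x => s * (u x - a₀)

/-- the inverse -/
def una (s a₀ : ℝ) (w : E → ℝ) : E → ℝ := fun x => a₀ + s * w x

/-- the levels after the change -/
def affL (s a₀ : ℝ) (A : Finset ℝ) : Set ℝ := (fun a => s * (a - a₀)) '' (A : Set ℝ)

section aff

variable {s a₀ : ℝ} {u w : E → ℝ} {A : Finset ℝ} {x : E}

theorem una_aff (hs : s * s = 1) (x : E) : una s a₀ (aff s a₀ u) x = u x := by
  show a₀ + s * (s * (u x - a₀)) = u x
  linear_combination (u x - a₀) * hs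

theorem aff_una (hs : s * s = 1) (x : E) : aff s a₀ (una s a₀ w) x = w x := by
  show s * (a₀ + s * w x - a₀) = w x
  linear_combination (w x) * hs

theorem mem_affL (hs : s * s = 1) {t : ℝ} : t ∈ A ↔ s * (t - a₀) ∈ affL s a₀ A := by
  constructor
  · exact fun h => ⟨t, h, rfl⟩
  · rintro ⟨a, ha, hat⟩
    have h1 : a = t := by
      have h2 : s * (a - a₀) = s * (t - a₀) := hat
      linear_combination s * h2 - (a - a₀) * hs + (t - a₀) * hs
    rw [← h1]; exact ha

theorem mem_affL_una (hs : s * s = 1) : una s a₀ w x ∈ A ↔ w x ∈ affL s a₀ A := by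
  rw [mem_affL hs (a₀ := a₀)]
  have := aff_una (w := w) (a₀ := a₀) hs x
  unfold aff at this
  rw [this]

theorem una_eq_iff (hs : s * s = 1) : una s a₀ w x = a₀ ↔ w x = 0 := by
  constructor
  · intro h
    have h1 : s * w x = 0 := by unfold una at h; linarith
    linear_combination s * h1 - (w x) * hs
  · intro h
    unfold una; rw [h]; ring

theorem aff_eq_zero_iff (hs : s * s = 1) : aff s a₀ u x = 0 ↔ u x = a₀ := by
  have := una_eq_iff (w := aff s a₀ u) (a₀ := a₀) (x := x) hs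
  rw [una_aff hs] at this
  exact this.symm

theorem zero_mem_affL (ha : a₀ ∈ A) : (0:ℝ) ∈ affL s a₀ A := ⟨a₀, ha, by simp⟩

theorem isClosed_affL : IsClosed (affL s a₀ A) := (A.finite_toSet.image _).isClosed

theorem conicalOn_una {W : Set E} (h : ConicalOn w W) : ConicalOn (una s a₀ w) W := by
  have h1 := (conicalOn_const a₀ h.conicalSet).add (h.const_smul s)
  exact h1

theorem continuousOn_una {W : Set E} (h : ContinuousOn w W) : ContinuousOn (una s a₀ w) W :=
  continuousOn_const.add (continuousOn_const.mul h)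

theorem conicalOn_aff {W : Set E} (h : ConicalOn u W) : ConicalOn (aff s a₀ u) W := by
  have h1 := (h.sub (conicalOn_const a₀ h.conicalSet)).const_smul s
  exact h1

theorem continuousOn_aff {W : Set E} (h : ContinuousOn u W) : ContinuousOn (aff s a₀ u) W :=
  continuousOn_const.mul (h.sub continuousOn_const)

theorem reg_una {M : ι → Set E} (hs : s * s = 1) (h : Reg w M x) (hw : ContinuousAt w x) :
    Reg (una s a₀ w) M x :=
  h.comp hw (g := fun z : ℝ => a₀ + s * z) (s • LinearMap.id) one_pos (fun y r _ _ => by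
    simp only [LinearMap.smul_apply, LinearMap.id_apply, smul_eq_mul]
    linear_combination r * hs)

theorem reg_aff {M : ι → Set E} (hs : s * s = 1) (h : Reg u M x) (hu : ContinuousAt u x) :
    Reg (aff s a₀ u) M x :=
  h.comp hu (g := fun z : ℝ => s * (z - a₀)) (s • LinearMap.id) one_pos (fun y r _ _ => by
    simp only [LinearMap.smul_apply, LinearMap.id_apply, smul_eq_mul]
    linear_combination r * hs)

theorem reg_una₂ {t b₀ : ℝ} {w' : E → ℝ} {M : ι → Set E} (hs : s * s = 1) (ht : t * t = 1)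
    (h : Reg (fun y => (w y, w' y)) M x) (hw : ContinuousAt w x) (hw' : ContinuousAt w' x) :
    Reg (fun y => (una s a₀ w y, una t b₀ w' y)) M x :=
  h.comp (hw.prodMk hw') (g := fun z : ℝ × ℝ => (a₀ + s * z.1, b₀ + t * z.2))
    (LinearMap.prodMap (s • LinearMap.id) (t • LinearMap.id)) one_pos (fun y r _ _ => by
    refine Prod.ext ?_ ?_
    · simp only [LinearMap.prodMap_apply, LinearMap.smul_apply, LinearMap.id_apply, smul_eq_mul,
        Prod.fst_add]
      linear_combination r.1 * hs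
    · simp only [LinearMap.prodMap_apply, LinearMap.smul_apply, LinearMap.id_apply, smul_eq_mul,
        Prod.snd_add]
      linear_combination r.2 * ht)

theorem reg_aff₂ {t b₀ : ℝ} {v : E → ℝ} {M : ι → Set E} (hs : s * s = 1) (ht : t * t = 1)
    (h : Reg (fun y => (u y, v y)) M x) (hw : ContinuousAt u x) (hw' : ContinuousAt v x) :
    Reg (fun y => (aff s a₀ u y, aff t b₀ v y)) M x :=
  h.comp (hw.prodMk hw') (g := fun z : ℝ × ℝ => (s * (z.1 - a₀), t * (z.2 - b₀)))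
    (LinearMap.prodMap (s • LinearMap.id) (t • LinearMap.id)) one_pos (fun y r _ _ => by
    refine Prod.ext ?_ ?_
    · simp only [LinearMap.prodMap_apply, LinearMap.smul_apply, LinearMap.id_apply, smul_eq_mul,
        Prod.fst_add]
      linear_combination r.1 * hs
    · simp only [LinearMap.prodMap_apply, LinearMap.smul_apply, LinearMap.id_apply, smul_eq_mul,
        Prod.snd_add]
      linear_combination r.2 * ht)

end aff

/-- the levels near `N` -/
def LevOn (N : Set E) (s a₀ : ℝ) (A : Finset ℝ) (u : E → ℝ) : Prop :=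
  ∀ x ∈ N, ∀ a ∈ A, (0 < s * (a - a₀) → s * (u x - a₀) < s * (a - a₀)) ∧
    (s * (a - a₀) < 0 → s * (a - a₀) < s * (u x - a₀))

theorem LevOn.affL {N : Set E} {s a₀ : ℝ} {A : Finset ℝ} {u : E → ℝ} (h : LevOn N s a₀ A u) :
    ∀ x ∈ N, ∀ a ∈ affL s a₀ A, (0 < a → aff s a₀ u x < a) ∧ (a < 0 → a < aff s a₀ u x) := by
  rintro x hx _ ⟨a, ha, rfl⟩
  exact h x hx a ha

/-- small depth of the cut off -/
theorem exists_eta (s a₀ : ℝ) (A : Finset ℝ) :
    ∃ η₁ > 0, ∀ a ∈ affL s a₀ A, a < 0 → η₁ < -a := by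
  by_cases hne : {a | a ∈ affL s a₀ A ∧ a < 0}.Nonempty
  · have hfin : {a | a ∈ affL s a₀ A ∧ a < 0}.Finite :=
      (A.finite_toSet.image _).subset fun a ha => ha.1
    obtain ⟨m, hm, hmax⟩ := hfin.exists_maximalFor id _ hne
    refine ⟨-m / 2, by have := hm.2; linarith, fun a ha ha0 => ?_⟩
    rcases le_total a m with h1 | h1
    · have := hm.2; linarith
    · have h2 := hmax ⟨ha, ha0⟩ h1
      have := hm.2
      simp only [id] at h2
      linarith
  · refine ⟨1, one_pos, fun a ha ha0 => absurd ⟨a, ha, ha0⟩ hne⟩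

section step

variable {D : Data E ι} {J : Type*} {F : J → Face D} {u v : E → ℝ} {s t a₀ b₀ : ℝ} {N : Set E}
  {fh : E → ℝ} {L : E →ₗ[ℝ] ℝ} {c₀ c : ℝ}

/-- **the geometric input of the exchange** -/
structure Geo (D : Data E ι) {J : Type*} (F : J → Face D) (u v : E → ℝ) (s t a₀ b₀ : ℝ)
    (N : Set E) (fh : E → ℝ) (L : E →ₗ[ℝ] ℝ) (c₀ c : ℝ) : Prop where
  ss : s * s = 1
  tt : t * t = 1
  ha : a₀ ∈ D.a
  hb : b₀ ∈ D.b
  ex : ExIn D.W N D.M (aff s a₀ u) (aff t b₀ v) fh L c₀ c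
  NU : N ⊆ D.U
  NB : Disjoint N D.B
  levu : LevOn N s a₀ D.a u
  levv : LevOn N t b₀ D.b v
  good : ∀ i, (∀ x ∈ D.M i ∩ N, 0 ≤ fh x) ∨ ∃ p ∈ D.M i, p ∈ D.U ∧ u p = a₀ ∧ v p = b₀
  goodF : ∀ j, ∀ x ∈ D.M (F j).i₀ ∩ N, 0 ≤ fh x
  pt : ∃ j, ∃ z ∈ (F j).C, (F j).ch z ∈ N ∧ u ((F j).ch z) = a₀ ∧ v ((F j).ch z) = b₀

/-- the geometric input for circles -/
structure GeoC (D : Data E ι) {J : Type*} (F : J → Face D) (u : E → ℝ) (s a₀ : ℝ)
    (N : Set E) (fh : E → ℝ) (L : E →ₗ[ℝ] ℝ) (c₀ c : ℝ) : Prop where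
  ss : s * s = 1
  ha : a₀ ∈ D.a
  ex : CiIn D.W N D.M (aff s a₀ u) fh L c₀ c
  NU : N ⊆ D.U
  NB : Disjoint N D.B
  levu : LevOn N s a₀ D.a u
  good : ∀ i, (∀ x ∈ D.M i ∩ N, 0 ≤ fh x) ∨
    ∃ σ, IsCircle σ ∧ ∀ x ∈ σ, x ∈ D.M i ∧ x ∈ D.U ∧ u x = a₀
  goodF : ∀ j, ∀ x ∈ D.M (F j).i₀ ∩ N, 0 ≤ fh x
  pt : ∃ j, ∃ σ, IsCircle σ ∧ σ ⊆ (F j).C ∧ ∀ z ∈ σ, (F j).ch z ∈ N ∧ u ((F j).ch z) = a₀

/-- other levels are not changed -/
theorem level_ne {A : Finset ℝ} {s a₀ η : ℝ} {N : Set E} {u w : E → ℝ} (hs : s * s = 1)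
    (hlev : LevOn N s a₀ A u) (hη : ∀ a ∈ affL s a₀ A, a < 0 → η < -a)
    (hout : ∀ x ∉ N, w x = aff s a₀ u x)
    (hin : ∀ x ∈ N, w x ≤ aff s a₀ u x ∧ min (aff s a₀ u x) (-η) ≤ w x) {k : ℝ} (hk : k ∈ A)
    (hka : k ≠ a₀) (x : E) : una s a₀ w x = k ↔ u x = k := by
  by_cases hx : x ∈ N
  · obtain ⟨h1, h2⟩ := hin x hx
    have hk' : s * (k - a₀) ∈ affL s a₀ A := ⟨k, hk, rfl⟩
    have hlev' := hlev.affL x hx
    have hk0 : s * (k - a₀) ≠ 0 := by
      intro h0
      apply hka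
      linear_combination s * h0 - (k - a₀) * hs
    constructor
    · intro h3
      exfalso
      have h4 : w x = s * (k - a₀) := by
        have := aff_una (w := w) (a₀ := a₀) hs x
        unfold aff at this
        rw [h3] at this
        exact this.symm
      exact hk0 (h4 ▸ lev_zero (A := affL s a₀ A) hlev' hη h1 h2 (by rw [h4]; exact hk'))
    · intro h3
      exfalso
      have h4 : aff s a₀ u x = s * (k - a₀) := by unfold aff; rw [h3]
      exact hk0 (h4 ▸ lev_zero' (A := affL s a₀ A) hlev' (by rw [h4]; exact hk'))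
  · have h1 : una s a₀ w x = u x := by
      have := una_aff (u := u) (a₀ := a₀) hs x
      unfold una at this ⊢
      rw [hout x hx]; exact this
    rw [h1]

/-- a level of the old function in `N` is the level `a₀` -/
theorem level_in {A : Finset ℝ} {s a₀ : ℝ} {N : Set E} {u : E → ℝ} (hs : s * s = 1)
    (hlev : LevOn N s a₀ A u) {x : E} (hx : x ∈ N) (hk : u x ∈ A) : u x = a₀ := by
  have h1 : aff s a₀ u x ∈ affL s a₀ A := ⟨u x, hk, rfl⟩
  exact (aff_eq_zero_iff hs).1 (lev_zero' (hlev.affL x hx) h1)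

/-- the new two families -/
theorem twoFam_new (hS : State D u v) (ss : s * s = 1) (tt : t * t = 1)
    (levu : LevOn N s a₀ D.a u) (levv : LevOn N t b₀ D.b v) {η : ℝ} {w w' : E → ℝ}
    (hη : ∀ a ∈ affL s a₀ D.a, a < 0 → η < -a) (hη' : ∀ a ∈ affL t b₀ D.b, a < 0 → η < -a)
    (hout : ∀ x ∉ N, w x = aff s a₀ u x ∧ w' x = aff t b₀ v x)
    (hin : ∀ x ∈ N, (w x ≤ aff s a₀ u x ∧ min (aff s a₀ u x) (-η) ≤ w x) ∧
      w' x ≤ aff t b₀ v x ∧ min (aff t b₀ v x) (-η) ≤ w' x)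
    (b1 : ConBall 2 {x | x ∈ D.U ∧ w x = 0} ({x | x ∈ D.U ∧ w x = 0} ∩ D.B))
    (b2 : ConBall 2 {x | x ∈ D.U ∧ w' x = 0} ({x | x ∈ D.U ∧ w' x = 0} ∩ D.B))
    (b3 : {x | x ∈ D.U ∧ w x = 0 ∧ w' x = 0}.Nonempty →
      ConBall 1 {x | x ∈ D.U ∧ w x = 0 ∧ w' x = 0} ({x | x ∈ D.U ∧ w x = 0 ∧ w' x = 0} ∩ D.B)) :
    H341.TwoFam 1 D.U D.B D.a (fun k => {x | x ∈ D.U ∧ una s a₀ w x = k}) D.b
      (fun l => {x | x ∈ D.U ∧ una t b₀ w' x = l}) := by
  have hT := hS.two
  have eu : ∀ k ∈ D.a, k ≠ a₀ → ∀ x, (una s a₀ w x = k ↔ u x = k) := fun k hk hka x =>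
    level_ne ss levu hη (fun x hx => (hout x hx).1) (fun x hx => (hin x hx).1) hk hka x
  have ev : ∀ k ∈ D.b, k ≠ b₀ → ∀ x, (una t b₀ w' x = k ↔ v x = k) := fun k hk hka x =>
    level_ne tt levv hη' (fun x hx => (hout x hx).2) (fun x hx => (hin x hx).2) hk hka x
  have su : ∀ k ∈ D.a, k ≠ a₀ → {x | x ∈ D.U ∧ una s a₀ w x = k} = {x | x ∈ D.U ∧ u x = k} :=
    fun k hk hka => by ext x; exact and_congr_right fun _ => eu k hk hka x
  have sv : ∀ k ∈ D.b, k ≠ b₀ → {x | x ∈ D.U ∧ una t b₀ w' x = k} = {x | x ∈ D.U ∧ v x = k} :=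
    fun k hk hka => by ext x; exact and_congr_right fun _ => ev k hk hka x
  have su0 : {x | x ∈ D.U ∧ una s a₀ w x = a₀} = {x | x ∈ D.U ∧ w x = 0} := by
    ext x; exact and_congr_right fun _ => una_eq_iff ss
  have sv0 : {x | x ∈ D.U ∧ una t b₀ w' x = b₀} = {x | x ∈ D.U ∧ w' x = 0} := by
    ext x; exact and_congr_right fun _ => una_eq_iff tt
  -- outside `N` everything is old
  have ou : ∀ x ∉ N, una s a₀ w x = u x := fun x hx => by
    have := una_aff (u := u) (a₀ := a₀) ss x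
    unfold una at this ⊢
    rw [(hout x hx).1]; exact this
  have ov : ∀ x ∉ N, una t b₀ w' x = v x := fun x hx => by
    have := una_aff (u := v) (a₀ := b₀) tt x
    unfold una at this ⊢
    rw [(hout x hx).2]; exact this
  refine ⟨hT.hC, fun k hk => ?_, fun k hk x hx => hx.1, fun k hk k' hk' hne => ?_, fun k hk => ?_,
    fun k hk x hx => hx.1, fun k hk k' hk' hne => ?_, fun k hk l hl hne => ?_⟩
  · by_cases hka : k = a₀
    · subst hka
      rw [su0]; exact b1
    · rw [su k hk hka]; exact hT.hS k hk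
  · rw [Set.disjoint_left]
    rintro x ⟨-, h1⟩ ⟨-, h2⟩
    exact hne (h1.symm.trans h2)
  · by_cases hka : k = b₀
    · subst hka
      rw [sv0]; exact b2
    · rw [sv k hk hka]; exact hT.hT k hk
  · rw [Set.disjoint_left]
    rintro x ⟨-, h1⟩ ⟨-, h2⟩
    exact hne (h1.symm.trans h2)
  · by_cases hka : k = a₀
    · by_cases hlb : l = b₀
      · subst hka; subst hlb
        have e : {x | x ∈ D.U ∧ una s k w x = k} ∩ {x | x ∈ D.U ∧ una t l w' x = l} =
            {x | x ∈ D.U ∧ w x = 0 ∧ w' x = 0} := by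
          rw [su0, sv0]; ext x; simp only [mem_inter_iff, mem_ofPred_eq]; tauto
        rw [e] at hne ⊢
        exact b3 hne
      · -- `l` is another level of `v`: the intersection lies outside `N`
        have e : {x | x ∈ D.U ∧ una s a₀ w x = k} ∩ {x | x ∈ D.U ∧ una t b₀ w' x = l} =
            {x | x ∈ D.U ∧ u x = k} ∩ {x | x ∈ D.U ∧ v x = l} := by
          ext x
          simp only [mem_inter_iff, mem_ofPred_eq]
          rw [ev l hl hlb x]
          have : v x = l → x ∉ N := fun h1 h2 =>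
            hlb (h1 ▸ level_in tt levv h2 (h1 ▸ hl))
          constructor
          · rintro ⟨⟨h1, h2⟩, h3, h4⟩
            rw [ou x (this h4)] at h2
            exact ⟨⟨h1, h2⟩, h3, h4⟩
          · rintro ⟨⟨h1, h2⟩, h3, h4⟩
            refine ⟨⟨h1, ?_⟩, h3, h4⟩
            rw [ou x (this h4)]; exact h2
        rw [e] at hne ⊢
        exact hT.hX k hk l hl hne
    · have e : {x | x ∈ D.U ∧ una s a₀ w x = k} ∩ {x | x ∈ D.U ∧ una t b₀ w' x = l} =
          {x | x ∈ D.U ∧ u x = k} ∩ {x | x ∈ D.U ∧ v x = l} := by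
        ext x
        simp only [mem_inter_iff, mem_ofPred_eq]
        rw [eu k hk hka x]
        have : u x = k → x ∉ N := fun h1 h2 =>
          hka (h1 ▸ level_in ss levu h2 (h1 ▸ hk))
        constructor
        · rintro ⟨⟨h1, h2⟩, h3, h4⟩
          rw [ov x (this h2)] at h4
          exact ⟨⟨h1, h2⟩, h3, h4⟩
        · rintro ⟨⟨h1, h2⟩, h3, h4⟩
          refine ⟨⟨h1, h2⟩, h3, ?_⟩
          rw [ov x (this h2)]; exact h4
      rw [e] at hne ⊢
      exact hT.hX k hk l hl hne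

/-- the new pair outside a compact set -/
theorem off_new (hS : State D u v) (hN : IsCompact N) (NU : N ⊆ D.U) (NB : Disjoint N D.B)
    {u' v' : E → ℝ} (h : ∀ x ∉ N, u' x = u x ∧ v' x = v x) :
    ∃ K, IsCompact K ∧ K ⊆ D.U \ D.B ∧ ∀ x ∉ K, u' x = D.u₀ x ∧ v' x = D.v₀ x := by
  obtain ⟨K, hK, hKU, hK0⟩ := hS.off
  refine ⟨K ∪ N, hK.union hN, union_subset hKU fun x hx =>
    ⟨NU hx, fun hB => Set.disjoint_left.1 NB hx hB⟩, fun x hx => ?_⟩
  rw [mem_union, not_or] at hx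
  obtain ⟨h1, h2⟩ := h x hx.2
  rw [h1, h2]
  exact hK0 x hx.1

/-- the new functions `w`, `w'` (normalized) give a state -/
theorem state_new (hD : D.Ok) (hS : State D u v) (ss : s * s = 1) (tt : t * t = 1)
    (hN : IsCompact N) (NU : N ⊆ D.U) (NB : Disjoint N D.B) {w w' : E → ℝ}
    (k1 : ConicalOn w D.W) (k2 : ContinuousOn w D.W) (k3 : ConicalOn w' D.W)
    (k4 : ContinuousOn w' D.W) (hout : ∀ x ∉ N, w x = aff s a₀ u x ∧ w' x = aff t b₀ v x)
    (ru : ∀ x ∈ D.U, w x ∈ affL s a₀ D.a → Reg w D.M x)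
    (rv : ∀ x ∈ D.U, w' x ∈ affL t b₀ D.b → Reg w' D.M x)
    (ruv : ∀ x ∈ D.U, w x ∈ affL s a₀ D.a → w' x ∈ affL t b₀ D.b →
      Reg (fun y => (w y, w' y)) D.M x)
    (hT : H341.TwoFam 1 D.U D.B D.a (fun k => {x | x ∈ D.U ∧ una s a₀ w x = k}) D.b
      (fun l => {x | x ∈ D.U ∧ una t b₀ w' x = l})) :
    State D (una s a₀ w) (una t b₀ w') where
  conu := conicalOn_una k1
  contu := continuousOn_una k2
  conv := conicalOn_una k3
  contv := continuousOn_una k4
  regu := fun x hx hxa => reg_una ss (ru x hx ((mem_affL_una ss).1 hxa))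
    (k2.continuousAt (hD.isOpen.mem_nhds (hD.UW hx)))
  regv := fun x hx hxa => reg_una tt (rv x hx ((mem_affL_una tt).1 hxa))
    (k4.continuousAt (hD.isOpen.mem_nhds (hD.UW hx)))
  reguv := fun x hx hxa hxb => reg_una₂ ss tt (ruv x hx ((mem_affL_una ss).1 hxa)
    ((mem_affL_una tt).1 hxb)) (k2.continuousAt (hD.isOpen.mem_nhds (hD.UW hx)))
    (k4.continuousAt (hD.isOpen.mem_nhds (hD.UW hx)))
  two := hT
  off := off_new hS hN NU NB fun x hx => by
    have h1 := una_aff (u := u) (a₀ := a₀) ss x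
    have h2 := una_aff (u := v) (a₀ := b₀) tt x
    unfold una at h1 h2 ⊢
    rw [(hout x hx).1, (hout x hx).2]
    exact ⟨h1, h2⟩

end step

end P073.H805
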