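import Vale.Agent.P073.H805.Step

/-!
# P073, H805: one step of the exchange process from the geometric input
-/

set_option linter.unusedSectionVars false

open Set Metric Topology Filter

namespace P073.H805

open P073 P073.TR P073.H936 P073.H579

variable {E : Type*} [NormedAddCommGroup E] [NormedSpace ℝ E] {ι : Type*}

/-- a small number outside a countable set -/
theorem exists_small {D : Set ℝ} (hD : D.Countable) {m : ℝ} (hm : 0 < m) :
    ∃ δ, 0 < δ ∧ δ ≤ m ∧ δ ∉ D := by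
  have h1 : Dense Dᶜ := hD.dense_compl ℝ
  obtain ⟨δ, h2, h3⟩ := h1.exists_mem_open isOpen_Ioo (nonempty_Ioo.2 hm)
  exact ⟨δ, h3.1, h3.2.le, h2⟩

section step

variable {D : Data E ι} {J : Type*} {F : J → Face D} {u v : E → ℝ} {s t a₀ b₀ : ℝ} {N : Set E}
  {fh : E → ℝ} {L : E →ₗ[ℝ] ℝ} {c₀ c : ℝ}

theorem contAt_u (hD : D.Ok) (hS : State D u v) {x : E} (hx : x ∈ D.U) : ContinuousAt u x :=
  hS.contu.continuousAt (hD.isOpen.mem_nhds (hD.UW hx))

theorem contAt_v (hD : D.Ok) (hS : State D u v) {x : E} (hx : x ∈ D.U) : ContinuousAt v x :=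
  hS.contv.continuousAt (hD.isOpen.mem_nhds (hD.UW hx))

theorem reg_aff_u (hD : D.Ok) (hS : State D u v) (ss : s * s = 1) {x : E} (hx : x ∈ D.U)
    (h : aff s a₀ u x ∈ affL s a₀ D.a) : Reg (aff s a₀ u) D.M x :=
  reg_aff ss (hS.regu x hx ((mem_affL ss).2 h)) (contAt_u hD hS hx)

theorem reg_aff_v (hD : D.Ok) (hS : State D u v) (tt : t * t = 1) {x : E} (hx : x ∈ D.U)
    (h : aff t b₀ v x ∈ affL t b₀ D.b) : Reg (aff t b₀ v) D.M x :=
  reg_aff tt (hS.regv x hx ((mem_affL tt).2 h)) (contAt_v hD hS hx)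

theorem reg_aff_uv (hD : D.Ok) (hS : State D u v) (ss : s * s = 1) (tt : t * t = 1) {x : E}
    (hx : x ∈ D.U) (h : aff s a₀ u x ∈ affL s a₀ D.a) (h' : aff t b₀ v x ∈ affL t b₀ D.b) :
    Reg (fun y => (aff s a₀ u y, aff t b₀ v y)) D.M x :=
  reg_aff₂ ss tt (hS.reguv x hx ((mem_affL ss).2 h) ((mem_affL tt).2 h')) (contAt_u hD hS hx)
    (contAt_v hD hS hx)

/-- the new sheets are balls, for all small parameters -/
def NewBalls (D : Data E ι) (N : Set E) (u v fh : E → ℝ) : Prop :=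
  ∃ δ₁ > 0, ∀ δ, 0 < δ → δ ≤ δ₁ → ∃ ε₁ > 0, ∀ ε, 0 < ε → ε ≤ ε₁ → ∀ η K Mc, 0 < η → 0 < K →
    0 < Mc → ∀ w w' : E → ℝ, w = exU N η K ε Mc δ u v fh → w' = exU N η K ε Mc (2 * δ) v u fh →
    ConBall 2 {x | x ∈ D.U ∧ w x = 0} ({x | x ∈ D.U ∧ w x = 0} ∩ D.B) ∧
    ConBall 2 {x | x ∈ D.U ∧ w' x = 0} ({x | x ∈ D.U ∧ w' x = 0} ∩ D.B) ∧
    ConBall 1 {x | x ∈ D.U ∧ w x = 0 ∧ w' x = 0} ({x | x ∈ D.U ∧ w x = 0 ∧ w' x = 0} ∩ D.B)

/-- **the step, bigons** -/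
theorem Geo.exists_step [Finite ι] [FiniteDimensional ℝ E] [Fintype J] (hD : D.Ok)
    (hS : State D u v) (h : Geo D F u v s t a₀ b₀ N fh L c₀ c)
    (hb : NewBalls D N (aff s a₀ u) (aff t b₀ v) fh) :
    ∃ u' v', State D u' v' ∧ Rel D u v u' v' ∧ Less F u' v' u v ∧
      ∀ x ∉ N, u' x = u x ∧ v' x = v x := by
  have ss := h.ss
  have tt := h.tt
  set u₁ := aff s a₀ u with hu₁
  set v₁ := aff t b₀ v with hv₁
  set A := affL s a₀ D.a with hA
  set A' := affL t b₀ D.b with hA'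
  have hA0 : (0:ℝ) ∈ A := zero_mem_affL h.ha
  have hA0' : (0:ℝ) ∈ A' := zero_mem_affL h.hb
  obtain ⟨i₀, iU⟩ := hD.iU
  obtain ⟨θ, hθ, hθc, hcore, B, hB, hBN, Dx, hDx, e₁, he₁, H⟩ := h.ex.exists_exchange
  obtain ⟨e₂, he₂, HC⟩ := h.ex.exists_cnt i₀ iU hD.ball.isCompact hD.UW hD.ball.conicalSet
    (fun x hx h0 => reg_aff_u hD hS ss hx (by rw [h0]; exact hA0))
    (fun x hx h0 => reg_aff_v hD hS tt hx (by rw [h0]; exact hA0'))
  obtain ⟨δ₁, hδ₁, HT⟩ := hb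
  obtain ⟨δ, hδ, hδm, hδD⟩ := exists_small hDx (lt_min hδ₁ (show 0 < θ / 4 by linarith))
  have hδθ : 4 * δ ≤ θ := by have := hδm.trans (min_le_right _ _); linarith
  obtain ⟨e₃, he₃, H⟩ := H δ hδ hδθ hδD
  obtain ⟨e₄, he₄, HT⟩ := HT δ hδ (hδm.trans (min_le_left _ _))
  set ε := min (min e₁ e₂) (min (min e₃ e₄) (θ / 2)) with hε
  have hε0 : 0 < ε := lt_min (lt_min he₁ he₂) (lt_min (lt_min he₃ he₄) (by linarith))
  have b1 : ε ≤ e₁ := (min_le_left _ _).trans (min_le_left _ _)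
  have b2 : ε ≤ e₂ := (min_le_left _ _).trans (min_le_right _ _)
  have b3 : ε ≤ e₃ := (min_le_right _ _).trans ((min_le_left _ _).trans (min_le_left _ _))
  have b4 : ε ≤ e₄ := (min_le_right _ _).trans ((min_le_left _ _).trans (min_le_right _ _))
  have b5 : 2 * ε ≤ θ := by
    have : ε ≤ θ / 2 := (min_le_right _ _).trans (min_le_right _ _)
    linarith
  obtain ⟨η₁, hη₁, Hη₁⟩ := exists_eta s a₀ D.a
  obtain ⟨η₂, hη₂, Hη₂⟩ := exists_eta t b₀ D.b
  obtain ⟨η, K, Mc, hp, hηm, -⟩ := Pars.exists hθ hB hδ hδθ hε0 b5 (lt_min hη₁ hη₂)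
  have hηA : ∀ a ∈ A, a < 0 → η < -a := fun a ha ha0 =>
    (hηm.trans (min_le_left _ _)).trans_lt (Hη₁ a ha ha0)
  have hηA' : ∀ a ∈ A', a < 0 → η < -a := fun a ha ha0 =>
    (hηm.trans (min_le_right _ _)).trans_lt (Hη₂ a ha ha0)
  have hηAA : ∀ a ∈ A ∪ A', a < 0 → η < -a := fun a ha =>
    ha.elim (fun h1 => hηA a h1) fun h1 => hηA' a h1
  set w := exU N η K ε Mc δ u₁ v₁ fh with hw
  set w' := exU N η K ε Mc (2 * δ) v₁ u₁ fh with hw'
  have levA := h.levu.affL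
  have levA' := h.levv.affL
  obtain ⟨⟨k1, k2, k3, k4⟩, -, -, kreg⟩ := H ε hε0 b3 b1 η K Mc hp w w' rfl rfl
  obtain ⟨r1, r2, r3⟩ := kreg D.U A A' levA levA' hηAA
    (fun x hx hxa => reg_aff_u hD hS ss hx hxa) (fun x hx hxa => reg_aff_v hD hS tt hx hxa)
    (fun x hx hxa hxb => reg_aff_uv hD hS ss tt hx hxa hxb)
  obtain ⟨q1, q2, q3⟩ := HT ε hε0 b4 η K Mc hp.η0 hp.K0 hp.M0 w w' rfl rfl
  obtain ⟨hcross, hrel⟩ := HC ε hε0 b2 η K Mc δ hp.η0 hp.K0 hp.M0 hδ w w' rfl rfl A A'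
    isClosed_affL isClosed_affL hA0 hA0' levA levA' hηAA
  have hout : ∀ x ∉ N, w x = u₁ x ∧ w' x = v₁ x := fun x hx =>
    ⟨exU_of_notMem hx, exU_of_notMem hx⟩
  have hin : ∀ x ∈ N, (w x ≤ u₁ x ∧ min (u₁ x) (-η) ≤ w x) ∧
      w' x ≤ v₁ x ∧ min (v₁ x) (-η) ≤ w' x := by
    intro x hx
    rw [hw, hw', exU_of_mem hx, exU_of_mem hx]
    exact ⟨⟨xf_le, min_le_xf⟩, xf_le, min_le_xf⟩
  have hT := twoFam_new hS ss tt h.levu h.levv hηA hηA' hout hin q1 q2 (fun _ => q3)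
  refine ⟨una s a₀ w, una t b₀ w', state_new hD hS ss tt h.ex.cN h.NU h.NB k1 k2 k3 k4 hout
    r1 r2 r3 hT, ?_, ?_, fun x hx => ?_⟩
  · -- the bookkeeping relation
    have hR := hrel fun i => by
      rcases h.good i with h1 | ⟨p, p1, p2, p3, p4⟩
      · exact Or.inl h1
      · exact Or.inr ⟨p, p1, p2, (aff_eq_zero_iff ss).2 p3, (aff_eq_zero_iff tt).2 p4⟩
    exact hR.toRel (fun x => mem_affL ss) (fun x => mem_affL tt) (fun x => mem_affL_una ss)
      (fun x => mem_affL_una tt)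
  · -- the measure
    obtain ⟨j, z, hz, hzN, hzu, hzv⟩ := h.pt
    have key : ∀ j, ∀ z ∈ (F j).tr (una s a₀ w) (una t b₀ w') false ∩
        (F j).tr (una s a₀ w) (una t b₀ w') true,
        z ∈ (F j).tr u v false ∩ (F j).tr u v true ∧ (F j).ch z ∉ N := by
      rintro j z ⟨h1, h2⟩
      rw [Face.mem_tr_false] at h1
      rw [Face.mem_tr_true] at h2
      have hM := (F j).ch_mem h1.1
      have hU := (F j).subU hM
      have h3 := hcross (F j).i₀ (h.goodF j)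
        (show (F j).ch z ∈ _ from ⟨⟨⟨hM, hU⟩, (mem_affL_una ss).1 h1.2⟩, ⟨hM, hU⟩,
          (mem_affL_una tt).1 h2.2⟩)
      refine ⟨⟨?_, ?_⟩, h3.2⟩
      · rw [Face.mem_tr_false]
        exact ⟨h1.1, (mem_affL ss).2 h3.1.1.2⟩
      · rw [Face.mem_tr_true]
        exact ⟨h1.1, (mem_affL tt).2 h3.1.2.2⟩
    refine less_of_cross hD hS (fun j z hz => (key j z hz).1) (j := j) (x := z) ⟨?_, ?_⟩
      fun hz' => (key j z hz').2 hzN
    · rw [Face.mem_tr_false]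
      exact ⟨hz, hzu ▸ h.ha⟩
    · rw [Face.mem_tr_true]
      exact ⟨hz, hzv ▸ h.hb⟩
  · have h1 := una_aff (u := u) (a₀ := a₀) ss x
    have h2 := una_aff (u := v) (a₀ := b₀) tt x
    unfold una at h1 h2 ⊢
    rw [(hout x hx).1, (hout x hx).2]
    exact ⟨h1, h2⟩

/-- the new sheet is a ball, for all small parameters (circles) -/
def NewBallC (D : Data E ι) (N : Set E) (u fh : E → ℝ) : Prop :=
  ∃ δ₁ > 0, ∀ δ, 0 < δ → δ ≤ δ₁ → ∀ η Mc, 0 < η → 0 < Mc → ∀ w : E → ℝ, w = ciU N η Mc δ u fh →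
    ConBall 2 {x | x ∈ D.U ∧ w x = 0} ({x | x ∈ D.U ∧ w x = 0} ∩ D.B)

/-- **the step, circles in the levels of `u`** -/
theorem GeoC.exists_step [Finite ι] [FiniteDimensional ℝ E] [Fintype J] (hD : D.Ok)
    (hS : State D u v) (h : GeoC D F u s a₀ N fh L c₀ c) (hv : ∀ x ∈ N, v x ∉ D.b)
    (hb : NewBallC D N (aff s a₀ u) fh) :
    ∃ u', State D u' v ∧ Rel D u v u' v ∧ Less F u' v u v ∧ ∀ x ∉ N, u' x = u x := by
  have ss := h.ss
  set u₁ := aff s a₀ u with hu₁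
  set A := affL s a₀ D.a with hA
  have hA0 : (0:ℝ) ∈ A := zero_mem_affL h.ha
  obtain ⟨θ, hθ, hθc, hcore, B, hB, hBN, Dx, hDx, H⟩ := h.ex.exists_remove
  obtain ⟨δ₁, hδ₁, HT⟩ := hb
  obtain ⟨δ, hδ, hδm, hδD⟩ := exists_small hDx (lt_min hδ₁ (show 0 < θ / 4 by linarith))
  have hδθ : 4 * δ ≤ θ := by have := hδm.trans (min_le_right _ _); linarith
  obtain ⟨η₁, hη₁, Hη₁⟩ := exists_eta s a₀ D.a
  set η := min θ η₁ with hη
  have hη0 : 0 < η := lt_min hθ hη₁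
  set Mc := 2 * B / θ with hMc
  have hM0 : 0 < Mc := by positivity
  have hηA : ∀ a ∈ A, a < 0 → η < -a := fun a ha ha0 =>
    (min_le_right _ _).trans_lt (Hη₁ a ha ha0)
  set w := ciU N η Mc δ u₁ fh with hw
  have levA := h.levu.affL
  obtain ⟨⟨k1, k2⟩, -, -, kreg⟩ := H δ hδ hδθ hδD η Mc hη0 (min_le_left _ _) hM0 le_rfl w rfl
  obtain ⟨r1, r2⟩ := kreg v D.U A D.b levA hv hηA
    (fun x hx hxa => reg_aff_u hD hS ss hx hxa)
    (fun x hx hxa hxb => by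
      have h1 := reg_aff₂ (u := u) (v := v) (s := s) (a₀ := a₀) (t := 1) (b₀ := 0) ss
        (by norm_num) (hS.reguv x hx ((mem_affL ss).2 hxa) hxb) (contAt_u hD hS hx)
        (contAt_v hD hS hx)
      refine h1.congr_fun (Eventually.of_forall fun y => ?_)
      show (u₁ y, v y) = (aff s a₀ u y, 1 * (v y - 0))
      rw [one_mul, sub_zero])
  have q1 := HT δ hδ (hδm.trans (min_le_left _ _)) η Mc hη0 hM0 w rfl
  obtain ⟨hsub, hrel⟩ := CiIn.rel (U := D.U) (M := D.M) (v := v) hη0 hM0 hδ hw hA0 levA hv hηA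
  have hout : ∀ x ∉ N, w x = u₁ x := fun x hx => ciU_of_notMem hx
  have hin : ∀ x ∈ N, w x ≤ u₁ x ∧ min (u₁ x) (-η) ≤ w x := by
    intro x hx
    rw [hw, ciU_of_mem hx]
    exact ⟨min_le_left _ _, min_le_min_left _ (le_max_left _ _)⟩
  -- levels
  have hneu : ∀ k ∈ D.a, k ≠ a₀ → ∀ x, (una s a₀ w x = k ↔ u x = k) := fun k hk hka x =>
    level_ne ss h.levu hηA hout hin hk hka x
  have su : ∀ k ∈ D.a, k ≠ a₀ → {x | x ∈ D.U ∧ una s a₀ w x = k} = {x | x ∈ D.U ∧ u x = k} :=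
    fun k hk hka => by ext x; exact and_congr_right fun _ => hneu k hk hka x
  have su0 : {x | x ∈ D.U ∧ una s a₀ w x = a₀} = {x | x ∈ D.U ∧ w x = 0} := by
    ext x; exact and_congr_right fun _ => una_eq_iff ss
  have ou : ∀ x ∉ N, una s a₀ w x = u x := fun x hx => by
    have := una_aff (u := u) (a₀ := a₀) ss x
    unfold una at this ⊢
    rw [hout x hx]; exact this
  have hT0 := hS.two
  have hT : H341.TwoFam 1 D.U D.B D.a (fun k => {x | x ∈ D.U ∧ una s a₀ w x = k}) D.b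
      (fun l => {x | x ∈ D.U ∧ v x = l}) := by
    refine ⟨hT0.hC, fun k hk => ?_, fun k hk x hx => hx.1, fun k hk k' hk' hne => ?_, hT0.hT,
      hT0.hTC, hT0.hTd, fun k hk l hl hne => ?_⟩
    · by_cases hka : k = a₀
      · subst hka
        rw [su0]; exact q1
      · rw [su k hk hka]; exact hT0.hS k hk
    · rw [Set.disjoint_left]
      rintro x ⟨-, h1⟩ ⟨-, h2⟩
      exact hne (h1.symm.trans h2)
    · have e : {x | x ∈ D.U ∧ una s a₀ w x = k} ∩ {x | x ∈ D.U ∧ v x = l} =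
          {x | x ∈ D.U ∧ u x = k} ∩ {x | x ∈ D.U ∧ v x = l} := by
        ext x
        simp only [mem_inter_iff, mem_ofPred_eq]
        have : v x = l → x ∉ N := fun h1 h2 => hv x h2 (h1 ▸ hl)
        constructor
        · rintro ⟨⟨h1, h2⟩, h3, h4⟩
          rw [ou x (this h4)] at h2
          exact ⟨⟨h1, h2⟩, h3, h4⟩
        · rintro ⟨⟨h1, h2⟩, h3, h4⟩
          refine ⟨⟨h1, ?_⟩, h3, h4⟩
          rw [ou x (this h4)]; exact h2
      rw [e] at hne ⊢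
      exact hT0.hX k hk l hl hne
  refine ⟨una s a₀ w, ?_, ?_, ?_, fun x hx => ou x hx⟩
  · exact
      { conu := conicalOn_una k1
        contu := continuousOn_una k2
        conv := hS.conv
        contv := hS.contv
        regu := fun x hx hxa => reg_una ss (r1 x hx ((mem_affL_una ss).1 hxa))
          (k2.continuousAt (hD.isOpen.mem_nhds (hD.UW hx)))
        regv := hS.regv
        reguv := fun x hx hxa hxb => by
          have h1 := reg_una₂ (w := w) (w' := v) (s := s) (a₀ := a₀) (t := 1) (b₀ := 0) ss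
            (by norm_num) (r2 x hx ((mem_affL_una ss).1 hxa) hxb)
            (k2.continuousAt (hD.isOpen.mem_nhds (hD.UW hx))) (contAt_v hD hS hx)
          refine Reg.congr_fun h1 (Eventually.of_forall fun y => ?_)
          show (una s a₀ w y, v y) = (una s a₀ w y, (0:ℝ) + 1 * v y)
          rw [one_mul, zero_add]
        two := hT
        off := off_new hS h.ex.cN h.NU h.NB fun x hx => ⟨ou x hx, rfl⟩ }
  · have hR := hrel fun i => by
      rcases h.good i with h1 | ⟨σ, hσ, h1⟩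
      · exact Or.inl h1
      · exact Or.inr ⟨σ, hσ, fun x hx => ⟨(h1 x hx).1, (h1 x hx).2.1,
          (aff_eq_zero_iff ss).2 (h1 x hx).2.2⟩⟩
    exact hR.toRel (fun x => mem_affL ss) (fun x => Iff.rfl) (fun x => mem_affL_una ss)
      (fun x => Iff.rfl)
  · obtain ⟨j, σ, hσ, hσC, hσN⟩ := h.pt
    have key : ∀ j, ∀ z ∈ (F j).tr (una s a₀ w) v false,
        z ∈ (F j).tr u v false ∧ (F j).ch z ∉ N := by
      intro j z h1
      rw [Face.mem_tr_false] at h1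
      have hM := (F j).ch_mem h1.1
      have hU := (F j).subU hM
      have h3 := hsub (F j).i₀ (h.goodF j)
        (show (F j).ch z ∈ _ from ⟨⟨hM, hU⟩, (mem_affL_una ss).1 h1.2⟩)
      refine ⟨?_, h3.2⟩
      rw [Face.mem_tr_false]
      exact ⟨h1.1, (mem_affL ss).2 h3.1.2⟩
    have hne : σ.Nonempty := by
      obtain ⟨φ⟩ := hσ
      exact ⟨φ.toFun (1, 0), φ.mapsTo (by simp [Prod.norm_def])⟩
    obtain ⟨z, hz⟩ := hne
    refine less_of_circle hD hS (fun j i => ?_) (j := j) (i := false) hσ (fun z hz => ?_)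
      fun hsub' => (key j z (hsub' hz)).2 (hσN z hz).1
    · cases i
      · exact fun z hz => (key j z hz).1
      · exact Subset.rfl
    · rw [Face.mem_tr_false]
      exact ⟨hσC hz, (hσN z hz).2 ▸ h.ha⟩

end step

end P073.H805
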