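import Vale.Agent.P073.H805.TSheet

/-!
# P073, H805: the new sheet for circles, exchange of the two families
-/

set_option linter.unusedSectionVars false

open Set Metric Topology Filter

namespace P073.H805

open P073 P073.TR P073.H936

variable {E : Type*} [NormedAddCommGroup E] [NormedSpace ℝ E] {ι : Type*}

namespace PlIn

variable {W N O : Set E} {M : ι → Set E} {u fh : E → ℝ} {L : E →ₗ[ℝ] ℝ} {c₀ κ : ℝ} {X : Set E}

/-- **(T) for circles** -/
theorem newBallC [Finite ι] [FiniteDimensional ℝ E] {D : H579.Data E ι}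
    (h : PlIn D.W N O D.M u (fun _ => 1) fh L c₀ κ X) (hP : H341.One D.U D.B u)
    (NU : N ⊆ D.U) (NB : Disjoint N D.B) {γ : Set E} (disc : ConBall 2 X γ) (hX : X.Nonempty)
    (hγ : ∀ x ∈ X, (x ∈ γ ↔ u x = 0)) : NewBallC D N u fh := by
  obtain ⟨d, hd, H⟩ := h.exists_par
  have z0 : (0:ℝ) ∈ Icc 0 d := ⟨le_rfl, hd.le⟩
  refine ⟨d, hd, fun δ hδ hδd η Mc hη hM w hw => ?_⟩
  obtain ⟨hint, Φ, hΦ⟩ := H 0 z0 0 z0 δ ⟨hδ.le, hδd⟩
  have hγX : γ ⊆ X := disc.1
  have himg : ∀ Y ⊆ X, Φ.symm.toFun '' Y =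
      {x | (x ∈ N ∧ -0 ≤ u x ∧ -0 ≤ (1:ℝ) ∧ fh x = -δ) ∧ Φ.toFun x ∈ Y} := by
    intro Y hY
    ext x
    constructor
    · rintro ⟨y, hy, rfl⟩
      exact ⟨Φ.mapsTo_inv (hY hy), by
        show Φ.toFun (Φ.invFun y) ∈ Y
        rw [Φ.right_inv (hY hy)]; exact hy⟩
    · rintro ⟨hx, hy⟩
      exact ⟨Φ.toFun x, hy, Φ.left_inv hx⟩
  have eX : Φ.symm.toFun '' X = {x | x ∈ N ∧ 0 ≤ u x ∧ fh x + δ = 0} := by
    rw [himg X Subset.rfl]
    ext x
    constructor
    · rintro ⟨⟨k1, k2, k3, k4⟩, -⟩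
      exact ⟨k1, by linarith, by linarith⟩
    · rintro ⟨k1, k2, k4⟩
      have hx : x ∈ N ∧ -0 ≤ u x ∧ -0 ≤ (1:ℝ) ∧ fh x = -δ :=
        ⟨k1, by linarith, by norm_num, by linarith⟩
      exact ⟨hx, Φ.mapsTo hx⟩
  have eγ : Φ.symm.toFun '' γ = {x | x ∈ N ∧ u x = 0 ∧ fh x + δ = 0} := by
    rw [himg γ hγX]
    ext x
    constructor
    · rintro ⟨hx, hy⟩
      have k5 := (hΦ x hx).1.1 ((hγ _ (Φ.mapsTo hx)).1 hy)
      obtain ⟨k1, k2, k3, k4⟩ := hx
      exact ⟨k1, by linarith, by linarith⟩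
    · rintro ⟨k1, k2, k4⟩
      have hx : x ∈ N ∧ -0 ≤ u x ∧ -0 ≤ (1:ℝ) ∧ fh x = -δ :=
        ⟨k1, by linarith, by norm_num, by linarith⟩
      exact ⟨hx, (hγ _ (Φ.mapsTo hx)).2 ((hΦ x hx).1.2 (by linarith))⟩
  have hF : H341.FlatC D.U D.B N u (fun x => fh x + δ) := by
    refine ⟨h.ex.cN.isClosed, NU, NB, h.ex.fcont.add continuousOn_const, ?_, ?_, ?_⟩
    · rw [← eX, ← eγ]
      exact disc.image Φ.symm Subset.rfl
    · rintro x ⟨k1, k2, k4⟩
      exact hint ⟨k1, by linarith, by norm_num, by linarith⟩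
    · obtain ⟨p, hp⟩ := hX
      obtain ⟨k1, -, k3⟩ := (h.hX p (h.XO hp)).1 hp
      have hf : fh p = 0 := by
        rw [h.fO p (h.XO hp), k3]
        exact min_eq_left h.ex.cpos.le
      exact ⟨p, interior_subset (h.XN hp), k1, by rw [hf]; linarith⟩
  refine hF.new_sheet hP ?_
  ext x
  simp only [mem_ofPred_eq]
  refine and_congr_right fun _ => ?_
  by_cases hx : x ∈ N
  · rw [hw, ciU_of_mem hx, ciU_eq_zero_iff hη hM]
    simp only [hx, not_true_eq_false, false_and, true_and, false_or]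
    constructor
    · rintro (⟨k1, k2⟩ | ⟨k1, k2⟩)
      · exact Or.inl ⟨k1, by linarith⟩
      · exact Or.inr ⟨k1, by linarith⟩
    · rintro (⟨k1, k2⟩ | ⟨k1, k2⟩)
      · exact Or.inl ⟨k1, by linarith⟩
      · exact Or.inr ⟨k1, by linarith⟩
  · rw [hw, ciU_of_notMem hx]
    simp [hx]

end PlIn

/-! ### the two families exchanged -/

section swap

open P073.H579

variable {D : Data E ι} {J : Type*} {F : J → Face D} {u v u' v' : E → ℝ}

/-- the data with the two families exchanged -/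
def swapD (D : Data E ι) : Data E ι where
  M := D.M
  W := D.W
  U := D.U
  B := D.B
  a := D.b
  b := D.a
  u₀ := D.v₀
  v₀ := D.u₀

/-- the face for the exchanged data -/
def swapF (F : Face D) : Face (swapD D) where
  i₀ := F.i₀
  o := F.o
  L := F.L
  C := F.C
  inj := F.inj
  convex := F.convex
  compact := F.compact
  cone := F.cone
  int := F.int
  eq := F.eq
  subU := F.subU
  intB := F.intB

theorem ok_swap (h : D.Ok) : (swapD D).Ok := ⟨h.isOpen, h.UW, h.cone, h.ball, h.iU, h.iB⟩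

theorem state_swap (hD : D.Ok) (h : State D u v) : State (swapD D) v u where
  conu := h.conv
  contu := h.contv
  conv := h.conu
  contv := h.contu
  regu := h.regv
  regv := h.regu
  reguv := fun x hx h1 h2 => Reg.swap (h.reguv x hx h2 h1)
    (h.contu.continuousAt (hD.isOpen.mem_nhds (hD.UW hx)))
    (h.contv.continuousAt (hD.isOpen.mem_nhds (hD.UW hx)))
  two := h.two.swap
  off := by
    obtain ⟨K, h1, h2, h3⟩ := h.off
    exact ⟨K, h1, h2, fun x hx => ⟨(h3 x hx).2, (h3 x hx).1⟩⟩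

theorem state_unswap (hD : D.Ok) (h : State (swapD D) v u) : State D u v :=
  state_swap (ok_swap hD) h

theorem rel_unswap (h : Rel (swapD D) v u v' u') : Rel D u v u' v' where
  off := fun i h1 => (h.off i (Disjoint.symm h1)).symm
  cnt := fun i h1 h2 h3 => by
    obtain ⟨k1, k2, k3⟩ := h.cnt i (Disjoint.symm h1) h3 h2
    exact ⟨k2, k1, by rw [add_comm, add_comm (Tu D i u).ncard]; exact k3⟩
  circ := fun i h1 h2 σ hσ => by
    have := h.circ i (Disjoint.symm h1) (fun σ hσ => ⟨(h2 σ hσ).2, (h2 σ hσ).1⟩) σ hσ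
    exact ⟨this.2, this.1⟩

theorem nX_swap [Fintype J] (u v : E → ℝ) : nX (fun j => swapF (F j)) v u = nX F u v := by
  unfold nX
  refine Finset.sum_congr rfl fun j _ => ?_
  rw [inter_comm]
  rfl

theorem nC_swap [Fintype J] (u v : E → ℝ) : nC (fun j => swapF (F j)) v u = nC F u v := by
  unfold nC
  refine Finset.sum_congr rfl fun j _ => ?_
  rw [add_comm]
  rfl

theorem less_unswap [Fintype J] (h : Less (fun j => swapF (F j)) v' u' v u) :
    Less F u' v' u v := by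
  unfold Less at h ⊢
  rw [nX_swap, nX_swap, nC_swap, nC_swap] at h
  exact h

/-- the step for the exchanged data -/
theorem step_unswap [Fintype J] {N : Set E} (hD : D.Ok) (h : ∃ v' u', State (swapD D) v' u' ∧
    Rel (swapD D) v u v' u' ∧ Less (fun j => swapF (F j)) v' u' v u ∧
      ∀ x ∉ N, v' x = v x ∧ u' x = u x) :
    ∃ u' v', State D u' v' ∧ Rel D u v u' v' ∧ Less F u' v' u v ∧
      ∀ x ∉ N, u' x = u x ∧ v' x = v x := by
  obtain ⟨v', u', h1, h2, h3, h4⟩ := h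
  exact ⟨u', v', state_unswap hD h1, rel_unswap h2, less_unswap h3, fun x hx =>
    ⟨(h4 x hx).2, (h4 x hx).1⟩⟩

end swap

end P073.H805
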