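import Vale.Agent.P073.H805.StepB
import Vale.Agent.P073.H341.GeoDefs
import Vale.Agent.P073.H341.Shift

/-!
# P073, H805: the new sheets are discs, from (PAR) and H341's `Flat.new_sheet`
-/

set_option linter.unusedSectionVars false

open Set Metric Topology Filter

namespace P073.H805

open P073 P073.TR P073.H936

variable {E : Type*} [NormedAddCommGroup E] [NormedSpace ℝ E] {ι : Type*}

theorem isArc_image {F : Type*} [NormedAddCommGroup F] [NormedSpace ℝ F] {A : Set E} {p q : E}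
    (h : IsArc A p q) {X : Set E} {Y : Set F} (Φ : ConHomeo X Y) (hA : A ⊆ X) :
    IsArc (Φ.toFun '' A) (Φ.toFun p) (Φ.toFun q) := by
  obtain ⟨φ, h0, h1⟩ := h
  exact ⟨φ.trans (Φ.restr φ.conicalSet_right hA), by
    show Φ.toFun (φ.toFun 0) = _
    rw [h0], by
    show Φ.toFun (φ.toFun 1) = _
    rw [h1]⟩

/-- the plane picture of a bigon -/
structure PlIn (W N O : Set E) (M : ι → Set E) (u v fh : E → ℝ) (L : E →ₗ[ℝ] ℝ) (c₀ κ : ℝ)
    (X : Set E) : Prop where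
  ex : ExIn W N M u v fh L c₀ κ
  oO : IsOpen O
  fO : ∀ x ∈ O, fh x = min (L x + c₀) κ
  fN : ∀ x, x ∉ O → fh x = κ
  nor : ∃ n, L n = 1
  face : ∀ x ∈ O, ∃ i, ∀ᶠ y in 𝓝 x, (y ∈ M i ↔ L y + c₀ = 0)
  XO : X ⊆ O
  XN : X ⊆ interior N
  cX : IsCompact X
  hX : ∀ x ∈ O, (x ∈ X ↔ 0 ≤ u x ∧ 0 ≤ v x ∧ L x + c₀ = 0)

namespace PlIn

variable {W N O : Set E} {M : ι → Set E} {u v fh : E → ℝ} {L : E →ₗ[ℝ] ℝ} {c₀ κ : ℝ} {X : Set E}

/-- **parallel copies of the flat disc** -/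
theorem exists_par [FiniteDimensional ℝ E] (h : PlIn W N O M u v fh L c₀ κ X) :
    ∃ d > 0, ∀ c₁ ∈ Icc 0 d, ∀ c₂ ∈ Icc 0 d, ∀ c₃ ∈ Icc 0 d,
      ({x | x ∈ N ∧ -c₁ ≤ u x ∧ -c₂ ≤ v x ∧ -c₃ ≤ fh x} ⊆ interior N) ∧
      ∃ Φ : ConHomeo {x | x ∈ N ∧ -c₁ ≤ u x ∧ -c₂ ≤ v x ∧ fh x = -c₃} X,
        ∀ x ∈ {x | x ∈ N ∧ -c₁ ≤ u x ∧ -c₂ ≤ v x ∧ fh x = -c₃},
          (u (Φ.toFun x) = 0 ↔ u x = -c₁) ∧ (v (Φ.toFun x) = 0 ↔ v x = -c₂) := by
  obtain ⟨n, hn⟩ := h.nor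
  obtain ⟨N', hN', hXN', hN'O⟩ := exists_compact_between h.cX (h.oO.inter isOpen_interior)
    (subset_inter h.XO h.XN)
  have hκ := h.ex.cpos
  have hN'N : N' ⊆ N := fun x hx => interior_subset (hN'O hx).2
  have hOW : O ∩ interior N ⊆ W := fun x hx => h.ex.NW (interior_subset hx.2)
  have hcon : ConicalSet (O ∩ interior N) := (h.oO.inter isOpen_interior).conicalSet
  have hP : ParIn (O ∩ interior N) N' M u v L c₀ n := by
    refine ⟨h.oO.inter isOpen_interior, hN', hN'O, h.ex.ucon.mono hcon hOW, h.ex.ucont.mono hOW,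
      h.ex.vcon.mono hcon hOW, h.ex.vcont.mono hOW, hn, fun x hx h0 h1 h2 => ?_,
      fun x hx h0 => h.ex.ru x (hN'N hx) h0, fun x hx h0 => h.ex.rv x (hN'N hx) h0,
      fun x hx h0 h1 => h.ex.ruv x (hN'N hx) h0 h1, fun x hx _ => h.face x (hN'O hx).1⟩
    exact hXN' ((h.hX x (hN'O hx).1).2 ⟨h1, h2, h0⟩)
  obtain ⟨d, hd, H⟩ := hP.exists_par
  obtain ⟨θ, hθ, -, hcore⟩ := h.ex.exists_theta
  -- near the level `fh = 0`
  have cu : ContinuousOn u N := h.ex.ucont.mono h.ex.NW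
  have cv : ContinuousOn v N := h.ex.vcont.mono h.ex.NW
  have hK : IsCompact (N \ interior N') := h.ex.cN.diff isOpen_interior
  obtain ⟨m, hm, Hm⟩ : ∃ m > 0, ∀ x ∈ N, |fh x| ≤ m → -m ≤ u x → -m ≤ v x → x ∈ interior N' := by
    by_cases hne : (N \ interior N').Nonempty
    swap
    · refine ⟨1, one_pos, fun x hx _ _ _ => ?_⟩
      by_contra hx'
      exact hne ⟨x, hx, hx'⟩
    have hcont : ContinuousOn (fun x => min (-|fh x|) (min (u x) (v x))) (N \ interior N') :=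
      ((h.ex.fcont.abs.neg).inf (cu.inf cv)).mono sdiff_subset
    obtain ⟨x₀, hx₀, hmax⟩ := hK.exists_isMaxOn hne hcont
    have hneg : min (-|fh x₀|) (min (u x₀) (v x₀)) < 0 := by
      by_contra hc0
      push Not at hc0
      have a1 : 0 ≤ -|fh x₀| := hc0.trans (min_le_left _ _)
      have a2 : fh x₀ = 0 := abs_nonpos_iff.1 (by linarith)
      have a3 : 0 ≤ u x₀ := hc0.trans ((min_le_right _ _).trans (min_le_left _ _))
      have a4 : 0 ≤ v x₀ := hc0.trans ((min_le_right _ _).trans (min_le_right _ _))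
      have hO : x₀ ∈ O := by
        by_contra hO
        have := h.fN x₀ hO
        linarith
      have a5 := h.fO x₀ hO
      have a6 : L x₀ + c₀ = 0 := by
        rw [a2] at a5
        rcases le_total (L x₀ + c₀) κ with h1 | h1
        · rw [min_eq_left h1] at a5; exact a5.symm
        · rw [min_eq_right h1] at a5; linarith
      exact hx₀.2 (hXN' ((h.hX x₀ hO).2 ⟨a3, a4, a6⟩))
    set m' := min (-|fh x₀|) (min (u x₀) (v x₀)) with hm'
    refine ⟨-m' / 2, by linarith, fun x hx h1 h2 h3 => ?_⟩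
    by_contra hx'
    have h4 : min (-|fh x|) (min (u x) (v x)) ≤ m' := hmax ⟨hx, hx'⟩
    have h5 : -(-m' / 2) ≤ min (-|fh x|) (min (u x) (v x)) :=
      le_min (by linarith) (le_min h2 h3)
    linarith
  set d' := min (min d m) θ with hd'
  have hd'0 : 0 < d' := lt_min (lt_min hd hm) hθ
  have dd : d' ≤ d := (min_le_left _ _).trans (min_le_left _ _)
  have dm : d' ≤ m := (min_le_left _ _).trans (min_le_right _ _)
  have dθ : d' ≤ θ := min_le_right _ _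
  -- the regions agree
  have key : ∀ c₁ ∈ Icc 0 d', ∀ c₂ ∈ Icc 0 d', ∀ c₃ ∈ Icc 0 d',
      parE N' u v L c₀ c₁ c₂ c₃ = {x | x ∈ N ∧ -c₁ ≤ u x ∧ -c₂ ≤ v x ∧ fh x = -c₃} := by
    intro c₁ h₁ c₂ h₂ c₃ h₃
    ext x
    constructor
    · rintro ⟨k1, k2, k3, k4⟩
      refine ⟨hN'N k1, k3, k4, ?_⟩
      rw [h.fO x (hN'O k1).1, k2]
      exact min_eq_left (by have := h₃.1; linarith)
    · rintro ⟨k1, k3, k4, k2⟩
      have hx : x ∈ N' := by
        refine interior_subset (Hm x k1 ?_ ?_ ?_)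
        · rw [k2, abs_neg, abs_of_nonneg h₃.1]; exact h₃.2.trans dm
        · have := h₁.2.trans dm; linarith
        · have := h₂.2.trans dm; linarith
      refine ⟨hx, ?_, k3, k4⟩
      have a5 := h.fO x (hN'O hx).1
      rw [k2] at a5
      rcases le_total (L x + c₀) κ with h1 | h1
      · rw [min_eq_left h1] at a5; exact a5.symm
      · rw [min_eq_right h1] at a5; have := h₃.1; linarith
  have key0 : parE N' u v L c₀ 0 0 0 = X := by
    ext x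
    constructor
    · rintro ⟨k1, k2, k3, k4⟩
      exact (h.hX x (hN'O k1).1).2 ⟨by linarith, by linarith, by linarith⟩
    · intro hx
      obtain ⟨k1, k2, k3⟩ := (h.hX x (h.XO hx)).1 hx
      exact ⟨interior_subset (hXN' hx), by linarith, by linarith, by linarith⟩
  refine ⟨d', hd'0, fun c₁ h₁ c₂ h₂ c₃ h₃ => ⟨fun x hx => ?_, ?_⟩⟩
  · refine hcore ⟨hx.1, ?_, ?_, ?_⟩
    · have := h₁.2.trans dθ; have := hx.2.1; linarith
    · have := h₂.2.trans dθ; have := hx.2.2.1; linarith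
    · have := h₃.2.trans dθ; have := hx.2.2.2; linarith
  · obtain ⟨-, Φ, hΦ⟩ := H c₁ ⟨h₁.1, h₁.2.trans dd⟩ c₂ ⟨h₂.1, h₂.2.trans dd⟩ c₃
      ⟨h₃.1, h₃.2.trans dd⟩
    refine ⟨Φ.cast (key c₁ h₁ c₂ h₂ c₃ h₃) key0, fun x hx => ?_⟩
    rw [← key c₁ h₁ c₂ h₂ c₃ h₃] at hx
    exact hΦ x hx

/-- **the shifted configurations are flat bigons** -/
theorem exists_flat [FiniteDimensional ℝ E] (h : PlIn W N O M u v fh L c₀ κ X) {U B : Set E}
    (NU : N ⊆ U) (NB : Disjoint N B) {α β : Set E} {p q : E} (disc : ConBall 2 X (α ∪ β))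
    (arcα : IsArc α p q) (arcβ : IsArc β p q) (hαβ : α ∩ β = {p, q})
    (hα : ∀ x ∈ X, (x ∈ α ↔ u x = 0)) (hβ : ∀ x ∈ X, (x ∈ β ↔ v x = 0)) :
    ∃ d > 0, ∀ c₁ ∈ Icc 0 d, ∀ c₂ ∈ Icc 0 d, ∀ c₃ ∈ Ioc 0 d, ∃ p' q',
      H341.Flat U B N (fun x => u x + c₁) (fun x => v x + c₂) (fun x => fh x + c₃) p' q' := by
  obtain ⟨d, hd, H⟩ := h.exists_par
  refine ⟨d, hd, fun c₁ h₁ c₂ h₂ c₃ h₃ => ?_⟩
  obtain ⟨hint, Φ, hΦ⟩ := H c₁ h₁ c₂ h₂ c₃ ⟨h₃.1.le, h₃.2⟩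
  have hαX : α ⊆ X := subset_union_left.trans disc.1
  have hβX : β ⊆ X := subset_union_right.trans disc.1
  have himg : ∀ Y ⊆ X, Φ.symm.toFun '' Y =
      {x | (x ∈ N ∧ -c₁ ≤ u x ∧ -c₂ ≤ v x ∧ fh x = -c₃) ∧ Φ.toFun x ∈ Y} := by
    intro Y hY
    ext x
    constructor
    · rintro ⟨y, hy, rfl⟩
      exact ⟨Φ.mapsTo_inv (hY hy), by
        show Φ.toFun (Φ.invFun y) ∈ Y
        rw [Φ.right_inv (hY hy)]; exact hy⟩
    · rintro ⟨hx, hy⟩
      exact ⟨Φ.toFun x, hy, Φ.left_inv hx⟩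
  have eX : Φ.symm.toFun '' X = {x | x ∈ N ∧ 0 ≤ u x + c₁ ∧ 0 ≤ v x + c₂ ∧ fh x + c₃ = 0} := by
    rw [himg X Subset.rfl]
    ext x
    constructor
    · rintro ⟨⟨k1, k2, k3, k4⟩, -⟩
      exact ⟨k1, by linarith, by linarith, by linarith⟩
    · rintro ⟨k1, k2, k3, k4⟩
      have hx : x ∈ N ∧ -c₁ ≤ u x ∧ -c₂ ≤ v x ∧ fh x = -c₃ :=
        ⟨k1, by linarith, by linarith, by linarith⟩
      exact ⟨hx, Φ.mapsTo hx⟩
  have eα : Φ.symm.toFun '' α = {x | x ∈ N ∧ u x + c₁ = 0 ∧ 0 ≤ v x + c₂ ∧ fh x + c₃ = 0} := by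
    rw [himg α hαX]
    ext x
    constructor
    · rintro ⟨hx, hy⟩
      have k5 := (hΦ x hx).1.1 ((hα _ (Φ.mapsTo hx)).1 hy)
      obtain ⟨k1, k2, k3, k4⟩ := hx
      exact ⟨k1, by linarith, by linarith, by linarith⟩
    · rintro ⟨k1, k2, k3, k4⟩
      have hx : x ∈ N ∧ -c₁ ≤ u x ∧ -c₂ ≤ v x ∧ fh x = -c₃ :=
        ⟨k1, by linarith, by linarith, by linarith⟩
      exact ⟨hx, (hα _ (Φ.mapsTo hx)).2 ((hΦ x hx).1.2 (by linarith))⟩
  have eβ : Φ.symm.toFun '' β = {x | x ∈ N ∧ 0 ≤ u x + c₁ ∧ v x + c₂ = 0 ∧ fh x + c₃ = 0} := by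
    rw [himg β hβX]
    ext x
    constructor
    · rintro ⟨hx, hy⟩
      have k5 := (hΦ x hx).2.1 ((hβ _ (Φ.mapsTo hx)).1 hy)
      obtain ⟨k1, k2, k3, k4⟩ := hx
      exact ⟨k1, by linarith, by linarith, by linarith⟩
    · rintro ⟨k1, k2, k3, k4⟩
      have hx : x ∈ N ∧ -c₁ ≤ u x ∧ -c₂ ≤ v x ∧ fh x = -c₃ :=
        ⟨k1, by linarith, by linarith, by linarith⟩
      exact ⟨hx, (hβ _ (Φ.mapsTo hx)).2 ((hΦ x hx).2.2 (by linarith))⟩
  refine ⟨Φ.symm.toFun p, Φ.symm.toFun q, h.ex.cN.isClosed, NU, NB,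
    h.ex.fcont.add continuousOn_const, ?_, ?_, ?_, ?_, ?_, ?_⟩
  · rw [← eX, ← eα, ← eβ, ← image_union]
    exact disc.image Φ.symm Subset.rfl
  · rw [← eα]; exact isArc_image arcα Φ.symm hαX
  · rw [← eβ]; exact isArc_image arcβ Φ.symm hβX
  · have e1 : {x | x ∈ N ∧ u x + c₁ = 0 ∧ v x + c₂ = 0 ∧ fh x + c₃ = 0} =
        Φ.symm.toFun '' α ∩ Φ.symm.toFun '' β := by
      rw [eα, eβ]
      ext x
      constructor
      · rintro ⟨k1, k2, k3, k4⟩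
        exact ⟨⟨k1, k2, k3.ge, k4⟩, k1, k2.ge, k3, k4⟩
      · rintro ⟨⟨k1, k2, -, k4⟩, -, -, k3, -⟩
        exact ⟨k1, k2, k3, k4⟩
    rw [e1, ← Φ.symm.injOn.image_inter hαX hβX, hαβ, image_pair]
  · rintro x ⟨k1, k2, k3, k4⟩
    exact hint ⟨k1, by linarith, by linarith, by linarith⟩
  · -- a point of `X`
    have hp : p ∈ X := hαX (by
      have : p ∈ α ∩ β := by rw [hαβ]; exact Or.inl rfl
      exact this.1)
    obtain ⟨k1, k2, k3⟩ := (h.hX p (h.XO hp)).1 hp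
    have hf : fh p = 0 := by
      rw [h.fO p (h.XO hp), k3]
      exact min_eq_left h.ex.cpos.le
    refine ⟨p, interior_subset (h.XN hp), ?_, ?_, ?_⟩
    · have := h₁.1; linarith
    · have := h₂.1; linarith
    · rw [hf]; have := h₃.1; linarith

/-- **(T)**: the new sheets are discs and meet in an arc -/
theorem newBalls [Finite ι] [FiniteDimensional ℝ E] {D : H579.Data E ι} (hD : D.Ok)
    (h : PlIn D.W N O D.M u v fh L c₀ κ X) (hP : H341.Pair D.U D.B u v)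
    (ru : ∀ x ∈ D.U, u x = 0 → Reg u D.M x) (rv : ∀ x ∈ D.U, v x = 0 → Reg v D.M x)
    (ruv : ∀ x ∈ D.U, u x = 0 → v x = 0 → Reg (fun y => (u y, v y)) D.M x)
    (NU : N ⊆ D.U) (NB : Disjoint N D.B) {α β : Set E} {p q : E} (disc : ConBall 2 X (α ∪ β))
    (arcα : IsArc α p q) (arcβ : IsArc β p q) (hαβ : α ∩ β = {p, q})
    (hα : ∀ x ∈ X, (x ∈ α ↔ u x = 0)) (hβ : ∀ x ∈ X, (x ∈ β ↔ v x = 0)) :
    NewBalls D N u v fh := by
  obtain ⟨d, hd, H⟩ := h.exists_flat NU NB disc arcα arcβ hαβ hα hβ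
  obtain ⟨e₁, he₁, H1⟩ := hP.exists_shift hD.iU hD.iB hD.isOpen hD.UW h.ex.ucont h.ex.vcont
    h.ex.vcon rv ruv
  obtain ⟨e₂, he₂, H2⟩ := hP.swap.exists_shift hD.iU hD.iB hD.isOpen hD.UW h.ex.vcont h.ex.ucont
    h.ex.ucon ru (fun x hx h0 h1 => (ruv x hx h1 h0).swap
      (h.ex.ucont.continuousAt (hD.isOpen.mem_nhds (hD.UW hx)))
      (h.ex.vcont.continuousAt (hD.isOpen.mem_nhds (hD.UW hx))))
  refine ⟨d / 2, by linarith, fun δ hδ hδd => ⟨min d (min e₁ e₂), lt_min hd (lt_min he₁ he₂),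
    fun ε hε hεε η K Mc hη hK hM w w' hw hw' => ?_⟩⟩
  have εd : ε ≤ d := hεε.trans (min_le_left _ _)
  have ε1 : ε ≤ e₁ := hεε.trans ((min_le_right _ _).trans (min_le_left _ _))
  have ε2 : ε ≤ e₂ := hεε.trans ((min_le_right _ _).trans (min_le_right _ _))
  have z0 : (0:ℝ) ∈ Icc 0 d := ⟨le_rfl, hd.le⟩
  have zε : ε ∈ Icc 0 d := ⟨hε.le, εd⟩
  have z1 : δ ∈ Ioc 0 d := ⟨hδ, by linarith⟩
  have z2 : 2 * δ ∈ Ioc 0 d := ⟨by linarith, by linarith⟩
  refine ⟨?_, ?_, ?_⟩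
  · obtain ⟨p', q', hF⟩ := H 0 z0 ε zε δ z1
    simp only [add_zero] at hF
    refine hF.new_sheet (H1 ε hε.le ε1) ?_
    ext x
    simp only [mem_ofPred_eq]
    refine and_congr_right fun _ => ?_
    by_cases hx : x ∈ N
    · rw [hw, exU_of_mem hx, xf_eq_zero_iff hη hK hM]
      simp only [hx, not_true_eq_false, false_and, true_and, false_or]
      constructor
      · rintro (⟨k1, k2 | k2⟩ | ⟨k1, k2, k3⟩ | ⟨k1, k2, k3⟩)
        · exact Or.inl ⟨k1, Or.inl (by linarith)⟩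
        · exact Or.inl ⟨k1, Or.inr (by linarith)⟩
        · exact Or.inr (Or.inl ⟨k1, by linarith, by linarith⟩)
        · exact Or.inr (Or.inr ⟨k1, by linarith, by linarith⟩)
      · rintro (⟨k1, k2 | k2⟩ | ⟨k1, k2, k3⟩ | ⟨k1, k2, k3⟩)
        · exact Or.inl ⟨k1, Or.inl (by linarith)⟩
        · exact Or.inl ⟨k1, Or.inr (by linarith)⟩
        · exact Or.inr (Or.inl ⟨k1, by linarith, by linarith⟩)
        · exact Or.inr (Or.inr ⟨k1, by linarith, by linarith⟩)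
    · rw [hw, exU_of_notMem hx]
      simp [hx]
  · obtain ⟨p', q', hF⟩ := H ε zε 0 z0 (2 * δ) z2
    simp only [add_zero] at hF
    refine hF.swap.new_sheet (H2 ε hε.le ε2) ?_
    ext x
    simp only [mem_ofPred_eq]
    refine and_congr_right fun _ => ?_
    by_cases hx : x ∈ N
    · rw [hw', exU_of_mem hx, xf_eq_zero_iff hη hK hM]
      simp only [hx, not_true_eq_false, false_and, true_and, false_or]
      constructor
      · rintro (⟨k1, k2 | k2⟩ | ⟨k1, k2, k3⟩ | ⟨k1, k2, k3⟩)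
        · exact Or.inl ⟨k1, Or.inl (by linarith)⟩
        · exact Or.inl ⟨k1, Or.inr (by linarith)⟩
        · exact Or.inr (Or.inl ⟨k1, by linarith, by linarith⟩)
        · exact Or.inr (Or.inr ⟨k1, by linarith, by linarith⟩)
      · rintro (⟨k1, k2 | k2⟩ | ⟨k1, k2, k3⟩ | ⟨k1, k2, k3⟩)
        · exact Or.inl ⟨k1, Or.inl (by linarith)⟩
        · exact Or.inl ⟨k1, Or.inr (by linarith)⟩
        · exact Or.inr (Or.inl ⟨k1, by linarith, by linarith⟩)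
        · exact Or.inr (Or.inr ⟨k1, by linarith, by linarith⟩)
    · rw [hw', exU_of_notMem hx]
      simp [hx]
  · obtain ⟨p', q', hF⟩ := H 0 z0 0 z0 (2 * δ) z2
    simp only [add_zero] at hF
    refine hF.new_arc hP ?_
    ext x
    simp only [mem_ofPred_eq]
    refine and_congr_right fun _ => ?_
    by_cases hx : x ∈ N
    · rw [hw, hw', exU_of_mem hx, exU_of_mem hx, xf_both_zero_iff hη hK hM hε hδ]
      simp only [hx, not_true_eq_false, false_and, true_and, false_or]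
      constructor
      · rintro (⟨k1, k2, k3⟩ | ⟨k1, k2, k3⟩)
        · exact Or.inl ⟨k1, k2, by linarith⟩
        · exact Or.inr ⟨k1, k2, by linarith⟩
      · rintro (⟨k1, k2, k3⟩ | ⟨k1, k2, k3⟩)
        · exact Or.inl ⟨k1, k2, by linarith⟩
        · exact Or.inr ⟨k1, k2, by linarith⟩
    · rw [hw, hw', exU_of_notMem hx, exU_of_notMem hx]
      simp [hx]

end PlIn

end P073.H805
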